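import Crest.Agent.N218.D7.OrbK
import Crest.Agent.N218.K.Sus
import Crest.Agent.N218.K.Pd

/-!
# Row 218, block D7 (helper87): ORB, the `e`-class of an orbit problem from the `d`-class
-/

set_option autoImplicit false
set_option linter.unusedVariables false
set_option linter.unusedSectionVars false

open Crest.Agent.R204.K357 unitInterval Topology Filter Set OnePoint

noncomputable section

namespace Crest.Agent.N218.Orb

open K

/-! ## the inverse of `thI` -/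

theorem sg_bd (x : ℝ) : |x| < 2 + √(4 + x ^ 2) := by
  have : |x| ≤ √(4 + x ^ 2) := Real.abs_le_sqrt (by linarith)
  linarith

/-- the inverse of `thI` -/
def sgI (x : ℝ) : I := ⟨1 / 2 + x / (2 * (2 + √(4 + x ^ 2))), by
  have a := abs_lt.1 (sg_bd x)
  have p : 0 < 2 * (2 + √(4 + x ^ 2)) := by positivity
  have h1 : x / (2 * (2 + √(4 + x ^ 2))) ≤ 1 / 2 := by rw [div_le_iff₀ p]; linarith
  have h2 : -(1 / 2) ≤ x / (2 * (2 + √(4 + x ^ 2))) := by rw [le_div_iff₀ p]; linarith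
  constructor <;> linarith⟩

theorem sgI_spec (x : ℝ) : 0 < (sgI x : ℝ) ∧ (sgI x : ℝ) < 1 ∧
    x * ((sgI x : ℝ) * (1 - sgI x)) = 2 * sgI x - 1 := by
  have a := abs_lt.1 (sg_bd x)
  have p : 0 < 2 * (2 + √(4 + x ^ 2)) := by positivity
  have h1 : x / (2 * (2 + √(4 + x ^ 2))) < 1 / 2 := by rw [div_lt_iff₀ p]; linarith
  have h2 : -(1 / 2) < x / (2 * (2 + √(4 + x ^ 2))) := by rw [lt_div_iff₀ p]; linarith
  have e : (sgI x : ℝ) = 1 / 2 + x / (2 * (2 + √(4 + x ^ 2))) := rfl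
  refine ⟨by linarith, by linarith, ?_⟩
  have s : √(4 + x ^ 2) ^ 2 = 4 + x ^ 2 := Real.sq_sqrt (by positivity)
  rw [e]
  generalize √(4 + x ^ 2) = r at *
  have r0 : 2 + r ≠ 0 := by intro h; rw [h] at p; simp at p
  field_simp
  linear_combination x * s

theorem thI_sgI (x : ℝ) : thI (sgI x) = x := by
  obtain ⟨a, b, c⟩ := sgI_spec x
  have h0 : (sgI x : ℝ) * (1 - sgI x) ≠ 0 := (mul_pos a (sub_pos.2 b)).ne'
  unfold thI
  rw [if_neg h0, ← c, mul_div_cancel_right₀ _ h0]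

theorem sp_sgI : SP sgI := by
  refine ⟨Continuous.subtype_mk (continuous_const.add (continuous_id.div (by fun_prop)
    fun x => by positivity)) _, ?_, ?_⟩
  · refine tendsto_subtype_rng.2 (tendsto_of_tendsto_of_tendsto_of_le_of_le' tendsto_const_nhds
      (h := fun x : ℝ => 2 / -x) (tendsto_neg_atBot_atTop.const_div_atTop 2)
      (Eventually.of_forall fun x => (sgI x).2.1) ?_)
    filter_upwards [eventually_lt_atBot 0] with x h
    obtain ⟨a, b, c⟩ := sgI_spec x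
    have k : 2 * (sgI x : ℝ) - 1 < 0 := c ▸ mul_neg_of_neg_of_pos h (mul_pos a (sub_pos.2 b))
    rw [le_div_iff₀ (neg_pos.2 h)]
    nlinarith [mul_pos a (neg_pos.2 h)]
  · have t : Tendsto (fun x : ℝ => 1 - 2 / x) atTop (𝓝 (1 - 0)) :=
      tendsto_const_nhds.sub (tendsto_id.const_div_atTop 2)
    rw [sub_zero] at t
    refine tendsto_subtype_rng.2 (tendsto_of_tendsto_of_tendsto_of_le_of_le' t tendsto_const_nhds
      ?_ (Eventually.of_forall fun x => (sgI x).2.2))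
    filter_upwards [eventually_gt_atTop 0] with x h
    obtain ⟨a, b, c⟩ := sgI_spec x
    have k : 0 < 2 * (sgI x : ℝ) - 1 := c ▸ mul_pos h (mul_pos a (sub_pos.2 b))
    have : 1 - (sgI x : ℝ) ≤ 2 / x := by
      rw [le_div_iff₀ h]
      nlinarith [mul_pos (sub_pos.2 b) h]
    linarith

/-! ## naturality of the defect -/
section nat
variable {X X' : Type} [TopologicalSpace X] [TopologicalSpace X'] {A B S : Ex X} {A' B' S' : Ex X'}
  {g : C(X', X)}

/-- the map of cones -/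
def cnm (a : Hm A' A g) (b : Hm B' B g) (F : H1 A B) (F' : H1 A' B')
    (h : ∀ e, b.f (F'.f e) = F.f (a.f e)) : Cn F →ₐ[ℂ] Cn F' :=
  (((ContinuousMap.compRightAlgHom ℂ ℂ (a.f.prodMap (.id I))).prodMap
    (ContinuousMap.compRightAlgHom ℂ ℂ b.f)).comp (Cn F).val).codRestrict (Cn F') fun u =>
      ⟨fun e => (u.2.1 (a.f e)).trans (congrArg u.1.2 (h e).symm),
        fun e => (u.2.2.1 (a.f e)).trans
          (congrArg u.1.2 ((congrArg B.s (a.hp e)).trans (b.hs _).symm)),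
        fun x t => (congrArg (fun e => u.1.1 (e, t)) (a.hs x)).trans
          ((u.2.2.2 (g x) t).trans (congrArg u.1.2 (b.hs x).symm))⟩

theorem pull_sm (a : Hm A' A g) (ρ : KX X) (x : KX A.E) :
    pull a.f (A.sm ρ x) = A'.sm (pull g ρ) (pull a.f x) := by
  rw [Ex.sm, Ex.sm, map_mul, ← pull_cm, ← pull_cm]
  congr 3
  exact ContinuousMap.ext a.hp

theorem pull_rd (a : Hm A' A g) {x : KX A.E} (h : A.Rd x) : A'.Rd (pull a.f x) := by
  have : a.f.comp A'.s = A.s.comp g := ContinuousMap.ext a.hs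
  rw [Ex.Rd, ← pull_cm, this, pull_cm, show pull A.s x = 0 from h, map_zero]

theorem ecl_pull (a : Hm A' A g) (b : Hm B' B g) (c : Hm S' S g) {F : H1 A B} {F' : H1 A' B'}
    (h : ∀ e, b.f (F'.f e) = F.f (a.f e)) {D : SD A S} {D' : SD A' S'}
    (hD : ∀ e t, c.f (D'.c (e, t)) = D.c (a.f e, t)) {l : KX B.E} {ρ : KX X} {x : KX S.E}
    (k : Ecl F D l ρ x) : Ecl F' D' (pull b.f l) (pull g ρ) (pull c.f x) := by
  obtain ⟨r, μ, e1, e2⟩ := k
  let m : Cn F →ₐ[ℂ] Cn F' := cnm a b F F' h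
  have k1 : (Cn.res F').comp m = (ContinuousMap.compRightAlgHom ℂ ℂ b.f).comp (Cn.res F) := rfl
  have k2 : m.comp (Cn.bas F) = (Cn.bas F').comp (ContinuousMap.compRightAlgHom ℂ ℂ g) :=
    AlgHom.ext fun u => Subtype.ext (Prod.ext
      (ContinuousMap.ext fun z => congrArg u (a.hp z.1))
      (ContinuousMap.ext fun z => congrArg u (b.hp z)))
  have k3 : m.comp (Cn.inc F D) = (Cn.inc F' D').comp (ContinuousMap.compRightAlgHom ℂ ℂ c.f) :=
    AlgHom.ext fun u => Subtype.ext (Prod.ext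
      (ContinuousMap.ext fun z => congrArg u (hD z.1 z.2).symm)
      (ContinuousMap.ext fun z => congrArg u ((congrArg S.s (b.hp z)).trans (c.hs _).symm)))
  refine ⟨pull_rd c r, KA (A := Cn F) (B := Cn F') m μ, ?_, ?_⟩
  · rw [← e1, pull, KA_comp, KA_comp]
    exact congrArg (fun f => KA f μ) k1
  · have := congrArg (KA (A := Cn F) (B := Cn F') m) e2
    rw [map_sub, map_mul, KA_ps, KA_comp, KA_comp, k2, k3, ← KA_comp, ← KA_comp] at this
    exact this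

theorem sm_mul (A : Ex X) (a b : KX X) (x : KX A.E) : A.sm (a * b) x = A.sm a (A.sm b x) := by
  rw [Ex.sm, Ex.sm, Ex.sm, map_mul, mul_assoc]

theorem sm_sub (A : Ex X) (a b : KX X) (x : KX A.E) : A.sm (a - b) x = A.sm a x - A.sm b x := by
  rw [Ex.sm, Ex.sm, Ex.sm, map_sub, sub_mul]

theorem ps_sm (A : Ex X) (a : KX X) (x : KX A.E) : ps _ (A.sm a x) = A.sm (ps _ a) (ps _ x) := by
  rw [Ex.sm, Ex.sm, map_mul, pull, KA_ps]

theorem sm_rd (A : Ex X) (a : KX X) {x : KX A.E} (h : A.Rd x) : A.Rd (A.sm a x) := by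
  rw [Ex.Rd, Ex.sm, map_mul, show pull A.s x = 0 from h, mul_zero]

theorem th_inj {A : Ex X} {l : KX A.E} (h : A.Th l) {a b : KX X} (e : A.sm a l = A.sm b l) :
    a = b := (h.2 _ (sm_rd A a h.1)).unique rfl e
end nat

variable {G : Type} [Group G] [TopologicalSpace G] [CompactSpace G]

/-- restriction of the group, on the base -/
def rsB {Γ : Type} [Group Γ] [TopologicalSpace Γ] (φ : G →* Γ) (hφ : Continuous φ) (Y : GS Γ) :
    C((Y.res φ hφ).Q, Y.Q) := GS.qmap _ _ (.id _) fun g _ => ⟨φ g, rfl⟩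

/-- restriction of the group, on the sphere bundles -/
def rsS {Γ : Type} [Group Γ] [TopologicalSpace Γ] [CompactSpace Γ] (φ : G →* Γ)
    (hφ : Continuous φ) (Y : GS Γ) (V : LS Γ) :
    Hm (Sb (Y.res φ hφ) (V.res φ hφ)) (Sb Y V) (rsB φ hφ Y) where
  f := GS.qmap _ (Y.prod V.sph) (.id _) fun g z => ⟨φ g, Prod.ext rfl (by
    obtain ⟨y, w⟩ := z
    induction w using OnePoint.rec <;> rfl)⟩
  hp e := by obtain ⟨y, w, rfl⟩ := pt_surj e; rfl
  hs x := by obtain ⟨y, rfl⟩ := GS.pr_surj _ x; rfl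


/-- restriction of the group, on problems -/
def rsP {Γ : Type} [Group Γ] [TopologicalSpace Γ] (φ : G →* Γ) (hφ : Continuous φ) {Y : GS Γ}
    {V : LS Γ} {W : Rep Γ} (P : FP Y V W) : FP (Y.res φ hφ) (V.res φ hφ) (W.res φ hφ) := ⟨P.O, P.f⟩

section rs
variable {Γ : Type} [Group Γ] [TopologicalSpace Γ] [CompactSpace Γ] (φ : G →* Γ)
  (hφ : Continuous φ) {Y : GS Γ} {V : LS Γ} {W : Rep Γ} {P : FP Y V W}

theorem rsP_ok (h : P.Ok) : (rsP φ hφ P).Ok :=
  ⟨h.op, fun g => h.inv (φ g), h.ct, fun g => h.eq (φ g), h.cp⟩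

theorem rsP_rp (h : P.Ok) {F : H1 (Sb Y V) (Sb Y W.ls)} (r : P.Rp F) :
    ∃ F', (rsP φ hφ P).Rp F' ∧
      ∀ e, (rsS φ hφ Y W.ls).f (F'.f e) = F.f ((rsS φ hφ Y V).f e) := by
  obtain ⟨χ, c, e⟩ := r
  have c' : (rsP φ hφ P).Cut χ := ⟨c.ct, c.nn, c.cp, c.sub, c.pos, fun g => c.inv (φ g)⟩
  obtain ⟨F', a, b⟩ := c'.rp (rsP_ok φ hφ h)
  refine ⟨F', b, sb_ind (fun y => ?_) fun y w => ?_⟩
  · exact (congrArg _ (F'.f_inf y)).trans (F.f_inf y).symm
  · exact (congrArg _ (a y w)).trans (e y w).symm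
end rs

variable {q : ℕ} {φ : G →* Circle} {hφ : Continuous φ} {M N : LS Circle} {Y : GS Circle}
  {W : Rep Circle} (d : OD q φ M N)

/-- the zero section of `L ^ q` -/
theorem OD.exists_j (Y : GS Circle) : ∃ j : H1 (Sb Y (R1 M)) (Sb Y (R1 N)),
    Rg j fun x => OnePoint.some (d.e (x.2.1, 0), x.2.2) := by
  have c : IsClosedEmbedding fun x : M.Z × ℝ => (d.e (x.1, 0), x.2) :=
    Function.LeftInverse.isClosedEmbedding (f := fun z : N.Z × ℝ => ((d.e.symm z.1).1, z.2))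
      (fun x => by simp only [d.e.symm_apply_apply]) (by fun_prop) (by fun_prop)
  refine Pm.exists_rg ⟨continuous_coe.comp (c.continuous.comp continuous_snd), fun K' k =>
    ⟨_, c.isCompact_preimage k, fun p w w' n e m => n ?_⟩, fun γ y w => ?_⟩
  · rwa [← coe_injective e] at m
  · refine congrArg OnePoint.some (Prod.ext ?_ rfl)
    change _ = N.act γ (d.e (w.1, 0))
    rw [d.he, mul_zero]
    rfl

/-- **ORB** (free of conventions): `t1`, `t2` are Thom classes at the level of the circle,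
`t2` restricts to `c • t1` on the zero section of `L ^ q`. -/
theorem OD.main {P : FP (Y.res φ hφ) ((R1 M).res φ hφ) (W.res φ hφ)} (hP : P.Ok)
    {l : KS Y W.ls} (hl : (Sb Y W.ls).Rd l) {ρ ρ' c : KX Y.Q}
    (ex : ∀ F : H1 (Sb Y N) (Sb Y W.ls), ∃ x, Ecl F (sd Y N) l ρ x)
    {t1 : KS Y (R1 M)} (h1 : (Sb Y (R1 M)).Th t1) (p1 : ps _ t1 = (Sb Y (R1 M)).sm ρ' t1)
    {t2 : KS Y (R1 N)} (h2 : (Sb Y (R1 N)).Th t2)
    (hj : ∀ j : H1 (Sb Y (R1 M)) (Sb Y (R1 N)),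
      (Rg j fun x => OnePoint.some (d.e (x.2.1, 0), x.2.2)) →
        pull j.f t2 = (Sb Y (R1 M)).sm c t1) :
    ∃ a e : KX Y.Q, c * e = ρ' * ps _ a - ρ * a ∧
      P.pb (pull (rsS φ hφ Y W.ls).f l) =
        (Sb _ _).sm (pull (rsB φ hφ Y) a) (pull (rsS φ hφ Y (R1 M)).f t1) ∧
      ∃ F', (rsP φ hφ (d.orb P)).Rp F' ∧
        Ecl F' (sd (Y.res φ hφ) (N.res φ hφ)) (pull (rsS φ hφ Y W.ls).f l) (pull (rsB φ hφ Y) ρ)
          ((Sb _ _).sm (pull (rsB φ hφ Y) e) (pull (rsS φ hφ Y (R1 N)).f t2)) := by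
  have ok := d.ok hP
  obtain ⟨x, hx⟩ := ex (d.orb P).hm
  obtain ⟨j, ej⟩ := d.exists_j Y
  obtain ⟨e, rfl, -⟩ := h2.2 x hx.1
  obtain ⟨F', r', s'⟩ := rsP_rp φ hφ ok ok.rp_hm
  have E := ecl_pull (rsS φ hφ Y N) (rsS φ hφ Y W.ls) (rsS φ hφ Y (R1 N)) s'
    (D := sd Y N) (D' := sd (Y.res φ hφ) (N.res φ hφ))
    (fun z t => by obtain ⟨y, w, rfl⟩ := pt_surj z; rfl) hx
  obtain ⟨-, μ, m1, m2⟩ := hx
  obtain ⟨μ₀, a0, a1, χ, cχ, a2⟩ := d.core hP ok.rp_hm sp_sgI (sd Y N)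
    (fun y z l => by rw [sd_c, thI_sgI]; rfl) j.f j.f_inf (fun y v l => ej y (v, l))
    (rsS φ hφ Y (R1 M)).f (fun _ _ => rfl) (rsS φ hφ Y W.ls).f (fun _ _ => rfl) μ
  rw [m1] at a0 a2
  obtain ⟨a, rfl, -⟩ := h1.2 μ₀ (a0.trans hl)
  refine ⟨a, e, th_inj h1 ?_, ?_, F', r', ?_⟩
  · have := a1 ρ _ m2
    rw [pull_sm j, hj j ej, ps_sm, p1, ← sm_mul, ← sm_mul, ← sm_mul, ← sm_sub] at this
    rw [mul_comm ρ', mul_comm c, this]
    congr 2
    exact (ka_id e).symm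
  · obtain ⟨F2, b1, b2⟩ := cχ.rp hP
    rw [← pull_sm, a2 F2.f F2.f_inf b1]
    exact DFunLike.congr_fun (b2.ht_hm hP).pull_eq _
  · rw [pull_sm] at E
    exact E

end Crest.Agent.N218.Orb

end
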