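import Mathlib
import Crest.Agent.N218.K.Pb
import Crest.Agent.N218.Fo.Rp
import Crest.Agent.N218.Al.Orb

-- ▼ part N218/D7/Geo
section

/-!
# Row 218, block D7 (helper75): the normalised norm map and its zeros, split by support pattern
-/

set_option autoImplicit false
set_option linter.unusedSectionVars false

open Set

noncomputable section

namespace Crest.Agent.N218.D7

variable {ι : Type} [Fintype ι] {B W : Type} [NormedAddCommGroup B]
  [NormedAddCommGroup W] [NormedSpace ℝ W]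

/-- the odd part with respect to the involution `s` of the sites -/
def mn (s : ι → ι) (y : ι → W) : ι → W := fun i => (2⁻¹ : ℝ) • (y i - y (s i))

/-- honest families in normal form -/
structure NF (v : B × W → W) (a : ℝ) : Prop where
  ct : Continuous v
  sm : ∀ x y, ‖y‖ ≤ a → v (x, y) = y
  far : ∀ x y, 1 ≤ ‖x‖ → v (x, y) = y
  pr : ∀ c, ∃ R, ∀ x y, R ≤ ‖y‖ → c ≤ ‖v (x, y)‖

/-- cut-off functions of the normalisation -/
structure Cu (s : ι → ι) (τ : (ι → W) → ℝ) (δ : ℝ) : Prop where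
  ct : Continuous τ
  nn : ∀ y, 0 ≤ τ y
  le : ∀ y, τ y ≤ 1
  one : ∀ y, δ ≤ ‖mn s y‖ → τ y = 1
  zero : ∃ d > 0, ∀ y, ‖mn s y‖ < d → τ y = 0

/-- the normalised norm map, base point `b i` at the site `i` -/
def nz (s : ι → ι) (τ : (ι → W) → ℝ) (v : B × W → W) (b : ι → B) (y : ι → W) : ι → W :=
  fun i => v (b i, y i - (1 - τ y) • mn s y i) + (1 - τ y) • mn s y i

/-- free points with support pattern `S` -/
def Os (s : ι → ι) (δ : ℝ) (S : Set ι) : Set (ι → W) :=
  {y | mn s y ≠ 0 ∧ (∀ i ∈ S, 5 / 2 * δ < ‖y i‖) ∧ ∀ i ∉ S, ‖y i‖ < 5 / 2 * δ}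

omit [Fintype ι] in
theorem continuous_mn (s : ι → ι) : Continuous (mn s : (ι → W) → ι → W) := by
  unfold mn; fun_prop

theorem isOpen_Os (s : ι → ι) (δ : ℝ) (S : Set ι) : IsOpen (Os s δ S : Set (ι → W)) := by
  have e : (Os s δ S : Set (ι → W)) = {y | mn s y ≠ 0} ∩ ((⋂ i ∈ S, {y | 5 / 2 * δ < ‖y i‖}) ∩
      ⋂ i ∈ Sᶜ, {y | ‖y i‖ < 5 / 2 * δ}) := by
    ext y; simp [Os]
  rw [e]
  refine (isOpen_ne_fun (continuous_mn s) continuous_const).inter (IsOpen.inter ?_ ?_)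
  · exact (toFinite S).isOpen_biInter fun i _ => isOpen_lt continuous_const (by fun_prop)
  · exact (toFinite Sᶜ).isOpen_biInter fun i _ => isOpen_lt (by fun_prop) continuous_const

omit [Fintype ι] in
theorem Os_inj {s : ι → ι} {δ : ℝ} {S S' : Set ι} {y : ι → W} (h : y ∈ Os s δ S)
    (h' : y ∈ Os s δ S') : S = S' := by
  ext i
  exact ⟨fun a => by_contra fun b => lt_asymm (h.2.1 i a) (h'.2.2 i b),
    fun a => by_contra fun b => lt_asymm (h'.2.1 i a) (h.2.2 i b)⟩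

omit [Fintype ι] in
theorem mn_comp {s e : ι → ι} (h : ∀ i, e (s i) = s (e i)) (y : ι → W) :
    mn s (fun i => y (e i)) = fun i => mn s y (e i) := by
  funext i; simp [mn, h]

omit [Fintype ι] in
theorem mem_Os_comp {s : ι → ι} (e : ι ≃ ι) (h : ∀ i, e (s i) = s (e i)) {δ : ℝ} {S : Set ι}
    {y : ι → W} : (fun i => y (e i)) ∈ Os s δ (e ⁻¹' S) ↔ y ∈ Os s δ S := by
  simp only [Os, mem_ofPred_eq, mn_comp h, mem_preimage]
  refine and_congr (not_congr ⟨fun a => funext fun i => ?_, fun a => funext fun i => ?_⟩)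
    (and_congr ⟨fun a i k => ?_, fun a i k => a _ k⟩ ⟨fun a i k => ?_, fun a i k => a _ k⟩)
  · simpa using congrFun a (e.symm i)
  · simp [a]
  · simpa using a (e.symm i) (by simpa using k)
  · simpa using a (e.symm i) (by simpa using k)

omit [Fintype ι] [NormedAddCommGroup B] in
theorem nz_comp {s e : ι → ι} (h : ∀ i, e (s i) = s (e i)) {τ : (ι → W) → ℝ} (v : B × W → W)
    (b : ι → B) {y : ι → W} (ht : τ (fun i => y (e i)) = τ y) :
    nz s τ v (fun i => b (e i)) (fun i => y (e i)) = fun i => nz s τ v b y (e i) := by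
  funext i; simp [nz, mn_comp h, ht]

variable {s : ι → ι} {τ : (ι → W) → ℝ} {δ a : ℝ} {v : B × W → W}

theorem continuous_nz {P : Type} [TopologicalSpace P] (hv : Continuous v) (ht : Continuous τ)
    {β : P → ι → B} (hb : Continuous β) {y : P → ι → W} (hy : Continuous y) :
    Continuous fun p => nz s τ v (β p) (y p) := by
  refine continuous_pi fun i => ?_
  have a : Continuous fun p => (1 - τ (y p)) • mn s (y p) i :=
    (continuous_const.sub (ht.comp hy)).smul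
      ((continuous_apply i).comp ((continuous_mn s).comp hy))
  exact (hv.comp (((continuous_apply i).comp hb).prodMk
    (((continuous_apply i).comp hy).sub a))).add a

theorem Cu.small (ht : Cu s τ δ) (hd : 0 ≤ δ) (y : ι → W) (i : ι) :
    ‖(1 - τ y) • mn s y i‖ ≤ δ := by
  rcases le_total δ ‖mn s y‖ with h | h
  · simp [ht.one y h, hd]
  · rw [norm_smul, Real.norm_of_nonneg (sub_nonneg.2 (ht.le y))]
    have := norm_le_pi_norm (mn s y) i
    nlinarith [ht.nn y, ht.le y, norm_nonneg (mn s y i)]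

/-- every coordinate of a zero is small, or far with a base point in the unit ball -/
theorem zero_pat (hv : NF v a) (ht : Cu s τ δ) (hd : 0 ≤ δ) (ha : 4 * δ ≤ a) {b : ι → B}
    {y : ι → W} (h : nz s τ v b y = 0) (i : ι) :
    (‖y i‖ ≤ 2 * δ ∧ y i = 0) ∨ (3 * δ ≤ ‖y i‖ ∧ ‖b i‖ < 1) := by
  have e := congrFun h i
  simp only [nz, Pi.zero_apply] at e
  have k := ht.small hd y i
  by_cases c : v (b i, y i - (1 - τ y) • mn s y i) = y i - (1 - τ y) • mn s y i
  · rw [c, sub_add_cancel] at e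
    exact .inl ⟨by simp [e, hd], e⟩
  · refine .inr ⟨?_, not_le.1 fun k => c (hv.far _ _ k)⟩
    have := not_le.1 fun k => c (hv.sm _ _ k)
    have := norm_sub_le (y i) ((1 - τ y) • mn s y i)
    linarith

theorem zero_bdd (hv : NF v a) (ht : Cu s τ δ) (hd : 0 ≤ δ) :
    ∃ R, ∀ (b : ι → B) (y : ι → W), nz s τ v b y = 0 → ‖y‖ ≤ R := by
  obtain ⟨R, hR⟩ := hv.pr (δ + 1)
  refine ⟨|R| + δ, fun b y h => (pi_norm_le_iff_of_nonneg (by positivity)).2 fun i => ?_⟩
  have e := congrFun h i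
  simp only [nz, Pi.zero_apply] at e
  have k := ht.small hd y i
  have : ‖y i - (1 - τ y) • mn s y i‖ < R := not_le.1 fun c => by
    have := hR (b i) _ c
    rw [eq_neg_of_add_eq_zero_left e, norm_neg] at this
    linarith
  have := norm_add_le (y i - (1 - τ y) • mn s y i) ((1 - τ y) • mn s y i)
  rw [sub_add_cancel] at this
  linarith [le_abs_self R]

theorem zero_gap (hs : ∀ i, s (s i) = i) (ht : Cu s τ δ) : ∃ d > 0, ∀ (v : B × W → W) (b : ι → B)
    (y : ι → W), (∀ i, b (s i) = b i) → nz s τ v b y = 0 → mn s y ≠ 0 → d ≤ ‖mn s y‖ := by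
  obtain ⟨d, d0, hd⟩ := ht.zero
  refine ⟨d, d0, fun v b y hb h n => not_lt.1 fun c => n (funext fun i => ?_)⟩
  have e := congrFun h i
  have e' := congrFun h (s i)
  simp only [nz, hd y c, sub_zero, one_smul, Pi.zero_apply, hb] at e e'
  have a : y (s i) - mn s y (s i) = y i - mn s y i := by simp only [mn, hs]; module
  have a' : mn s y (s i) = -mn s y i := by simp only [mn, hs]; module
  rw [a, a'] at e'
  have : (2 : ℝ) • mn s y i = 0 := by linear_combination (norm := module) e - e'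
  simpa using this

/-- every free zero has a nonempty pattern -/
theorem zero_mem (hv : NF v a) (ht : Cu s τ δ) (hd : 0 < δ) (ha : 4 * δ ≤ a) {b : ι → B}
    {y : ι → W} (h : nz s τ v b y = 0) (n : mn s y ≠ 0) :
    ∃ S : Set ι, S.Nonempty ∧ y ∈ Os s δ S := by
  have p := zero_pat hv ht hd.le ha h
  refine ⟨{i | 3 * δ ≤ ‖y i‖}, ?_, n, fun i k => ?_, fun i k => ?_⟩
  · by_contra c
    refine n (funext fun i => ?_)
    have z : ∀ i, y i = 0 := fun i => ((p i).resolve_right fun k => c ⟨i, k.1⟩).2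
    simp [mn, z]
  · have : 3 * δ ≤ ‖y i‖ := k
    linarith
  · have := ((p i).resolve_right fun c => k c.1).1
    linarith

/-- the zeros with a given pattern form a compact set -/
theorem zero_cpt [FiniteDimensional ℝ W] {P : Type} [TopologicalSpace P]
    (hs : ∀ i, s (s i) = i) (hv : NF v a) (ht : Cu s τ δ) (hd : 0 < δ) (ha : 4 * δ ≤ a)
    {β : P → ι → B} (hb : Continuous β) (sb : ∀ p i, β p (s i) = β p i) {S : Set ι} {C : Set P}
    (hC : IsCompact C) (hS : ∀ p, (∀ i ∈ S, ‖β p i‖ < 1) → p ∈ C) :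
    IsCompact {z : P × (ι → W) | z.2 ∈ Os s δ S ∧ nz s τ v (β z.1) z.2 = 0} := by
  obtain ⟨R, hR⟩ := zero_bdd hv ht hd.le
  obtain ⟨d, d0, gap⟩ := zero_gap (B := B) hs ht
  have e : {z : P × (ι → W) | z.2 ∈ Os s δ S ∧ nz s τ v (β z.1) z.2 = 0} =
      (C ×ˢ Metric.closedBall 0 R) ∩ ({z | nz s τ v (β z.1) z.2 = 0} ∩ ({z | d ≤ ‖mn s z.2‖} ∩
        ((⋂ i ∈ S, {z | 3 * δ ≤ ‖z.2 i‖}) ∩ ⋂ i ∈ Sᶜ, {z | ‖z.2 i‖ ≤ 2 * δ}))) := by
    ext ⟨p, y⟩
    simp only [mem_ofPred_eq, mem_inter_iff, mem_prod, mem_closedBall_zero_iff, mem_iInter,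
      mem_compl_iff]
    refine ⟨fun ⟨o, z⟩ => ?_, fun ⟨_, z, g, k, k'⟩ => ⟨⟨fun c => ?_, fun i c => ?_,
      fun i c => ?_⟩, z⟩⟩
    · have p' := zero_pat hv ht hd.le ha z
      have k : ∀ i ∈ S, 3 * δ ≤ ‖y i‖ ∧ ‖β p i‖ < 1 := fun i c =>
        (p' i).resolve_left fun k => by linarith [k.1, o.2.1 i c]
      exact ⟨⟨hS p fun i c => (k i c).2, hR _ _ z⟩, z, gap v _ y (sb p) z o.1,
        fun i c => (k i c).1, fun i c =>
          ((p' i).resolve_right fun k => by linarith [k.1, o.2.2 i c]).1⟩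
    · rw [c, norm_zero] at g; linarith
    · linarith [k i c]
    · linarith [k' i c]
  rw [e]
  have : ProperSpace (ι → W) := FiniteDimensional.proper_real _
  refine (hC.prod (isCompact_closedBall 0 R)).inter_right (IsClosed.inter
    (isClosed_eq (continuous_nz hv.ct ht.ct (hb.comp continuous_fst) continuous_snd)
      continuous_const) (IsClosed.inter (isClosed_le continuous_const
        ((continuous_mn s).comp continuous_snd).norm) (IsClosed.inter ?_ ?_)))
  · exact isClosed_biInter fun i _ => isClosed_le continuous_const (by fun_prop)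
  · exact isClosed_biInter fun i _ => isClosed_le (by fun_prop) continuous_const

end Crest.Agent.N218.D7

end
end

-- ▼ part N218/D7/Grp
section

/-!
# Row 218, block D7 (helper75): stabilisers of patterns, the sign function
-/

set_option autoImplicit false

namespace Crest.Agent.N218.D7

/-- subgroups of `ZMod q` are generated by divisors of `q` -/
theorem sub_gen {q : ℕ} [NeZero q] (H : AddSubgroup (ZMod q)) : ∃ h c : ℕ, q = h * c ∧
    ∀ a : ZMod q, a ∈ H ↔ ∃ b : ℕ, a = b * c := by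
  classical
  have ex : ∃ c : ℕ, 0 < c ∧ (c : ZMod q) ∈ H := ⟨q, NeZero.pos q, by simp [H.zero_mem]⟩
  obtain ⟨c0, cH⟩ := Nat.find_spec ex
  set c := Nat.find ex
  have key : ∀ n : ℕ, (n : ZMod q) ∈ H → c ∣ n := fun n hn => by
    by_contra k
    have p : 0 < n % c := Nat.pos_of_ne_zero fun e => k (Nat.dvd_of_mod_eq_zero e)
    refine Nat.find_min ex (Nat.mod_lt n c0) ⟨p, ?_⟩
    have : ((n % c : ℕ) : ZMod q) = n - (n / c) • (c : ZMod q) := by
      rw [eq_sub_iff_add_eq, nsmul_eq_mul, ← Nat.cast_mul, ← Nat.cast_add, mul_comm,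
        Nat.mod_add_div]
    rw [this]
    exact H.sub_mem hn (H.nsmul_mem cH _)
  obtain ⟨h, hh⟩ := key q (by simp [H.zero_mem])
  refine ⟨h, c, hh.trans (mul_comm _ _), fun a => ⟨fun ha => ?_, fun ⟨b, hb⟩ => ?_⟩⟩
  · obtain ⟨b, hb⟩ := key a.val (by rwa [ZMod.natCast_zmod_val])
    exact ⟨b, by rw [← ZMod.natCast_zmod_val a, hb]; push_cast; ring⟩
  · rw [hb, ← nsmul_eq_mul]
    exact H.nsmul_mem cH _

/-- the stabiliser of a function on the sites -/
def stb {q : ℕ} {α : Type} (y : ZMod q → α) : AddSubgroup (ZMod q) where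
  carrier := {a | ∀ i, y (i + a) = y i}
  zero_mem' := fun i => by rw [add_zero]
  add_mem' := fun {a b} ha hb i => by rw [← add_assoc, hb, ha]
  neg_mem' := fun {a} ha i => by rw [← ha, neg_add_cancel_right]

/-- the stabiliser of a pattern is generated by a divisor of `q` -/
theorem stab {q : ℕ} [NeZero q] (S : Set (ZMod q)) : ∃ h c : ℕ, q = h * c ∧
    ∀ a : ZMod q, (fun i => i + a) ⁻¹' S = S ↔ ∃ b : ℕ, a = b * c := by
  obtain ⟨h, c, e, k⟩ := sub_gen (stb fun i => i ∈ S)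
  exact ⟨h, c, e, fun a => Iff.trans (Set.ext_iff.trans
    (forall_congr' fun i => ⟨propext, Eq.to_iff⟩)) (k a)⟩

/-- divisors of a power of two -/
theorem div_cases {k h c : ℕ} (e : 2 ^ k = h * c) :
    h = 1 ∨ h = 2 ∨ ∃ s, s ≠ 0 ∧ h = s + s + (s + s) := by
  obtain ⟨j, -, rfl⟩ := (Nat.dvd_prime_pow Nat.prime_two).1 ⟨c, e⟩
  match j with
  | 0 => exact .inl rfl
  | 1 => exact .inr (.inl rfl)
  | j + 2 => exact .inr (.inr ⟨2 ^ j, by positivity, by ring⟩)

theorem div_cases' {k h c : ℕ} (e : 2 ^ k = h * c) : c = 1 ∨ ∃ m, c = m + m := by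
  obtain ⟨j, -, rfl⟩ := (Nat.dvd_prime_pow Nat.prime_two).1 ⟨h, e.trans (mul_comm _ _)⟩
  match j with
  | 0 => exact .inl rfl
  | j + 1 => exact .inr ⟨2 ^ j, by ring⟩

/-- points moved by the involution are free -/
theorem free_of {k : ℕ} {α : Type} {y : ZMod (2 ^ (k + 1)) → α} {a : ZMod (2 ^ (k + 1))}
    (ha : ∀ i, y (i + a) = y i) (a0 : a ≠ 0) (i : ZMod (2 ^ (k + 1))) :
    y (i + ((2 ^ k : ℕ) : ZMod (2 ^ (k + 1)))) = y i := by
  obtain ⟨h, c, e, H⟩ := sub_gen (stb y)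
  rcases div_cases' (e.trans (mul_comm _ _)) with rfl | ⟨m, rfl⟩
  · obtain ⟨b, rfl⟩ := (H a).1 ha
    rw [one_mul] at e
    exact absurd (by rw [← e, ZMod.natCast_self, mul_zero]) a0
  · refine (H _).2 ⟨m, ?_⟩ i
    rw [← Nat.cast_mul]; congr 1
    rw [pow_succ, add_mul] at e; omega

/-- the sign of a site -/
def sg {q : ℕ} (c : ℕ) (i : ZMod q) : ℝ := (-1) ^ (i.val / c)

theorem sg_abs {q : ℕ} (c : ℕ) (i : ZMod q) : |sg c i| = 1 := by simp [sg, abs_pow]

theorem sg_add {q h c : ℕ} [NeZero q] (e : q = h * c) (ev : Even h) (i : ZMod q) (b : ℕ) :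
    sg c (i + (b : ZMod q) * (c : ZMod q)) = (-1) ^ b * sg c i := by
  have c0 : 0 < c := Nat.pos_of_ne_zero fun k => NeZero.ne q (by rw [e, k, mul_zero])
  have a : i + (b : ZMod q) * (c : ZMod q) = ((i.val + b * c : ℕ) : ZMod q) := by push_cast; rw [ZMod.natCast_zmod_val]
  rw [sg, sg, a, ZMod.val_natCast, ← pow_add]
  obtain ⟨m, rfl⟩ := ev
  have d := Nat.mod_add_div (i.val + b * c) q
  generalize (i.val + b * c) % q = r at *
  generalize (i.val + b * c) / q = n at *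
  have : b + i.val / c = r / c + 2 * (m * n) := by
    rw [add_comm, ← Nat.add_mul_div_right _ _ c0, ← d, ← Nat.add_mul_div_right _ _ c0, e]
    congr 1; ring
  rw [this, pow_add, pow_mul]; simp

end Crest.Agent.N218.D7
end

-- ▼ part N218/D7/Defs

/-!
# Row 218, block D7 (helper75): the abstract `d`-invariant over an 11-dimensional base (FROZEN)
-/

set_option autoImplicit false
set_option linter.unusedVariables false

open Set

noncomputable section

namespace Crest.Agent.N218.D7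

open K Fo Al

/-- the cyclic group of order `h` -/
abbrev Ch (h : ℕ) : Type := Multiplicative (ZMod h)

variable (B : Type) [NormedAddCommGroup B] [NormedSpace ℝ B] [FiniteDimensional ℝ B]
  [LocallyCompactSpace B] (q : ℕ) [NeZero q] (E : Type) [NormedAddCommGroup E] [NormedSpace ℂ E]
  [FiniteDimensional ℂ E]

/-- `E ⊗ ℂ[C_q]` as a representation of `C_h` -/
abbrev Vh (h : ℕ) [NeZero h] : Rep (Ch h) := (cir q E).res (inc h) (inc_cont h)
/-- the source of a problem over `B` -/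
abbrev X0 (h : ℕ) [NeZero h] : LS (Ch h) := (LS.triv (Ch h) B).prod (Vh q E h).ls
/-- `5 L ^ m` -/
abbrev Nn (h : ℕ) [NeZero h] (m : ℕ) : Rep (Ch h) :=
  (UU (pw m) (pw_cont m) 5).res (inc h) (inc_cont h)
/-- the source of a problem over `B × 5 L ^ m` -/
abbrev X1 (h : ℕ) [NeZero h] (m : ℕ) : LS (Ch h) := (X0 B q E h).prod (Nn h m).ls
/-- problems over `B` -/
abbrev P0 (h : ℕ) [NeZero h] : Type := PB (X0 B q E h) (Vh q E h)

/-- `D h P a`: the series `a` (in `L = 1 - t`) represents `d P ∈ K (S (7 L) / C_h)` -/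
structure DT where
  D : (h : ℕ) → [NeZero h] → P0 B q E h → S → Prop
  /-- existence; the rank vanishes -/
  ex : ∀ (h : ℕ) [NeZero h] (P : P0 B q E h), P.Fr → ∃ a ∈ OS, D h P (t * a)
  /-- no zeros -/
  emp : ∀ P : P0 B q E q, P.Fr → P.Z = ∅ → D q P 0
  /-- disjoint sums (with excision) -/
  sum : ∀ (P Q Q' : P0 B q E q) (a a' : S), P.Fr → Q.Fr → Q'.Fr → Q.O ⊆ P.O → Q'.O ⊆ P.O →
    (∀ x ∈ Q.O, Q.f x = P.f x) → (∀ x ∈ Q'.O, Q'.f x = P.f x) → Disjoint Q.O Q'.O →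
    P.Z ⊆ Q.O ∪ Q'.O → D q Q a → D q Q' a' → D q P (a + a')
  /-- induced problems (`c = 1`: excision) -/
  trf : ∀ (h c : ℕ) [NeZero h], q = h * c → ∀ (P : P0 B q E q) (Q : P0 B q E h) (a : S),
    P.Fr → Q.Fr → (∀ x : B × (ZMod q → E), x ∈ Q.O → x ∈ P.O ∧ Q.f x = P.f x) →
    (∀ (x : B × (ZMod q → E)) (g : ZMod q), x ∈ Q.O → (x.1, sh g x.2) ∈ Q.O →
      ∃ b : ℕ, g = b * c) →
    (∀ x : B × (ZMod q → E), x ∈ P.Z → ∃ g : ZMod q, (x.1, sh g x.2) ∈ Q.O) →
    a ∈ OS → D h Q a → D q P (N (L ^ h) c * a)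
  /-- problems that extend over `5 L ^ (h / 2)`, `h = 4 s` -/
  ext : ∀ (s : ℕ) [NeZero (s + s + (s + s))]
    (R : PB (X1 B q E (s + s + (s + s)) (s + s)) (Vh q E (s + s + (s + s)))) (d : S), R.Fr →
    D (s + s + (s + s)) (R.comap fun x => (x, (0 : Fin 5 → ℂ))) d →
    ∃ x ∈ OS, ∃ y ∈ OS, ∃ b, ∃ b' ∈ OS, t ^ 4 * d = (1 - L ^ (s + s)) ^ 5 * (2 * x + t * y) +
      t ^ 11 * b + (1 - L ^ (s + s + (s + s))) * b'

variable {B q E}

/-- the free part of the normalised norm map of `v` -/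
def zP (m : ZMod q) (τ : (ZMod q → E) → ℝ) (v : B × E → E) : P0 B q E q :=
  ⟨{x : B × (ZMod q → E) | mn (· + m) x.2 ≠ 0},
    fun x : B × (ZMod q → E) => nz (· + m) τ v (fun _ => x.1) x.2⟩

end Crest.Agent.N218.D7

/-- **CORE** -/
def Crest.Agent.N218.D7.CORE : Prop :=
  open Crest.Agent.N218 D7 Al Fo in
  ∀ (B : Type) [NormedAddCommGroup B] [NormedSpace ℝ B] [FiniteDimensional ℝ B]
    [LocallyCompactSpace B] (k : ℕ) (E : Type) [NormedAddCommGroup E] [NormedSpace ℂ E]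
    [FiniteDimensional ℂ E] (T : DT B (2 ^ (k + 1)) E) (τ : (ZMod (2 ^ (k + 1)) → E) → ℝ)
    (v : B × E → E) (δ a : ℝ), 10 ≤ Module.finrank ℝ B → 4 ≤ k → 0 < δ → 4 * δ ≤ a → NF v a →
    Cu (· + ((2 ^ k : ℕ) : ZMod (2 ^ (k + 1)))) τ δ → (∀ g y, τ (sh g y) = τ y) →
    (zP ((2 ^ k : ℕ) : ZMod (2 ^ (k + 1))) τ v).Fr ∧
      ∃ d ∈ OS, T.D _ (zP ((2 ^ k : ℕ) : ZMod (2 ^ (k + 1))) τ v) d ∧ Gd (2 ^ (k + 1)) d

end
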