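import Crest.Agent.N218.D7.Dd
import Crest.Agent.N218.K.Clu
import Crest.Agent.N218.K.Emp
import Crest.Agent.N218.K.Unit

/-!
# Row 218, block D7 (helper72): the instance of `DT`
-/

set_option autoImplicit false
set_option linter.unusedVariables false
set_option linter.unusedSectionVars false

open Set Polynomial Module

noncomputable section

namespace Crest.Agent.N218.D7

open K Fo Al

section
variable {Γ : Type} [Group Γ] [Fintype Γ] [TopologicalSpace Γ] [DiscreteTopology Γ]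
  (χ : Γ →* Circle)

theorem gB_LL : pull (gB χ) (LL i1 continuous_id 7) = LL χ (cc χ) 7 := by
  refine (pull_kc _ (Ln.idem fun x => ?_)).trans (congrArg kc (Matrix.ext fun i j =>
    ContinuousMap.ext fun x => ?_))
  · obtain ⟨u, rfl⟩ := Y7.pr_surj x
    exact ⟨u.1, u.2, fun i j => rfl⟩
  · obtain ⟨u, rfl⟩ := (Sp χ (cc χ) 7).pr_surj x
    rfl

theorem gB_ev (a : ℤ[X]) : pull (gB χ) (ev i1 continuous_id 7 a) = ev χ (cc χ) 7 a := by
  rw [ev, ev, ← gB_LL χ]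
  exact (aeval_algHom_apply (pull (gB χ)).toIntAlgHom _ a).symm

theorem hm_rd {X X' : Type} [TopologicalSpace X] [TopologicalSpace X'] {A : Ex X} {A' : Ex X'}
    {g : C(X', X)} (a : Hm A' A g) {x : KX A.E} (h : A.Rd x) : A'.Rd (pull a.f x) := by
  unfold Ex.Rd at h ⊢
  rw [pull_pull _ _ (A.s.comp g) a.hs, pull_comp, h, map_zero]

/-- uniqueness of the primary class -/
theorem dg_uniq {r : ℕ} {X V : Rep Γ} (h : finrank ℝ X.W + 1 < finrank ℝ V.W + 2 * r)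
    {P : PB X.ls V} {l y y'} (a : Dg χ (cc χ) r P l y) (b : Dg χ (cc χ) r P l y') : y = y' := by
  obtain ⟨F, c, rfl⟩ := a
  obtain ⟨F', c', rfl⟩ := b
  rw [(clu χ r X V h P F F' c c').pull_eq]

/-- existence of the primary class -/
theorem dg_ex {r : ℕ} {X V : Rep Γ} (h : finrank ℝ X.W < finrank ℝ V.W + 2 * r)
    {P : PB X.ls V} (f : P.Fr) : ∃ F, Cl χ (cc χ) r P F :=
  cl_ex f fun x _ =>
    Gp.dm_fin (E := X.W) (W := V.W × (UU χ (cc χ) r).W) (by rw [rk_UU]; exact h) x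

/-- open parts of a problem -/
theorem on_bd {X : LS Γ} {V : Rep Γ} {P Q : PB X V} (p : P.Fr) (q : Q.Fr) (s : Q.O ⊆ P.O)
    (e : ∀ x ∈ Q.O, Q.f x = P.f x) : (P.on Q.O).Bd Q :=
  have l : (P.on Q.O).Le Q := ⟨inter_subset_right, fun x a => (e x a.2).symm,
    fun x a => ⟨s a.1, a.1⟩⟩
  l.hb (l.ok q (p.op.inter q.op) fun g x a => ⟨p.inv g x a.1, q.inv g x a.2⟩) q

variable {B : Type} [NormedAddCommGroup B] [NormedSpace ℝ B] [FiniteDimensional ℝ B]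
  [LocallyCompactSpace B] {q : ℕ} [NeZero q] {E : Type} [NormedAddCommGroup E] [NormedSpace ℂ E]
  [FiniteDimensional ℂ E] (o : OC B q E)

theorem rk_XG (hB : finrank ℝ B = 11) :
    finrank ℝ (XG B q E χ).W + 1 < finrank ℝ (VG q E χ).W + 2 * 7 := by
  have : finrank ℝ (XG B q E χ).W = finrank ℝ B + finrank ℝ (VG q E χ).W :=
    finrank_prod (R := ℝ) (M := B) (M' := (VG q E χ).W)
  omega

theorem lT_rd : (Sb _ _).Rd (lT χ o) := hm_rd (gH χ (TC q E)) o.tT.1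
theorem lT_ps : ps _ (lT χ o) = (Sb _ _).sm (pull (gB χ) o.rT) (lT χ o) :=
  (gH χ (TC q E)).eig o.pT
theorem lS_ps : ps _ (lS χ o) = (Sb _ _).sm (pull (gB χ) o.rS) (lS χ o) :=
  (gH χ (XC B q E).xr).eig o.pS
theorem nm_res : pull (gB χ) o.rS * rU χ (cc χ) 7 = 3 ^ 6 * pull (gB χ) o.rT := by
  have := congrArg (pull (gB χ)) o.nm
  rw [map_mul, map_mul, map_pow, map_ofNat] at this
  exact (congrArg _ (gB_ev χ _).symm).trans this

theorem iS_t : iS (1 - X) = t := by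
  rw [map_sub, map_one, iS, aeval_X, L]; ring

/-- existence; the rank vanishes -/
theorem DG.ex (hK : KLN) (hB : finrank ℝ B = 11) (hχ : Function.Injective χ)
    (hS : (Sb _ _).Th (lS χ o)) (hd : ∃ N c, o.rS * c = 3 ^ N)
    {P : PB (XG B q E χ).ls (VG q E χ)} (f : P.Fr) : ∃ a ∈ OS, DG χ o P (t * a) := by
  obtain ⟨k1, k2, k3⟩ := hK χ 7 hχ (by norm_num)
  obtain ⟨F, c⟩ := dg_ex χ (r := 7) (by have := rk_XG χ (B := B) (q := q) (E := E) hB; omega) f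
  obtain ⟨a, ha⟩ := hS.ex (hm_rd F (lT_rd χ o))
  obtain ⟨p, rfl⟩ := k1 a
  obtain ⟨N, c', hc⟩ := hd
  have e1 := F.eig (lT_ps χ o)
  rw [pull_id, ha] at e1
  have e2 := hS.eig (lS_ps χ o) e1
  have e3 := nm_res χ o
  have e4 := congrArg (pull (gB χ)) hc
  rw [map_mul, map_pow, map_ofNat] at e4
  have e5 : ev χ (cc χ) 7 (3 ^ N * ((1 + X + X ^ 2) ^ 7 * p - 3 ^ 6 * expand ℤ 3 p)) = 0 := by
    rw [map_mul, map_sub, map_mul, map_mul, ← k3, map_pow _ (3 : ℤ[X]), map_pow _ (3 : ℤ[X]),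
      map_ofNat, ← e4]
    change _ * (rU χ (cc χ) 7 * _ - _) = 0
    linear_combination (pull (gB χ) c' * ev χ (cc χ) 7 p) * e3 + 3 ^ 6 * pull (gB χ) c' * e2
  obtain ⟨u, v, e6⟩ := Ideal.mem_span_pair.1 ((k2 _).1 e5)
  have e7 := congrArg (eval 1) e6
  simp only [eval_add, eval_mul, eval_pow, eval_sub, eval_one, eval_X, expand_eval, one_pow,
    eval_ofNat, sub_self] at e7
  have e8 : p.eval 1 = 0 := by
    have : (3 : ℤ) ^ N * (1458 * p.eval 1) = 0 := by linear_combination -e7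
    simpa using this
  obtain ⟨p', rfl⟩ : X - C 1 ∣ p := dvd_iff_isRoot.2 e8
  refine ⟨iS (-p'), Ut.iS_mem _, _, ?_, F, c, ha⟩
  rw [← iS_t, ← map_mul]
  congr 1
  rw [C_1]; ring

/-- no zeros -/
theorem DG.emp {P : PB (XG B q E χ).ls (VG q E χ)} (f : P.Fr) (z : P.Z = ∅) : DG χ o P 0 :=
  ⟨0, (map_zero _).symm, by
    rw [map_zero, Ex.zero_sm]
    exact (K.emp χ 7 _ _ P f z _ _ (lT_rd χ o) (lT_ps χ o)).1⟩

/-- disjoint sums -/
theorem DG.sum (hD : DSUM) (hB : finrank ℝ B = 11) {P Q Q' : PB (XG B q E χ).ls (VG q E χ)}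
    {a a' : S} (p : P.Fr) (f : Q.Fr) (f' : Q'.Fr) (s : Q.O ⊆ P.O) (s' : Q'.O ⊆ P.O)
    (e : ∀ x ∈ Q.O, Q.f x = P.f x) (e' : ∀ x ∈ Q'.O, Q'.f x = P.f x) (d : Disjoint Q.O Q'.O)
    (z : P.Z ⊆ Q.O ∪ Q'.O) (h : DG χ o Q a) (h' : DG χ o Q' a') : DG χ o P (a + a') := by
  have k := rk_XG χ (B := B) (q := q) (E := E) hB
  have b := on_bd p f s e
  have b' := on_bd p f' s' e'
  obtain ⟨y, y', u, u', w⟩ := hD χ 7 _ _ (by omega) P Q.O Q'.O p b.1 b'.1 d z _ (lT_rd χ o)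
  obtain ⟨c, rfl, h⟩ := h
  obtain ⟨c', rfl, h'⟩ := h'
  refine ⟨c + c', (map_add _ _ _).symm, ?_⟩
  rwa [map_add, Ex.add_sm, ← dg_uniq χ k u (h.bd b), ← dg_uniq χ k u' (h'.bd b')]

end

variable {B : Type} [NormedAddCommGroup B] [NormedSpace ℝ B] [FiniteDimensional ℝ B]
  [LocallyCompactSpace B] {q : ℕ} [NeZero q] {E : Type} [NormedAddCommGroup E] [NormedSpace ℂ E]
  [FiniteDimensional ℂ E]

/-- **the `d`-invariant** -/
def dt (hK : KLN) (hD : DSUM) (hB : finrank ℝ B = 11) (o : OC B q E) (ok : OK o) (h1 : TRF o)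
    (h2 : EXT o) : DT B q E where
  D := DD o
  ex h _ P f := DG.ex (inc h) o hK hB (inc_inj h) (ok.tS h) ok.dv f
  emp P f z := DG.emp (inc q) o f z
  sum P Q Q' a a' p f f' s s' e e' d z h h' := DG.sum (inc q) o hD hB p f f' s s' e e' d z h h'
  trf := h1
  ext := h2


end Crest.Agent.N218.D7

end
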