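import Mathlib

/-!
# Row 218, block D7 (helper99): maps into one-point compactifications, smash with the identity
-/

set_option autoImplicit false
set_option linter.unusedSectionVars false
open Topology Filter Set OnePoint

noncomputable section

namespace Crest.Agent.N218.Nf

/-- descent along a surjection from a compact space, with a parameter -/
theorem lift_fam {B X S T : Type*} [TopologicalSpace B] [TopologicalSpace X] [TopologicalSpace S]
    [TopologicalSpace T] [CompactSpace X] [T2Space S] {Q : X → S} (hQ : Continuous Q)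
    (hs : Function.Surjective Q) {F : B × X → T} (hF : Continuous F)
    (h : ∀ b x x', Q x = Q x' → F (b, x) = F (b, x')) :
    ∃ H : B × S → T, Continuous H ∧ ∀ b x, H (b, Q x) = F (b, x) := by
  have p := isProperMap_id.prodMap hQ.isProperMap (f := (id : B → B))
  have q := p.isClosedMap.isQuotientMap p.continuous (Function.surjective_id.prodMap hs)
  choose s k using hs
  refine ⟨fun z => F (z.1, s z.2), q.continuous_iff.2 ?_, fun b x => h _ _ _ (k _)⟩
  exact hF.congr fun z => h _ _ _ (k _).symm

variable {X E : Type*} [TopologicalSpace X] [NormedAddCommGroup E]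

open Classical in
/-- `f` where `χ ≠ 0`, `∞` elsewhere -/
def cut (χ : X → ℝ) (f : X → E) (x : X) : OnePoint E := if χ x = 0 then ∞ else (f x : E)

theorem cut_zero {χ : X → ℝ} (f : X → E) {x : X} (h : χ x = 0) : cut χ f x = ∞ := if_pos h
theorem cut_ne {χ : X → ℝ} (f : X → E) {x : X} (h : χ x ≠ 0) : cut χ f x = f x := if_neg h

theorem continuous_cut {χ : X → ℝ} {f : X → E} (hχ : Continuous χ)
    (hf : ∀ x, χ x ≠ 0 → ContinuousAt f x)
    (h : ∀ x, χ x = 0 → ∀ c : ℝ, ∀ᶠ z in 𝓝 x, χ z ≠ 0 → c < ‖f z‖) : Continuous (cut χ f) := by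
  refine continuous_iff_continuousAt.2 fun x => ?_
  by_cases c : χ x = 0
  · rw [ContinuousAt, cut_zero f c, hasBasis_nhds_infty.tendsto_right_iff]
    rintro K ⟨-, hK⟩
    obtain ⟨r, hr⟩ := hK.isBounded.exists_norm_le
    filter_upwards [h x c r] with z hz
    by_cases d : χ z = 0
    · exact .inr (cut_zero f d)
    · exact .inl ⟨f z, fun k => (hz d).not_ge (hr _ k), (cut_ne f d).symm⟩
  · refine (continuous_coe.continuousAt.comp (hf x c)).congr ?_
    filter_upwards [hχ.continuousAt.eventually_ne c] with z hz
    exact (cut_ne f hz).symm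

/-- a sufficient condition for blowing up -/
theorem blow {χ k n : X → ℝ} {f : X → E} {x : X} (hk : Continuous k) (hn : Continuous n)
    (k0 : k x = 0) (n0 : 0 < n x) (h : ∀ z, χ z ≠ 0 → n z ≤ k z * ‖f z‖ ^ 2) (c : ℝ) :
    ∀ᶠ z in 𝓝 x, χ z ≠ 0 → c < ‖f z‖ := by
  have : ∀ᶠ z in 𝓝 x, |k z| * c ^ 2 < n z :=
    ((hk.abs.mul continuous_const).continuousAt.eventually_lt hn.continuousAt (by simpa [k0]))
  filter_upwards [this] with z hz d
  by_contra e
  have := pow_le_pow_left₀ (norm_nonneg _) (not_lt.1 e) 2
  nlinarith [h z d, le_abs_self (k z), abs_nonneg (k z), sq_nonneg ‖f z‖]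

/-- `1 / (1 + |s|²)` -/
def sa (s : OnePoint E) : ℝ := s.elim 0 fun w => (1 + ‖w‖ ^ 2)⁻¹
/-- the finite part -/
def fin (s : OnePoint E) : E := s.elim 0 id

@[simp] theorem sa_infty : sa (∞ : OnePoint E) = 0 := rfl
@[simp] theorem sa_coe (w : E) : sa (w : OnePoint E) = (1 + ‖w‖ ^ 2)⁻¹ := rfl
@[simp] theorem fin_infty : fin (∞ : OnePoint E) = 0 := rfl
@[simp] theorem fin_coe (w : E) : fin (w : OnePoint E) = w := rfl

theorem sa_pos (w : E) : 0 < sa (w : OnePoint E) := by rw [sa_coe]; positivity
theorem sa_eq_zero {s : OnePoint E} : sa s = 0 ↔ s = ∞ := by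
  induction s using OnePoint.rec with
  | infty => simp
  | coe w => simpa using (sa_pos w).ne'
theorem sa_nonneg (s : OnePoint E) : 0 ≤ sa s := by
  induction s using OnePoint.rec with
  | infty => simp
  | coe w => exact (sa_pos w).le
theorem sa_mul (s : OnePoint E) (h : sa s ≠ 0) : sa s * ‖fin s‖ ^ 2 = 1 - sa s := by
  induction s using OnePoint.rec with
  | infty => simp at h
  | coe w => simp only [sa_coe, fin_coe]; field_simp; ring
theorem sa_le (s : OnePoint E) : sa s ≤ 1 := by
  by_cases h : sa s = 0
  · simp [h]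
  · nlinarith [sa_mul s h, mul_nonneg (sa_nonneg s) (sq_nonneg ‖fin s‖)]

variable [ProperSpace E]

theorem continuous_sa : Continuous (sa : OnePoint E → ℝ) := by
  rw [OnePoint.continuous_iff, coclosedCompact_eq_cocompact]
  refine ⟨?_, Continuous.inv₀ (by fun_prop) fun w => by positivity⟩
  exact tendsto_inv_atTop_zero.comp (tendsto_atTop_add_const_left _ 1
    ((tendsto_pow_atTop two_ne_zero).comp (tendsto_norm_cocompact_atTop (E := E))))

theorem continuousAt_fin {s : OnePoint E} (h : sa s ≠ 0) : ContinuousAt fin s := by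
  induction s using OnePoint.rec with
  | infty => simp at h
  | coe w => exact continuousAt_coe.2 continuousAt_id

variable {F : Type*} [NormedAddCommGroup F] [ProperSpace F]

/-- the smash product of two spheres -/
def sm : OnePoint E × OnePoint F → OnePoint (E × F) :=
  cut (fun z => sa z.1 * sa z.2) fun z => (fin z.1, fin z.2)

theorem sm_coe (s : OnePoint E) (e : F) : sm (s, (e : OnePoint F)) = s.map fun w => (w, e) := by
  induction s using OnePoint.rec with
  | infty => exact cut_zero _ (by simp)
  | coe w => exact cut_ne _ (mul_pos (sa_pos w) (sa_pos e)).ne'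
theorem sm_infty (s : OnePoint E) : sm (s, (∞ : OnePoint F)) = ∞ := cut_zero _ (by simp)

theorem continuous_sm : Continuous (sm : OnePoint E × OnePoint F → _) := by
  have a := (continuous_sa (E := E)).comp (continuous_fst (Y := OnePoint F))
  have b := (continuous_sa (E := F)).comp (continuous_snd (X := OnePoint E))
  refine continuous_cut (a.mul b) (fun z h => ?_) fun z h => ?_
  · exact ((continuousAt_fin (left_ne_zero_of_mul h)).comp continuousAt_fst).prodMk
      ((continuousAt_fin (right_ne_zero_of_mul h)).comp continuousAt_snd)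
  · rcases mul_eq_zero.1 h with k | k
    · refine blow a (continuous_const.sub a) k (by simp [k] : 0 < 1 - sa z.1) fun y d => ?_
      refine (sa_mul _ (left_ne_zero_of_mul d)).ge.trans ?_
      exact mul_le_mul_of_nonneg_left (pow_le_pow_left₀ (norm_nonneg _) (le_max_left _ _) 2)
        (sa_nonneg _)
    · refine blow b (continuous_const.sub b) k (by simp [k] : 0 < 1 - sa z.2) fun y d => ?_
      refine (sa_mul _ (right_ne_zero_of_mul d)).ge.trans ?_
      exact mul_le_mul_of_nonneg_left (pow_le_pow_left₀ (norm_nonneg _) (le_max_right _ _) 2)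
        (sa_nonneg _)

/-- **smash with the identity**, in families -/
theorem smash {B : Type*} [TopologicalSpace B] {E' : Type*} [NormedAddCommGroup E'] [ProperSpace E']
    {v : B × OnePoint E → OnePoint E'} (hv : Continuous v) (h0 : ∀ x, v (x, ∞) = ∞) :
    ∃ V : B × OnePoint (E × F) → OnePoint (E' × F), Continuous V ∧ (∀ x, V (x, ∞) = ∞) ∧
      ∀ x (w : E) (e : F), V (x, ((w, e) : E × F)) = (v (x, w)).map fun w' => (w', e) := by
  obtain ⟨V, a, b⟩ := lift_fam (B := B) (continuous_sm (E := E) (F := F)) (fun y => by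
      induction y using OnePoint.rec with
      | infty => exact ⟨(∞, ∞), sm_infty _⟩
      | coe y => exact ⟨(y.1, y.2), sm_coe _ _⟩)
    (F := fun z => sm (v (z.1, z.2.1), z.2.2)) (continuous_sm.comp (by fun_prop)) (by
      rintro x ⟨s, t⟩ ⟨s', t'⟩ h
      induction s using OnePoint.rec <;> induction t using OnePoint.rec <;>
        induction s' using OnePoint.rec <;> induction t' using OnePoint.rec <;>
        simp_all [sm_coe, sm_infty])
  exact ⟨V, a, fun x => by simpa [sm_infty] using b x (∞, ∞),
    fun x w e => by simpa [sm_coe] using b x (w, e)⟩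

end Crest.Agent.N218.Nf
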