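import Crest.Agent.N218.D7.Orb
import Crest.Agent.N218.K.St
import Crest.Agent.N218.K.Clu
import Crest.Agent.N218.K.Lam1
import Crest.Agent.N218.Al.Kr
import Crest.Agent.N218.D7.Dd
import Crest.Agent.N218.D7.St2
import Crest.Agent.N218.K.Cx1
import Crest.Agent.N218.K.Kill
import Crest.Agent.N218.K.Eht

-- ▼ part N218/D7/OrbB
section

/-!
# Row 218, block D7 (helper87): orbit problems at the level of `PB`, bordisms and cycles
-/

set_option autoImplicit false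
set_option linter.unusedVariables false
set_option linter.unusedSectionVars false

open unitInterval Topology Filter Set OnePoint

noncomputable section

namespace Crest.Agent.N218.Orb

open K

section iso
variable {Γ : Type} [Group Γ] [TopologicalSpace Γ] [CompactSpace Γ] {Y : GS Γ} {M M' : LS Γ}
  {W : Rep Γ}

/-- change of the source -/
def fi (A : M'.Iso M) (P : FP Y M W) : FP Y M' W :=
  ⟨{x | (x.1, A.e x.2) ∈ P.O}, fun x => P.f (x.1, A.e x.2)⟩

theorem fi_ok (A : M'.Iso M) {P : FP Y M W} (h : P.Ok) : (fi A P).Ok := by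
  let e : Y.Z × M'.Z ≃ₜ Y.Z × M.Z := (Homeomorph.refl _).prodCongr A.e
  refine ⟨h.op.preimage e.continuous, fun g x o => ?_,
    h.ct.comp e.continuous.continuousOn fun _ o => o, fun g x o => ?_,
    e.isClosedEmbedding.isCompact_preimage h.cp⟩
  · change (_, A.e _) ∈ P.O
    rw [A.eq]; exact h.inv g _ o
  · change P.f (_, A.e _) = _
    rw [A.eq]; exact h.eq g _ o

theorem fi_cut (A : M'.Iso M) {P : FP Y M W} {χ : Y.Z × M.Z → ℝ} (c : P.Cut χ) :
    (fi A P).Cut fun x => χ (x.1, A.e x.2) := by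
  let e : Y.Z × M'.Z ≃ₜ Y.Z × M.Z := (Homeomorph.refl _).prodCongr A.e
  have s : tsupport (fun x : Y.Z × M'.Z => χ (x.1, A.e x.2)) ⊆ e ⁻¹' tsupport χ :=
    closure_minimal (fun x m => subset_tsupport χ m) ((isClosed_tsupport χ).preimage e.continuous)
  refine ⟨c.ct.comp e.continuous, fun x => c.nn _,
    (e.isClosedEmbedding.isCompact_preimage c.cp).of_isClosed_subset (isClosed_tsupport _) s,
    fun x m => c.sub (s m), fun x o z => c.pos _ o z, fun g x => ?_⟩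
  change χ (_, A.e _) = _
  rw [A.eq]; exact c.inv g (x.1, A.e x.2)

theorem exists_h1 (Y : GS Γ) (A : M'.Iso M) :
    ∃ a : H1 (Sb Y M') (Sb Y M), Rg a fun x => OnePoint.some (A.e x.2) :=
  Pm.exists_rg ⟨continuous_coe.comp (A.e.continuous.comp continuous_snd), fun K' k =>
    ⟨_, A.e.isClosedEmbedding.isCompact_preimage k, fun p w w' n e m => n (by
      rwa [← coe_injective e] at m)⟩, fun γ y w => congrArg OnePoint.some (A.eq γ w)⟩

theorem fi_rp (A : M'.Iso M) {P : FP Y M W} {F : H1 (Sb Y M) (Sb Y W.ls)} (r : P.Rp F)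
    {a : H1 (Sb Y M') (Sb Y M)} (ha : Rg a fun x => OnePoint.some (A.e x.2)) :
    (fi A P).Rp (a.cm F) := by
  obtain ⟨χ, c, e⟩ := r
  exact ⟨_, fi_cut A c, fun y w => (congrArg F.f (ha y w)).trans (e y _)⟩

theorem th_iso (A : M'.Iso M) {a : H1 (Sb Y M') (Sb Y M)}
    (ha : Rg a fun x => OnePoint.some (A.e x.2)) {l : KS Y M} (h : (Sb Y M).Th l) :
    (Sb Y M').Th (pull a.f l) := by
  obtain ⟨b, hb⟩ := exists_h1 Y (M := M') (M' := M)
    ⟨A.e.symm, fun g x => A.e.injective (by rw [A.eq, A.e.apply_symm_apply, A.e.apply_symm_apply])⟩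
  have ab : ∀ e, b.f (a.f e) = e := sb_ind (fun y => (congrArg b.f (a.f_inf y)).trans (b.f_inf y))
    fun y w => (congrArg b.f (ha y w)).trans ((hb y _).trans
      (congrArg (fun z => pt Y M' y (OnePoint.some z)) (A.e.symm_apply_apply w)))
  have ba : ∀ e, a.f (b.f e) = e := sb_ind (fun y => (congrArg a.f (b.f_inf y)).trans (a.f_inf y))
    fun y w => (congrArg a.f (hb y w)).trans ((ha y _).trans
      (congrArg (fun z => pt Y M y (OnePoint.some z)) (A.e.apply_symm_apply w)))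
  have k : ∀ c, pull a.f ((Sb Y M).sm c l) = (Sb Y M').sm c (pull a.f l) := fun c =>
    (pull_sm a c l).trans (congrArg (fun c => (Sb Y M').sm c (pull a.f l)) (pull_id c))
  refine ⟨pull_rd a h.1, fun x r => ?_⟩
  obtain ⟨c, e, u⟩ := h.2 _ (pull_rd b r)
  refine ⟨c, ?_, fun c' e' => u c' ?_⟩
  · change x = _
    rw [← k, ← e, pull_pull_id _ _ ab]
  · change pull b.f x = _
    rw [e', ← k, pull_pull_id _ _ ba]

/-- a problem as a constant fibrewise problem -/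
def toF (Y : GS Γ) (P : PB M W) : FP Y M W := ⟨{x | x.2 ∈ P.O}, fun x => P.f x.2⟩

theorem toF_ok {P : PB M W} {S : Set M.Z} (h : P.Ok S) : (toF Y P).Ok :=
  ⟨h.op.preimage continuous_snd, fun g x o => h.inv g _ o,
    h.ct.comp continuousOn_snd fun _ o => o, fun g x o => h.eq g _ o, by
      convert (isCompact_univ (X := Y.Z)).prod h.cp using 1
      ext x; simp [toF, PB.Z]⟩

theorem ofF_ok {Q : FP (GS.triv Γ Unit) M W} (k : Q.Ok) {P : PB M W}
    (o : ∀ x, x ∈ P.O ↔ ((), x) ∈ Q.O) (f : ∀ x, P.f x = Q.f ((), x)) : P.Ok univ := by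
  have c : IsClosedEmbedding fun x : M.Z => (((), x) : Unit × M.Z) :=
    Function.LeftInverse.isClosedEmbedding (f := Prod.snd) (fun _ => rfl) continuous_snd
      (by fun_prop)
  obtain ⟨O, g⟩ := P
  obtain rfl : O = {x | ((), x) ∈ Q.O} := Set.ext o
  obtain rfl : g = fun x => Q.f ((), x) := funext f
  exact ⟨k.op.preimage c.continuous, fun g x o => k.inv g ((), x) o,
    k.ct.comp c.continuous.continuousOn fun _ o => o, fun g x o => k.eq g ((), x) o,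
    c.isCompact_preimage k.cp, subset_univ _⟩
end iso

variable {G : Type} [Group G] [TopologicalSpace G] [CompactSpace G]
  {q : ℕ} {φ : G →* Circle} {hφ : Continuous φ} {M X X1 : LS Circle} {V : Rep Circle}

/-- restriction of an isomorphism -/
def rsI (φ : G →* Circle) (hφ : Continuous φ) (A : M.Iso X) : (M.res φ hφ).Iso (X.res φ hφ) :=
  ⟨A.e, fun g => A.eq (φ g)⟩

section pr
variable (T : Type) [TopologicalSpace T] [LocallyCompactSpace T] [T2Space T]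

/-- one more trivial coordinate -/
def OD.pr (d : OD q φ M X) : OD q φ (M.prod (LS.triv _ T)) (X.prod (LS.triv _ T)) where
  e := { toFun z := (d.e (z.1.1, z.2), z.1.2)
         invFun z := (((d.e.symm z.1).1, z.2), (d.e.symm z.1).2)
         left_inv z := by simp
         right_inv z := by simp
         continuous_toFun := by fun_prop
         continuous_invFun := by fun_prop }
  he ζ v w := Prod.ext (d.he ζ v.1 w) rfl
  q0 := d.q0
  hr := d.hr

/-- one more trivial coordinate -/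
def prI (A : (R1 M).Iso X1) : (R1 (M.prod (LS.triv _ T))).Iso (X1.prod (LS.triv _ T)) where
  e := { toFun z := (A.e (z.1.1, z.2), z.1.2)
         invFun z := (((A.e.symm z.1).1, z.2), (A.e.symm z.1).2)
         left_inv z := by simp
         right_inv z := by simp
         continuous_toFun := by fun_prop
         continuous_invFun := by fun_prop }
  eq g x := Prod.ext (A.eq g (x.1.1, x.2)) rfl
end pr

variable (d : OD q φ M X) (A : (R1 M).Iso X1)

/-- the point of the slice -/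
def OD.sp (ζ : Circle) (x : X.Z) : X1.Z := A.e (M.act ζ (d.e.symm x).1, Real.log ‖(d.e.symm x).2‖)

/-- **the orbit problem** -/
def OD.ob (P : PB (X1.res φ hφ) (V.res φ hφ)) : PB X V :=
  ⟨{x | (d.e.symm x).2 ≠ 0 ∧ d.sp A (rt q (d.e.symm x).2) x ∈ P.O},
    fun x => V.ρ (rt q (d.e.symm x).2)⁻¹ (P.f (d.sp A (rt q (d.e.symm x).2) x))⟩

variable {P P' : PB (X1.res φ hφ) (V.res φ hφ)} {S : Set X1.Z}

theorem okF (h : P.Ok S) :
    (fi (rsI φ hφ A) (toF ((GS.triv Circle Unit).res φ hφ) P)).Ok := fi_ok _ (toF_ok h)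



theorem OD.ob_ok (h : P.Ok S) : (d.ob A P).Ok univ :=
  ofF_ok (d.ok (Y := GS.triv Circle Unit) (okF A h)) (fun _ => Iff.rfl) fun _ => rfl

theorem OD.ob_z {x : X.Z} (z : x ∈ (d.ob A P).Z) : d.sp A (rt q (d.e.symm x).2) x ∈ P.Z := by
  refine ⟨z.1.2, ?_⟩
  have := V.inv_apply (rt q (d.e.symm x).2)⁻¹ (P.f (d.sp A (rt q (d.e.symm x).2) x))
  exact this.symm.trans ((congrArg (V.ρ _) z.2).trans (map_zero _))

theorem OD.sp_fr {ζ : Circle} {x : X.Z} (h : d.sp A ζ x ∈ (X1.res φ hφ).fr) :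
    x ∈ (X.res φ hφ).fr := fun g e => h g (by
  have e' : X.act (φ g) x = x := e
  have e1 := congrArg (fun z => (d.e.symm z).1) e'
  simp only [d.symm_act] at e1
  change X1.act (φ g) (A.e _) = A.e _
  rw [← A.eq]
  refine congrArg A.e (Prod.ext ?_ rfl)
  change M.act (φ g) (M.act ζ _) = _
  rw [← M.mul, mul_comm, M.mul, e1])

theorem ok_res {Q : PB X V} {S' : Set X.Z} (h : Q.Ok univ) (s : Q.Z ⊆ S') :
    (Q.res φ hφ).Ok S' := ⟨h.op, fun g => h.inv (φ g), h.ct, fun g => h.eq (φ g), h.cp, s⟩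

theorem OD.ob_fr (h : P.Fr) : ((d.ob A P).res φ hφ).Fr :=
  ok_res (d.ob_ok A h) fun x z => d.sp_fr A (h.fr (d.ob_z A z))

theorem OD.ob_bd (h : P.Bd P') : ((d.ob A P).res φ hφ).Bd ((d.ob A P').res φ hφ) := by
  obtain ⟨a, b, H, k, l0, l1⟩ := h
  have le : ∀ (t : I) (R : PB (X1.res φ hφ) (V.res φ hφ)), (H.sl t).Le R →
      (PB.sl (X := X.res φ hφ) (((d.pr I).ob (prI I A) (hφ := hφ) H).res φ hφ) t).Le
        ((d.ob A R).res φ hφ) := fun t R l =>
    ⟨fun x o => ⟨o.1, l.sub o.2⟩, fun x o => congrArg (V.ρ _) (l.eq _ o.2),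
      fun x z => ⟨z.1.1, l.z (d.ob_z A z)⟩⟩
  exact ⟨d.ob_fr A a, d.ob_fr A b, ((d.pr I).ob (prI I A) (hφ := hφ) H).res φ hφ,
    ok_res ((d.pr I).ob_ok (prI I A) k) fun x z =>
      d.sp_fr A (k.fr ((d.pr I).ob_z (prI I A) z)), le 0 P l0, le 1 P' l1⟩

theorem OD.ob_lift {U : Rep Circle} {k : X1.Z → U.W} (h : P.Ok S) (l : P.Lift (U.res φ hφ) k) :
    ((d.ob A P).res φ hφ).Lift (U.res φ hφ)
      fun x => U.ρ (rt q (d.e.symm x).2)⁻¹ (k (d.sp A (rt q (d.e.symm x).2) x)) := by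
  let R : PB (X1.res φ hφ) ((V.prod U).res φ hφ) := ⟨P.O, fun x => (P.f x, k x)⟩
  have r : R.Ok univ := ⟨h.op, h.inv, h.ct.prodMk l.ct,
    fun g x o => Prod.ext (h.eq g x o) (l.eq g x o), by
      convert isCompact_empty
      exact eq_empty_of_forall_notMem fun x z =>
        l.nz x ⟨z.1, congrArg Prod.fst z.2⟩ (congrArg Prod.snd z.2), subset_univ _⟩
  have o := d.ob_ok A r
  refine ⟨continuous_snd.comp_continuousOn o.ct, fun g x m => congrArg Prod.snd (o.eq (φ g) x m),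
    fun x z e => l.nz _ (d.ob_z A z) ?_⟩
  have := U.inv_apply (rt q (d.e.symm x).2)⁻¹ (k (d.sp A (rt q (d.e.symm x).2) x))
  exact this.symm.trans ((congrArg (U.ρ _) e).trans (map_zero _))

end Crest.Agent.N218.Orb

end
end

-- ▼ part N218/D7/OrbF
section

/-!
# Row 218, block D7 (helper87): ORB on the invariants of `K/St`
-/

set_option autoImplicit false
set_option linter.unusedVariables false
set_option linter.unusedSectionVars false

open unitInterval Topology Filter Set OnePoint Polynomial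

noncomputable section

namespace Crest.Agent.N218.Orb

open K

section kit
variable {Γ : Type} [Group Γ] [TopologicalSpace Γ] [CompactSpace Γ]

/-- the tautological section -/
def sp0 (χ : Γ →* Circle) (hχ : Continuous χ) (r : ℕ) : Sec (Sp χ hχ r) χ :=
  ⟨Fin r, ⟨fun z : US r => z.1, continuous_subtype_val⟩, fun z : US r => z.2, fun _ _ _ => rfl⟩

theorem LL_eq (χ : Γ →* Circle) (hχ : Continuous χ) (r : ℕ) : LL χ hχ r = Lc (Sp χ hχ r) χ :=
  (Lc_eq (sp0 χ hχ r)).symm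

/-- the external product on the zero section -/
theorem xm_zero {Y : GS Γ} {V : LS Γ} {χ : Γ →* Circle} (hχ : Continuous χ)
    (h : Nonempty (Sec Y χ)) {x : KS Y V} (hx : (Sb Y V).Rd x)
    (z : C((Sb Y V).E, (Sb Y (V.prod (ch χ hχ))).E)) (z0 : ∀ y, z (pt Y V y ∞) = pt Y _ y ∞)
    (z1 : ∀ y (v : V.Z), z (pt Y V y v) = pt Y _ y (OnePoint.some (v, (0 : ℂ)))) :
    pull z (xm x (lam1 Y χ hχ)) = (Sb Y V).sm (1 - Lc Y χ) x := by
  have a0 : ∀ g, (ch χ hχ).sph.act g ((0 : ℂ) : OnePoint ℂ) = ((0 : ℂ) : OnePoint ℂ) := fun g =>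
    congrArg OnePoint.some (mul_zero (χ g : ℂ))
  let i : C((Sb Y V).E, (smd Y V (ch χ hχ)).P.E) :=
    GS.qmap (Y.prod V.sph) ((Y.prod (ch χ hχ).sph).prod V.sph)
      ⟨fun u => ((u.1, ((0 : ℂ) : OnePoint ℂ)), u.2), by fun_prop⟩ fun g u =>
        ⟨g, Prod.ext (Prod.ext rfl (a0 g)) rfl⟩
  let s0 : C(Y.Q, (Sb Y (ch χ hχ)).E) := GS.qmap Y (Y.prod (ch χ hχ).sph)
    ⟨fun u => (u, ((0 : ℂ) : OnePoint ℂ)), by fun_prop⟩ fun g u => ⟨g, Prod.ext rfl (a0 g)⟩
  rw [← pull_pull i (smd Y V (ch χ hχ)).c z (sb_ind (fun y => (z0 y).symm) fun y v => (z1 y v).symm),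
    xm, (smd Y V (ch χ hχ)).c_mul hx (rd_lam1 hχ), map_mul,
    pull_pull_id i (smd Y V (ch χ hχ)).q (sb_ind (fun _ => rfl) fun _ _ => rfl),
    pull_sq i (smd Y V (ch χ hχ)).P.p (Sb Y V).p s0 (sb_ind (fun _ => rfl) fun _ _ => rfl),
    zero_lam1 hχ h s0 fun _ => rfl, Ex.sm, mul_comm]

theorem lf_ev (χ : Γ →* Circle) (hχ : Continuous χ) (r : ℕ) (p : ℤ[X]) :
    Al.Lf (LL χ hχ r) (ev χ hχ r p) (iS p) :=
  ⟨p, by rw [ev, aeval_def, algebraMap_int_eq], congrArg (fun f => eval₂ f Al.L p) (RingHom.ext_int _ _)⟩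

theorem lf_ex {χ : Γ →* Circle} {hχ : Continuous χ} {r : ℕ} {y : KX (Sp χ hχ r).Q} {s : Al.S}
    (h : Al.Lf (LL χ hχ r) y s) : ∃ p, ev χ hχ r p = y ∧ iS p = s :=
  let ⟨p, a, b⟩ := h
  ⟨p, by rw [ev, aeval_def, algebraMap_int_eq, a], (congrArg (fun f => eval₂ f Al.L p) (RingHom.ext_int _ _)).trans b⟩

theorem rU_eq (χ : Γ →* Circle) (hχ : Continuous χ) (r : ℕ) :
    rU χ hχ r = (1 + LL χ hχ r + LL χ hχ r ^ 2) ^ r := by simp [rU, ev]
end kit

theorem pz_of (hK : KLN) {G : Type} [Group G] [Fintype G] [TopologicalSpace G] [DiscreteTopology G]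
    (φ : G →* Circle) (h : Function.Injective φ) {r : ℕ} (hr : 0 < r) :
    Al.Pz (Int.castRingHom _) (LL φ (cc φ) r) r (Fintype.card G) := by
  obtain ⟨a, b, -⟩ := hK φ r h hr
  have e : ∀ p : ℤ[X], p.eval₂ (Int.castRingHom _) (LL φ (cc φ) r) = ev φ (cc φ) r p := fun p => by
    rw [ev, aeval_def, algebraMap_int_eq]
  refine ⟨fun y => (a y).imp fun p k => (e p).trans k, fun p k => ?_⟩
  obtain ⟨u, v, k⟩ := Ideal.mem_span_pair.1 ((b p).1 ((e p).symm.trans k))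
  exact ⟨u, -v, by linear_combination -k⟩

/-- the algebra of ORB -/
theorem orb_alg {A : Type} [CommRing A] {l : A} (hA : Al.Pz (Int.castRingHom A) l 7 0)
    (ψ : A →+* A) (hψ : ψ l = l ^ 3) {q N : ℕ} (hq : 256 ∣ q) (h0 : q ≠ 0) {rS rT c a e : A}
    (hc : rS * c = 3 ^ N) (nm : rS * (1 + l + l ^ 2) ^ 7 = 3 ^ 6 * rT)
    (h : (1 - l ^ q) * e = rS * ψ a - rT * a) {s ε : Al.S} (ks : Al.Lf l a s)
    (kε : Al.Lf l (c * e) ε) (g : Al.Gd q s) : Al.ph ε / 3 ^ (N + 1) ∈ Al.O2 := by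
  have e0 : 3 ^ 6 * ((1 - l ^ q) * (c * e)) = 3 ^ N * (3 ^ 6 * ψ a - (1 + l + l ^ 2) ^ 7 * a) := by
    linear_combination 3 ^ 6 * c * h + (3 ^ 6 * ψ a - (1 + l + l ^ 2) ^ 7 * a) * hc + c * a * nm
  obtain ⟨b, -, c', -, e1⟩ := (((Al.lf_3 l).pow 6).mul
    (((Al.lf_one l).sub ((Al.lf_l l).pow q)).mul kε)).uniq hA
    (e0 ▸ ((Al.lf_3 l).pow N).mul ((((Al.lf_3 l).pow 6).mul (ks.ps ψ hψ)).sub
      (((Al.lf_r l).pow 7).mul ks)))
  have i3 : ∀ n : ℕ, ((3 : ℚ) ^ n)⁻¹ ∈ Al.O2 := fun n => by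
    simpa using Al.inv_mem (n := 3 ^ n) (Odd.pow (by decide))
  have u : (PowerSeries.C ((3 : ℚ) ^ N)⁻¹ : Al.S) * 3 ^ N = 1 := by
    rw [show (3 : Al.S) = PowerSeries.C (3 : ℚ) from (map_ofNat _ 3).symm, ← map_pow, ← map_mul,
      inv_mul_cancel₀ (by positivity), map_one]
  have := Al.orb_mem hq h0 (e := PowerSeries.C ((3 : ℚ) ^ N)⁻¹ * (PowerSeries.C (3 ^ 6 : ℚ) * ε))
    (Al.OS.mul_mem (Al.C_mem (i3 N)) (Al.OS.mul_mem (Al.C_mem
      (Al.O2.pow_mem (ofNat_mem _ 3) 6)) kε.mem)) ks.mem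
    (b := PowerSeries.C ((3 : ℚ) ^ N)⁻¹ * b) (by
      rw [map_pow, map_ofNat]
      linear_combination PowerSeries.C ((3 : ℚ) ^ N)⁻¹ * e1 +
        (3 ^ 6 * Al.ps s - Al.r ^ 7 * s) * u) g
  rw [Al.ph_C, Al.ph_C] at this
  convert Al.O2.mul_mem (i3 7) this using 1
  field_simp
  ring

/-- the standard character -/
abbrev iC : Circle →* Circle := MonoidHom.id Circle
theorem iC_cont : Continuous iC := continuous_id
/-- the sphere `S (7 L)` of the circle -/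
abbrev YT : GS Circle := Sp iC iC_cont 7
/-- the character `L ^ q` -/
abbrev cq (q : ℕ) : Circle →* Circle := iC ^ q
theorem cq_cont (q : ℕ) : Continuous (cq q) := continuous_pow q

variable {G : Type} [Group G] [Fintype G] [TopologicalSpace G] [DiscreteTopology G]
  {q : ℕ} {φ : G →* Circle} {M X X1 : LS Circle} {V : Rep Circle}

/-- `X × ℝ × ℝ = M × ℝ × ℝ × L ^ q` -/
def OD.iso2 (d : OD q φ M X) : (R1 X.xr).Iso ((R1 M.xr).prod (ch (cq q) (cq_cont q))) where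
  e := { toFun z := ((((d.e.symm z.1.1).1, z.1.2), z.2), (d.e.symm z.1.1).2)
         invFun z := ((d.e (z.1.1.1, z.2), z.1.1.2), z.1.2)
         left_inv z := by simp
         right_inv z := by simp
         continuous_toFun := by fun_prop
         continuous_invFun := by fun_prop }
  eq g x := by
    have := d.symm_act g x.1.1
    exact Prod.ext (Prod.ext (Prod.ext (congrArg Prod.fst this :) rfl) rfl)
      ((congrArg Prod.snd this :).trans (by rw [← Circle.coe_pow]; rfl))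

section rs
variable (φ)
/-- restriction from the circle: base -/
def rB : C((Sp φ (cc φ) 7).Q, YT.Q) := rsB φ (cc φ) YT
/-- restriction from the circle: source of `d` -/
def rX (W : LS Circle) : Hm (Sb (Sp φ (cc φ) 7) (W.res φ (cc φ)).xr) (Sb YT W.xr) (rB φ) :=
  rsS φ (cc φ) YT W.xr
/-- restriction from the circle: source of `e` -/
def rXX (W : LS Circle) :
    Hm (Sb (Sp φ (cc φ) 7) (W.res φ (cc φ)).xr.xr) (Sb YT W.xr.xr) (rB φ) :=
  rsS φ (cc φ) YT W.xr.xr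
/-- restriction from the circle: target -/
def rV (V : Rep Circle) : Hm (Sb (Sp φ (cc φ) 7) (TT φ (cc φ) 7 (V.res φ (cc φ))))
    (Sb YT (TT iC iC_cont 7 V)) (rB φ) := rsS φ (cc φ) YT (TT iC iC_cont 7 V)
end rs

theorem rsB_LL : pull (rB φ) (LL iC iC_cont 7) = LL φ (cc φ) 7 := by
  rw [LL_eq, LL_eq, Lc_eq (sp0 iC iC_cont 7), Lc_eq (sp0 φ (cc φ) 7)]
  exact (sp0 iC iC_cont 7).pull_L (sp0 φ (cc φ) 7) (rB φ) (.id _) (fun _ => rfl)
    fun _ _ _ => rfl

/-- **ORB** -/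
theorem orbF (hE : EEX) (hK : KLN) (hC : Al.Pz (Int.castRingHom _) (LL iC iC_cont 7) 7 0)
    (hG : Gq φ) (d : OD (Fintype.card G) φ M X) (A : (R1 M).Iso X1)
    (o : Ori YT X1.xr (TT iC iC_cont 7 V) (rU iC iC_cont 7) (3 ^ 6))
    (hc : ∃ N c, o.rS * c = 3 ^ N)
    (tx : ∀ t, (Sb YT (R1 M.xr)).Th t →
      (Sb YT _).Th (xm t (lam1 YT (cq (Fintype.card G)) (cq_cont _))))
    (t1 : ∀ t, (Sb YT X1.xr).Th t → (Sb _ _).Th (pull (rX φ X1).f t))
    (t2 : ∀ t, (Sb YT X.xr.xr).Th t → (Sb _ _).Th (pull (rXX φ X).f t))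
    (t3 : ∀ t, (Sb YT (TT iC iC_cont 7 V)).Th t → (Sb _ _).Th (pull (rV φ V).f t))
    (hv : ∀ y, (Sb YT X.xr).Rd y → y = 0) :
    ∃ o' : OE φ (cc φ) (X.res φ (cc φ)) (V.res φ (cc φ)),
      ∀ (P : PB (X1.res φ (cc φ)) (V.res φ (cc φ))) (p : ℤ[X]),
        Dg φ (cc φ) 7 P (pull (rV φ V).f o.lT)
          ((Sb _ _).sm (ev φ (cc φ) 7 p) (pull (rX φ X1).f o.lS)) →
        Al.Gd (Fintype.card G) (iS p) → EV φ (cc φ) o' ((d.ob A P).res φ (cc φ)) 0 := by
  obtain ⟨N, c, hc⟩ := hc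
  have sq : Nonempty (Sec YT (cq (Fintype.card G))) := sec_pow ⟨sp0 iC iC_cont 7⟩ _
  have eL : Lc YT (cq (Fintype.card G)) = LL iC iC_cont 7 ^ Fintype.card G := by
    rw [LL_eq]; exact Lc_pow ⟨sp0 iC iC_cont 7⟩ _
  have pG := pz_of hK φ hG.inj (r := 7) (by norm_num)
  have eG : LL φ (cc φ) 7 ^ Fintype.card G = 1 := by
    rw [LL_eq, ← Lc_pow ⟨sp0 φ (cc φ) 7⟩]
    exact Lc_of_one fun g => by rw [MonoidHom.pow_apply, ← map_pow, pow_card_eq_one, map_one]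
  obtain ⟨a1, e1⟩ := exists_h1 YT (prI ℝ A)
  obtain ⟨a2, e2⟩ := exists_h1 YT d.iso2
  have sm1 : ∀ {W W' : LS Circle} (a : H1 (Sb YT W) (Sb YT W')) u x,
      pull a.f ((Sb YT W').sm u x) = (Sb YT W).sm u (pull a.f x) := fun a u x =>
    (pull_sm a u x).trans (congrArg (fun u => Ex.sm _ u (pull a.f x)) (pull_id u))
  have h1 := th_iso _ e1 o.tS
  have p1 : ps _ (pull a1.f o.lS) = (Sb YT _).sm o.rS (pull a1.f o.lS) := by
    rw [ps_pull, o.pS, sm1]
  have h2 := th_iso _ e2 (tx _ h1)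
  set u2 := pull a2.f (xm (pull a1.f o.lS) (lam1 YT (cq (Fintype.card G)) (cq_cont _))) with hu
  have p2 : ps _ u2 = (Sb YT _).sm (o.rS * rho3 (Lc YT (cq (Fintype.card G)))) u2 := by
    rw [hu, ps_pull, xm, SmD.ps_mul, p1, ps_lam1, SmD.sm_mul, SmD.mul_sm, ← sm_mul, sm1]
  have e3 : pull (rB φ) (rho3 (Lc YT (cq (Fintype.card G)))) = 3 := by
    rw [eL, rho3]
    simp only [map_add, map_pow, map_one, rsB_LL, eG]; norm_num
  have nm := (congrArg (o.rS * ·) (rU_eq iC iC_cont 7)).symm.trans o.nm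
  refine ⟨⟨pull (rXX φ X).f u2, pull (rV φ V).f o.lT,
    pull (rB φ) (o.rS * rho3 (Lc YT (cq (Fintype.card G)))),
    pull (rB φ) o.rT, t2 _ h2, t3 _ o.tT, ?_, ?_, ?_⟩, ?_⟩
  · exact (ps_pull _ _).trans ((congrArg _ p2).trans (pull_sm (rXX φ X) _ _))
  · exact (ps_pull _ _).trans ((congrArg _ o.pT).trans (pull_sm (rV φ V) _ _))
  · have := congrArg (pull (rB φ)) nm
    simp only [map_mul, map_pow, map_add, map_one, map_ofNat, rsB_LL] at this
    rw [map_mul, e3, rU_eq φ, mul_right_comm, this, pow_succ _ 6, mul_right_comm]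
  rintro P p ⟨F, ⟨P', k, b, l, r⟩, hF⟩ g
  have ok := fi_ok (rsI φ (cc φ) (prI ℝ A)) (Tc_ok φ (cc φ) 7 b.2.1 l)
  obtain ⟨a, e, q1, q2, F', r', E⟩ := (d.pr ℝ).main (Y := YT) (hφ := cc φ)
    (W := V.prod (UU iC iC_cont 7)) ok o.tT.1
    (fun F => hE F _ _ o.rT o.tT.1 (hv _ (pull_rd F o.tT.1)) o.pT) h1 p1 h2
    (c := 1 - Lc YT (cq (Fintype.card G))) fun j ej => by
      rw [hu, ← pull_cm]
      refine xm_zero _ sq h1.1 _ (fun y => (j.cm a2).f_inf y) fun y v =>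
        (congrArg a2.f (ej y v)).trans ((e2 y _).trans (congrArg (pt YT _ y) ?_))
      refine congrArg OnePoint.some ?_
      change ((((d.e.symm (d.e _)).1, _), _), (d.e.symm (d.e _)).2) = _
      rw [d.e.symm_apply_apply]
      rfl
  obtain ⟨b1, f1⟩ := exists_h1 (Sp φ (cc φ) 7) (rsI φ (cc φ) (prI ℝ A))
  have k1 : pull b1.f (pull (rX φ X1).f o.lS) = pull (rX φ M.xr).f (pull a1.f o.lS) :=
    pull_sq _ _ _ _ (sb_ind (fun y => (congrArg _ (b1.f_inf y)).trans (a1.f_inf y).symm)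
      fun y w => (congrArg _ (f1 y w)).trans (e1 y w).symm) _
  have k2 : ev φ (cc φ) 7 p = pull (rB φ) a := by
    refine th_inj (th_iso _ f1 (t1 _ o.tS)) ?_
    have := DFunLike.congr_fun ((fi_rp _ r f1).ht_hm ok).pull_eq (pull (rV φ V).f o.lT)
    refine Eq.trans ?_ ((this.symm.trans q2).trans (congrArg _ k1.symm))
    refine Eq.trans ?_ ((congrArg (pull b1.f) hF.symm).trans (pull_cm b1.f F.f _).symm)
    exact ((pull_sm b1 _ _).trans (congrArg (fun u => Ex.sm _ u _) (pull_id _))).symm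
  obtain ⟨s, ks⟩ := hC.lf a
  obtain ⟨ε, kε⟩ := hC.lf (c * e)
  obtain ⟨a', v1, rfl⟩ := lf_ex kε
  have ks' := ks.map (pull (rB φ))
  rw [rsB_LL, ← k2] at ks'
  obtain ⟨b2, -, c2, m2, w⟩ := ks'.uniq pG (lf_ev φ (cc φ) 7 p)
  obtain ⟨n, n17, en⟩ := hG.card
  have h256 : 256 ∣ Fintype.card G := en ▸ (pow_dvd_pow 2 (by omega : 8 ≤ n))
  have h0 : Fintype.card G ≠ 0 := Fintype.card_ne_zero
  refine ⟨pull (rB φ) e, N + 1, a', ⟨F', ⟨_, _, d.ob_bd A b,
    d.ob_lift A (U := UU iC iC_cont 7) b.2.1 l, r'.grow (fun x m => m) (fun x m => ?_)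
      fun x m _ => m⟩, E⟩, ?_, ?_⟩
  · refine Prod.ext rfl (funext fun i => ?_)
    change ((rt _ _)⁻¹ : Circle) * (k _ i - Real.exp x.2.2 • (((rt _ _ : Circle) : ℂ) * x.1.1 i)) =
      ((rt _ _)⁻¹ : Circle) * k _ i - Real.exp x.2.2 • x.1.1 i
    rw [mul_sub, mul_smul_comm, ← mul_assoc, ← Circle.coe_mul, inv_mul_cancel, Circle.coe_one,
      one_mul]
    rfl
  · have v2 : ev φ (cc φ) 7 a' = pull (rB φ) (c * e) := by
      rw [← v1, ev, ev, ← rsB_LL]
      exact aeval_algHom_apply (pull (rB φ)).toIntAlgHom _ a'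
    have := congrArg (pull (rB φ)) hc
    simp only [map_mul, map_pow, map_ofNat] at this
    change _ * pull (rB φ) _ = _
    rw [v2, map_mul, map_mul, e3]
    linear_combination 3 * pull (rB φ) e * this
  · rw [eL] at q1
    refine ((QuotientAddGroup.eq_zero_iff _).2 (orb_alg hC (ps _) (by rw [LL_eq, ps_Lc]) h256 h0
      hc nm q1 ks kε ?_)).symm
    rw [w]
    exact (g.add (Al.Gd.t7 h0 b2)).add (Al.Gd.rel (dvd_trans (by norm_num) h256) m2)

end Crest.Agent.N218.Orb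

end
end

-- ▼ part N218/D7/OrbG

/-!
# Row 218, block D7 (helper87): ORB for the tube problem
-/

set_option autoImplicit false
set_option linter.unusedVariables false
set_option linter.unusedSectionVars false

open Set Polynomial Module

noncomputable section

namespace Crest.Agent.N218.Orb

open K Fo

section cs
variable {Γ : Type} [Group Γ] [TopologicalSpace Γ] [CompactSpace Γ] {Y : GS Γ} {W W' : LS Γ}

variable (Y W) in
/-- sums of characters with sections -/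
def Cs : Prop := ∃ (ι : Type) (_ : Fintype ι) (χ : ι → Γ →* Circle) (h : ∀ i, Continuous (χ i)),
  (∀ i, Nonempty (Sec Y (χ i))) ∧ Nonempty (W.Iso (Rep.wt χ h).ls)

theorem Cs.iso (A : W'.Iso W) (h : Cs Y W) : Cs Y W' :=
  let ⟨ι, f, χ, hχ, s, ⟨B⟩⟩ := h; ⟨ι, f, χ, hχ, s, ⟨A.trans B⟩⟩

theorem Cs.prod (h : Cs Y W) (h' : Cs Y W') : Cs Y (W.prod W') := by
  obtain ⟨ι, _, χ, hχ, s, ⟨A⟩⟩ := h
  obtain ⟨κ, _, ψ, hψ, s', ⟨B⟩⟩ := h'
  exact ⟨ι ⊕ κ, inferInstance, Sum.elim χ ψ, by rintro (i | i); exacts [hχ i, hψ i],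
    by rintro (i | i); exacts [s i, s' i], ⟨(A.prod B).trans (wtSum (Sum.elim χ ψ) _).symm⟩⟩

theorem cs_ch {χ : Γ →* Circle} (h : Continuous χ) (s : Nonempty (Sec Y χ)) : Cs Y (ch χ h) :=
  ⟨Unit, inferInstance, fun _ => χ, fun _ => h, fun _ => s,
    ⟨⟨(Homeomorph.funUnique Unit ℂ).symm, fun _ _ => rfl⟩⟩⟩

theorem cs_even (E : Type) [NormedAddCommGroup E] [NormedSpace ℝ E] [FiniteDimensional ℝ E]
    (m : ℕ) (h : finrank ℝ E = 2 * m) : Cs Y (Rep.triv Γ E).ls :=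
  let ⟨e⟩ := homeo_even E m h
  ⟨Fin m, inferInstance, fun _ => 1, fun _ => continuous_const, fun _ => ⟨Sec.one Y⟩,
    ⟨trivIso (fun _ _ => rfl) e⟩⟩

theorem Cs.xr2 (h : Cs Y W) : Cs Y W.xr.xr :=
  (h.prod (cs_even (ℝ × ℝ) 1 (by simp))).iso (LS.Iso.assoc _ _ _)

theorem Cs.cx (h : Cs Y W) : Cx W :=
  let ⟨_, _, χ, hχ, _, ⟨A⟩⟩ := h; (cx_wt χ hχ).iso A

theorem Cs.ut (T : THOM1) (h : Cs Y W) {l : KS Y W} (hl : (Sb Y W).Th l) : UT Y W l :=
  let ⟨_, _, _, _, s, ⟨A⟩⟩ := h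
  let ⟨_, a, _⟩ := ut_wt T s A
  a.of_th hl

theorem Cs.lz (T : THOM1) (h0 : K1Z Y.Q) (h : Cs Y W) : Kl.Lz Y W.xr :=
  let ⟨ι, _, χ, hχ, s, ⟨A⟩⟩ := h
  Kl.lz_of T h0 _ _ (fun _ => s _)
    ((A.trans (wtRe (Fintype.equivFin ι).symm χ hχ)).prod (.refl _))
end cs

theorem orbF' {G : Type} [Group G] [Fintype G] [TopologicalSpace G] [DiscreteTopology G]
    {q : ℕ} {φ : G →* Circle} {M X X1 : LS Circle} {V : Rep Circle} (hq : Fintype.card G = q)
    (hE : EEX) (hK : KLN) (hC : Al.Pz (Int.castRingHom _) (LL iC iC_cont 7) 7 0)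
    (hG : Gq φ) (d : OD q φ M X) (A : (R1 M).Iso X1)
    (o : Ori YT X1.xr (TT iC iC_cont 7 V) (rU iC iC_cont 7) (3 ^ 6))
    (hc : ∃ N c, o.rS * c = 3 ^ N)
    (tx : ∀ t, (Sb YT (R1 M.xr)).Th t → (Sb YT _).Th (xm t (lam1 YT (cq q) (cq_cont _))))
    (t1 : ∀ t, (Sb YT X1.xr).Th t → (Sb _ _).Th (pull (rX φ X1).f t))
    (t2 : ∀ t, (Sb YT X.xr.xr).Th t → (Sb _ _).Th (pull (rXX φ X).f t))
    (t3 : ∀ t, (Sb YT (TT iC iC_cont 7 V)).Th t → (Sb _ _).Th (pull (rV φ V).f t))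
    (hv : ∀ y, (Sb YT X.xr).Rd y → y = 0) :
    ∃ o' : OE φ (cc φ) (X.res φ (cc φ)) (V.res φ (cc φ)),
      ∀ (P : PB (X1.res φ (cc φ)) (V.res φ (cc φ))) (p : ℤ[X]),
        Dg φ (cc φ) 7 P (pull (rV φ V).f o.lT)
          ((Sb _ _).sm (ev φ (cc φ) 7 p) (pull (rX φ X1).f o.lS)) →
        Al.Gd q (iS p) → EV φ (cc φ) o' ((d.ob A P).res φ (cc φ)) 0 := by
  subst hq
  exact orbF hE hK hC hG d A o hc tx t1 t2 t3 hv

variable (B : Type) [NormedAddCommGroup B] [NormedSpace ℝ B] [FiniteDimensional ℝ B]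
  [LocallyCompactSpace B] (q : ℕ) [NeZero q] (E : Type) [NormedAddCommGroup E] [NormedSpace ℂ E]
  [FiniteDimensional ℂ E]

theorem cs_cir {r : ℕ} : Cs (Sp iC iC_cont r) (cir q E).ls := by
  let e : E ≃L[ℂ] (Fin (finrank ℂ E) → ℂ) := .ofFinrankEq (by simp)
  refine ⟨ZMod q × Fin (finrank ℂ E), inferInstance, fun k => pw k.1.val, fun _ => pw_cont _,
    fun k => sec_pow ⟨sp0 iC iC_cont r⟩ k.1.val, ⟨⟨((D q E).trans
      ((ContinuousLinearEquiv.piCongrRight fun _ => e).trans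
        (LinearEquiv.curry ℂ ℂ (ZMod q) _).symm.toContinuousLinearEquiv)).toHomeomorph,
      fun z y => funext fun k => ?_⟩⟩⟩
  change e (D q E ((cir q E).ρ z y) k.1) k.2 = (pw k.1.val z : ℂ) * e (D q E y k.1) k.2
  rw [D_cir, map_smul, pw_apply]; rfl

/-- the source of the tube problem -/
abbrev XT : Rep Circle := ((Rep.triv Circle B).prod (Rep.ch (cq q) (cq_cont q))).prod (cir q E)
/-- the zero section -/
abbrev MT : LS Circle := (LS.triv Circle B).prod (cir q E).ls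

theorem card_Ch : Fintype.card (D7.Ch q) = q := by simp

/-- the orbit data -/
def odT : OD q (inc q) (MT B q E) (XT B q E).ls where
  e := { toFun z := ((z.1.1, z.2), z.1.2)
         invFun z := ((z.1.1, z.2), z.1.2)
         left_inv _ := rfl
         right_inv _ := rfl
         continuous_toFun := by fun_prop
         continuous_invFun := by fun_prop }
  he ζ v w := Prod.ext (Prod.ext rfl (by rw [← Circle.coe_pow]; rfl)) rfl
  q0 := NeZero.ne q
  hr ζ := by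
    have := congrArg (ζ ∈ ·) (range_eq_ker (inc_inj q))
    rw [card_Ch] at this
    exact (Iff.of_eq this).symm

/-- the slice -/
def slT : (R1 (MT B q E)).Iso (D7.XC (B × ℝ) q E) where
  e := { toFun z := ((z.1.1, z.2), z.1.2)
         invFun z := ((z.1.1, z.2), z.1.2)
         left_inv _ := rfl
         right_inv _ := rfl
         continuous_toFun := by fun_prop
         continuous_invFun := by fun_prop }
  eq _ _ := rfl

variable {B q E}

/-- **the tube problem** -/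
def tube (P : D7.P0 (B × ℝ) q E q) :
    PB ((XT B q E).res (inc q) (cc _)).ls ((cir q E).res (inc q) (cc _)) :=
  ((odT B q E).ob (slT B q E) (hφ := cc _) P).res (inc q) (cc _)

variable {P : D7.P0 (B × ℝ) q E q}



theorem tube_fr (h : P.Fr) : (tube P).Fr := (odT B q E).ob_fr (slT B q E) (hφ := cc _) h

theorem adm_tube (hB : finrank ℝ B = 10) :
    Adm 12 ((XT B q E).res (inc q) (cc _)) ((cir q E).res (inc q) (cc _)) := by
  let e : (B × ℂ) ≃L[ℝ] (Fin 12 → ℝ) := .ofFinrankEq (by simp [hB])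
  refine ⟨⟨e.prodCongr (.refl _ _), fun g x => Prod.ext (congrArg e (Prod.ext rfl ?_)) rfl⟩⟩
  obtain ⟨⟨b, w⟩, y⟩ : (B × ℂ) × (ZMod q → E) := x
  change ((cq q (inc q g) : Circle) : ℂ) * w = w
  rw [show cq q (inc q g) = 1 from ((odT B q E).hr _).2 ⟨g, rfl⟩, Circle.coe_one, one_mul]

/-- **ORB for the tube problem** -/
theorem orbG (T : THOM1) (hK : KLN) {J : AI 12} (hJ : D7.SpE J) (hB : finrank ℝ B = 10)
    (hq : ∃ k, 17 ≤ k ∧ q = 2 ^ k) (o : D7.OC (B × ℝ) q E) (hc : ∃ N c, o.rS * c = 3 ^ N)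
    {d : Al.S} (h : D7.DD o q P d) (g : Al.Gd q d) :
    J.ν (inc q) ((XT B q E).res (inc q) (cc _)) ((cir q E).res (inc q) (cc _)) (tube P) = 0 := by
  have hG : Gq (inc q) := ⟨inc_inj q, by rwa [card_Ch]⟩
  have s0 : Nonempty (Sec YT iC) := ⟨sp0 iC iC_cont 7⟩
  have cV : Cs YT (cir q E).ls := cs_cir q E
  have cM : Cs YT (MT B q E) := (cs_even B 5 hB).prod cV
  have cX : Cs YT (XT B q E).ls :=
    ((cs_even B 5 hB).prod (cs_ch (cq_cont q) (sec_pow s0 q))).prod cV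
  have c1 : Cs YT (D7.XC (B × ℝ) q E).xr := cM.xr2.iso ((slT B q E).symm.prod (.refl _))
  have cT : Cs YT (TT iC iC_cont 7 (cir q E)) :=
    cV.prod ⟨_, _, _, _, fun _ => s0, ⟨.refl _⟩⟩
  have hC : Al.Pz (Int.castRingHom _) (LL iC iC_cont 7) 7 0 := by
    obtain ⟨a, b⟩ := cp_int T iC_cont 7 Function.surjective_id
    have e : ∀ p : ℤ[X], p.eval₂ (Int.castRingHom _) (LL iC iC_cont 7) =
        aeval (Lc (Sp iC iC_cont 7) iC) p := fun p => by rw [LL_eq, aeval_def, algebraMap_int_eq]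
    exact ⟨fun y => (a y).imp fun p k => (e p).trans k, fun p k =>
      let ⟨u, v⟩ := (b p).1 ((e p).symm.trans k); ⟨u, 0, by simp [v]⟩⟩
  have ev7 := D7.eqv7 (inc q)
  obtain ⟨o', ho⟩ := orbF' (card_Ch q) eex hK hC hG (odT B q E) (slT B q E) o hc
    (fun t ht => (ut_lam1 T (cq_cont q) (sec_pow s0 q)).th_r ht)
    (fun t ht => (c1.ut T ht).2 _ (inc q) (cc _) _ _ ev7 _ fun _ _ => rfl)
    (fun t ht => (cX.xr2.ut T ht).2 _ (inc q) (cc _) _ _ ev7 _ fun _ _ => rfl)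
    (fun t ht => (cT.ut T ht).2 _ (inc q) (cc _) _ _ ev7 _ fun _ _ => rfl)
    (cX.lz T (k1Z_sp T iC_cont 7 Function.surjective_id))
  obtain ⟨p, rfl, h⟩ := h
  obtain ⟨s, hs⟩ := hJ (inc q) _ _ hG (adm_tube hB) (cV.cx.res (inc q) (cc _)) o'
  exact (hs _ _ (ho P p h g)).trans (smul_zero s)

end Crest.Agent.N218.Orb

end
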