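import Crest.Agent.N218.D7.St2
import Crest.Agent.N218.In.Stereo_Mg
import Crest.Agent.N218.D7.St
import Crest.Agent.N218.D7.Core
import Crest.Agent.N218.Pm.Loop0
import Crest.Agent.N218.Pm.Kit1
import Crest.Agent.N218.In.Kit
import Crest.Agent.N218.In.Emb
import Crest.Agent.N218.K.Ai
import Crest.Agent.N218.Tr.Top
import Crest.Agent.N218.K.Col
import Crest.Agent.N218.K.Lam1
import Crest.Agent.N218.K.Cy
import Crest.Agent.N218.K.Clu
import Crest.Agent.N218.K.Vres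
import Crest.Agent.N218.Tr.Cyc
import Crest.Agent.N218.D7.Dd
import Crest.Agent.N218.K.Cx
import Crest.Agent.N218.D7.OrbG
import Crest.Agent.N218.D7.Dt
import Crest.Agent.N218.K.Kln
import Crest.Agent.N218.Th.Fin

-- ▼ part N218/D7/Cht
section

/-!
# Row 218, block D7 (helper29): change of chart
-/

set_option autoImplicit false
set_option linter.unusedVariables false
set_option linter.unusedSectionVars false

open Set Module OnePoint
open scoped InnerProductSpace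

noncomputable section

namespace Crest.Agent.N218.D7

open Pm In K

namespace Cht
variable {E : Type} [NormedAddCommGroup E] [NormedSpace ℂ E] [FiniteDimensional ℂ E] {k : ℕ}
  {δ a : ℝ} {v : Sx × E → E} {p : Sx}

theorem ok (h : NS v p a) (hd : 0 < δ) : (OL k v δ).Ok := by
  have := FiniteDimensional.proper_rclike ℂ E
  have c : Continuous (opx fun z : Sx × E => (v z : OnePoint E)) :=
    continuous_opx (continuous_coe.comp h.ct) fun K hK => by
      obtain ⟨r, hr⟩ := hK.isBounded.exists_norm_le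
      obtain ⟨R, hR⟩ := h.pr (r + 1)
      refine ⟨Metric.closedBall 0 R, isCompact_closedBall _ _, fun x w w' n e m => ?_⟩
      have := hR x w (not_le.1 (mt mem_closedBall_zero_iff.2 n)).le
      rw [coe_injective e] at this
      linarith [hr _ m]
  have e := Nft.eqv_ol (k := k) (a := ⟨_, c, fun _ => rfl⟩) (v := v) (fun _ _ => rfl) hd
  exact e.ok.1 (PM.fok (Nft.QN_ok _) (tau_ok hd) (PM.cs_cpt _ _))

theorem far (h : NS v p a) {w : (Sx × UnitAddCircle) × V k E} (z : w ∈ (OL k v δ).Z) :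
    ⟪w.1.1.1, p.1⟫_ℝ < -1 / 2 := not_le.1 fun l => z.1 (by
  have := z.2
  simp only [OL] at this
  rw [show nz _ _ v (fun _ => w.1.1) (Fo.g (-rep w.1.2) w.2) = Fo.g (-rep w.1.2) w.2 from
    funext fun i => by simp only [nz, h.far _ _ l, sub_add_cancel], Fo.g_neg'] at this
  rw [this, mn_zero])
end Cht

/-- **CHT** -/
theorem cht : CHT := by
  intro J e c E _ _ _ k δ v p he hc hk hd hv
  have : Fact (finrank ℝ R12 = 11 + 1) := ⟨by simp⟩
  have o : ∀ z ∈ c.Ω, z.1 ≠ 0 := fun z h => (he.Ω _).1 ((hc.Ω z).1 h).1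
  obtain ⟨φ, h1, h2, h3, h4⟩ := Ch.sim_st (n := 11) p Emb.cr c
    (fun z => (hc.Ω z).trans (and_congr_left fun _ => he.Ω _))
    (fun z h => by rw [hc.π]; exact ⟨he.π _ (o z h), rfl⟩)
    fun z h => by rw [hc.n, he.n _ (o z h)]; rfl
  let ψ : R11 ≃ₜ R11 := Homeomorph.smulOfNeZero (2 : ℝ) two_ne_zero
  refine ⟨fun z => v (φ (ψ z.1), z.2), ⟨hv.ct.comp (((h1.continuous.comp ψ.continuous).comp
    continuous_fst).prodMk continuous_snd), fun x y h => hv.sm _ y h, fun x y h => hv.far _ y ?_,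
    fun r => (hv.pr r).imp fun R hR x y => hR _ y⟩, ?_⟩
  · have n : ‖ψ x‖ = 2 * ‖x‖ := by simp [ψ, norm_smul]
    rw [h3, n, le_div_iff₀ (by positivity)]
    nlinarith
  have := ((Ch.sim_fl ψ rfl Emb.cr).trans h4).pe J (by simp) hk (sp E) (Cht.ok hv hd) fun w z => by
    have : w.1.1 ∈ range φ := h2 ▸ fun e => by
      have := Cht.far hv z
      rw [e, real_inner_self_eq_norm_sq, norm_eq_of_mem_sphere] at this
      linarith
    obtain ⟨y, hy⟩ := this
    exact ⟨(ψ.symm y, w.1.2), Prod.ext ((congrArg φ (ψ.apply_symm_apply y)).trans hy) rfl⟩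
  refine (congrArg (Pe _) (congrArg (J.ν _ _ _) ?_)).mp this
  unfold Emb.pb flat
  congr 1
  exact Set.ext fun z => and_congr_left fun _ => and_iff_right trivial

end Crest.Agent.N218.D7

end
end

-- ▼ part N218/D7/Ol
section

/-!
# Row 218, block D7 (helper75): the honest orbit loop is admissible
-/

set_option autoImplicit false
set_option linter.unusedVariables false
set_option linter.unusedSectionVars false

open Set

noncomputable section

namespace Crest.Agent.N218.D7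

open Pm Pm.Lo

variable {X E : Type} [NormedAddCommGroup E] [NormedSpace ℂ E] {k : ℕ} {δ : ℝ} {v : X × E → E}

variable (k δ) in
/-- the standard cut-off -/
abbrev t0 : V k E → ℝ := fun y => tau δ ((), y)

theorem mn_pm (y : V k E) : D7.mn (ht k) y = Pm.mn y := funext fun i => by
  simp [D7.mn, Pm.mn, ht]

theorem mn_fsh (g : Ix k) (y : V k E) : Pm.mn (Fo.sh g y) = Fo.sh g (Pm.mn y) :=
  funext fun i => by simp [Pm.mn, Fo.sh, add_right_comm]

theorem norm_fsh (g : Ix k) (y : V k E) : ‖Fo.sh g y‖ = ‖y‖ := by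
  have a : ∀ (g : Ix k) (y : V k E), ‖Fo.sh g y‖ ≤ ‖y‖ := fun g y =>
    (pi_norm_le_iff_of_nonneg (norm_nonneg _)).2 fun i => norm_le_pi_norm y _
  refine (a g y).antisymm ?_
  have := a (-g) (Fo.sh g y)
  rwa [Fo.sh_sh, neg_add_cancel, Fo.sh_zero] at this

theorem t0_sh (g : Ix k) (y : V k E) : t0 k δ (Fo.sh g y) = t0 k δ y := by
  simp only [t0, tau, mn_fsh, norm_fsh]

theorem t0_cu (hd : 0 < δ) : Cu (ht k) (t0 k δ : V k E → ℝ) δ := by
  have h := tau_ok (B := Unit) (k := k) (E := E) hd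
  obtain ⟨d, d0, z⟩ := h.z univ isCompact_univ
  exact ⟨h.ct.comp (by fun_prop), fun y => (h.mem _).1, fun y => (h.mem _).2,
    fun y a => h.o ((), y) (mn_pm y ▸ a), d, d0, fun y a => z ((), y) trivial (mn_pm y ▸ a)⟩

theorem mn_g (r : ℝ) (y : V k E) : Pm.mn (Fo.g r y) = Fo.g r (Pm.mn y) := by
  have e : ∀ y : V k E, Pm.mn y = (1 / 2 : ℝ) • (y - Fo.sh (2 ^ k) y) := fun _ => rfl
  rw [e, e, (Fo.g r).map_smul_of_tower, map_sub, Fo.g_sh]

theorem mn_g_ne (r : ℝ) {y : V k E} : Pm.mn (Fo.g r y) ≠ 0 ↔ Pm.mn y ≠ 0 := by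
  rw [mn_g]
  exact not_congr ⟨fun h => by rw [← Fo.g_neg r (Pm.mn y), h, map_zero], fun h => by
    rw [h, map_zero]⟩

variable (k δ v) in
/-- the slice of the loop -/
def N0 (z : X × V k E) : V k E := nz (ht k) (t0 k δ) v (fun _ => z.1) z.2

theorem N0_sh (x : X) (g : Ix k) (y : V k E) :
    N0 k δ v (x, Fo.sh g y) = Fo.sh g (N0 k δ v (x, y)) :=
  nz_comp (e := fun i => i + g) (fun i => add_right_comm _ _ _) v (fun _ => x) (t0_sh g y)

theorem ol_h (w : (X × UnitAddCircle) × V k E) :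
    (OL k v δ).h w = Fo.g (rep w.1.2) (N0 k δ v (w.1.1, Fo.g (-rep w.1.2) w.2)) := rfl

theorem ol_coe (x : X) (r : ℝ) (y : V k E) :
    (OL k v δ).h ((x, (r : UnitAddCircle)), y) = Fo.g r (N0 k δ v (x, Fo.g (-r) y)) := by
  have p : Fo.g (-rep (r : UnitAddCircle)) y = Fo.sh ((⌊r⌋ : ℤ) : Ix k) (Fo.g (-r) y) := by
    rw [rep_coe, ← g_int, ← Fo.g_add]; congr 2; push_cast; ring
  rw [ol_h, p, N0_sh, ← g_int, ← Fo.g_add, rep_coe]
  congr 2; push_cast; ring

theorem N0_id {x : X} (h : ∀ y, v (x, y) = y) (y : V k E) : N0 k δ v (x, y) = y :=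
  funext fun i => by simp [N0, nz, h]


variable [TopologicalSpace X]

theorem N0_ct (hv : Continuous v) (hd : 0 < δ) : Continuous (N0 k δ v) := by
  refine continuous_pi fun i => ?_
  have a : Continuous fun p : X × V k E => (1 - t0 k δ p.2) • D7.mn (ht k) p.2 i :=
    (continuous_const.sub ((t0_cu hd).ct.comp continuous_snd)).smul
      ((continuous_apply i).comp ((continuous_mn _).comp continuous_snd))
  exact (hv.comp (continuous_fst.prodMk (((continuous_apply i).comp continuous_snd).sub a))).add a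

variable [T2Space X] [FiniteDimensional ℂ E] {K : Set X}

theorem N0_cp (hv : Continuous v) (hd : 0 < δ) (hK : IsCompact K) (far : ∀ x ∉ K, ∀ y, v (x, y) = y)
    (pr : ∀ c, ∃ R, ∀ x y, R ≤ ‖y‖ → c ≤ ‖v (x, y)‖) :
    IsCompact {z : X × V k E | Pm.mn z.2 ≠ 0 ∧ N0 k δ v z = 0} := by
  obtain ⟨R, hR⟩ := pr (δ + 1)
  obtain ⟨d, d0, gap⟩ := zero_gap (B := Unit) (ht_ht (k := k)) (t0_cu (E := E) hd)
  have := FiniteDimensional.proper_rclike ℂ E
  have e : {z : X × V k E | Pm.mn z.2 ≠ 0 ∧ N0 k δ v z = 0} =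
      (K ×ˢ Metric.closedBall 0 (|R| + δ)) ∩ ({z | N0 k δ v z = 0} ∩ {z | d ≤ ‖Pm.mn z.2‖}) := by
    ext ⟨x, y⟩
    refine ⟨fun ⟨o, z⟩ => ⟨⟨by_contra fun c => o ?_, mem_closedBall_zero_iff.2
      ((pi_norm_le_iff_of_nonneg (by positivity)).2 fun i => ?_)⟩, z, ?_⟩, fun ⟨_, z, g⟩ =>
      ⟨fun c => ?_, z⟩⟩
    · rw [N0_id (far x c)] at z
      rw [show y = 0 from z]; exact mn_zero
    · have e := congrFun z i
      simp only [N0, nz, Pi.zero_apply] at e
      have k' := (t0_cu hd).small hd.le y i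
      have : ‖y i - (1 - t0 k δ y) • D7.mn (ht k) y i‖ < R := not_le.1 fun c => by
        have := hR x _ c
        rw [eq_neg_of_add_eq_zero_left e, norm_neg] at this
        linarith
      have := norm_add_le (y i - (1 - t0 k δ y) • D7.mn (ht k) y i)
        ((1 - t0 k δ y) • D7.mn (ht k) y i)
      rw [sub_add_cancel] at this
      linarith [le_abs_self R]
    · have := gap (fun z => v (x, z.2)) (fun _ => ()) y (fun _ => rfl) z (mn_pm y ▸ o)
      rwa [mn_pm] at this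
    · have : d ≤ ‖Pm.mn y‖ := g
      rw [show Pm.mn y = 0 from c, norm_zero] at this
      linarith
  rw [e]
  exact (hK.prod (isCompact_closedBall _ _)).inter_right ((isClosed_eq (N0_ct hv hd)
    continuous_const).inter (isClosed_le continuous_const (by fun_prop)))

omit [T2Space X] [FiniteDimensional ℂ E] in
theorem ol_ct (hv : Continuous v) (hd : 0 < δ) : Continuous (OL k v δ).h := by
  have q : IsOpenQuotientMap (Prod.map (Prod.map (id : X → X) ((↑) : ℝ → UnitAddCircle))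
      (id : V k E → V k E)) :=
    (IsOpenQuotientMap.id.prodMap QuotientAddGroup.isOpenQuotientMap_mk).prodMap .id
  rw [← q.continuous_comp_iff]
  have := N0_ct (k := k) hv hd
  exact (show Continuous fun w : (X × ℝ) × V k E =>
    Fo.g w.1.2 (N0 k δ v (w.1.1, Fo.g (-w.1.2) w.2)) by fun_prop).congr fun w =>
      (ol_coe _ _ _).symm

/-- **the honest orbit loop is admissible** -/
theorem ol_ok (hv : Continuous v) (hd : 0 < δ) (hK : IsCompact K)
    (far : ∀ x ∉ K, ∀ y, v (x, y) = y) (pr : ∀ c, ∃ R, ∀ x y, R ≤ ‖y‖ → c ≤ ‖v (x, y)‖) :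
    (OL k v δ).Ok := by
  refine ⟨isOpen_ne_fun (by fun_prop) continuous_const, fun x h => sh_ne h,
    (ol_ct hv hd).continuousOn, fun x _ => ?_, ?_, fun x h => h⟩
  · simp only [ol_h, sh_fo, Fo.g_sh, N0_sh]
  · have c : Continuous fun u : (X × V k E) × ℝ =>
        (((u.1.1, (u.2 : UnitAddCircle)), Fo.g u.2 u.1.2) : (X × UnitAddCircle) × V k E) :=
      (continuous_fst.fst.prodMk ((AddCircle.continuous_mk' 1).comp continuous_snd)).prodMk
        (by fun_prop)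
    convert ((N0_cp hv hd hK far pr).prod (isCompact_Icc (a := (0 : ℝ)) (b := 1))).image c using 1
    ext ⟨⟨x, t⟩, y⟩
    constructor
    · rintro ⟨o, z⟩
      refine ⟨((x, Fo.g (-rep t) y), rep t), ⟨⟨(mn_g_ne _).2 o, ?_⟩, rep_mem t⟩,
        Prod.ext (Prod.ext rfl (coe_rep t)) (Fo.g_neg' _ _)⟩
      rw [← Fo.g_neg (rep t) (N0 k δ v _)]
      exact (congrArg _ z).trans (map_zero _)
    · rintro ⟨⟨⟨x', y'⟩, r⟩, ⟨⟨o, z⟩, -⟩, e⟩
      obtain ⟨⟨rfl, rfl⟩, rfl⟩ : (x' = x ∧ (r : UnitAddCircle) = t) ∧ Fo.g r y' = y := by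
        simpa [Prod.ext_iff] using e
      exact ⟨(mn_g_ne _).2 o, by rw [ol_coe, Fo.g_neg, show N0 k δ v (x', y') = 0 from z, map_zero]⟩

theorem NS.ok {v : Sx × E → E} {p : Sx} {a : ℝ} (h : NS v p a) (hd : 0 < δ) : (OL k v δ).Ok :=
  ol_ok h.ct hd isCompact_univ (fun _ c => absurd trivial c) h.pr

theorem NF.ok {B : Type} [NormedAddCommGroup B] [ProperSpace B] {v : B × E → E} {a : ℝ}
    (h : NF v a) (hd : 0 < δ) : (OL k v δ).Ok :=
  ol_ok h.ct hd (isCompact_closedBall 0 1)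
    (fun x c y => h.far x y (not_le.1 fun e => c (mem_closedBall_zero_iff.2 e)).le) h.pr

end Crest.Agent.N218.D7

end
end

-- ▼ part N218/D7/Tub
section

/-!
# Row 218, block D7 (helper75): from the flat loop problem to the tube
-/

set_option autoImplicit false
set_option linter.unusedVariables false

open Set Module unitInterval

noncomputable section

namespace Crest.Agent.N218.D7

open Pm In K

/-- the axis of the tube -/
abbrev R10 : Type := EuclideanSpace ℝ (Fin 10)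

theorem ann_cpt (R : ℝ) : IsCompact {w : ℂ | w ≠ 0 ∧ |Real.log ‖w‖| ≤ R} := by
  have : {w : ℂ | w ≠ 0 ∧ |Real.log ‖w‖| ≤ R} =
      Metric.closedBall 0 (Real.exp R) ∩ {w | Real.exp (-R) ≤ ‖w‖} := by
    ext w
    simp only [mem_ofPred_eq, mem_inter_iff, mem_closedBall_zero_iff, abs_le]
    refine ⟨fun ⟨h, a, b⟩ => ?_, fun ⟨a, b⟩ => ?_⟩
    · have p := norm_pos_iff.2 h
      exact ⟨(Real.log_le_iff_le_exp p).1 b, (Real.le_log_iff_exp_le p).1 a⟩
    · have p : 0 < ‖w‖ := (Real.exp_pos _).trans_le b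
      exact ⟨norm_pos_iff.1 p, (Real.le_log_iff_exp_le p).2 b, (Real.log_le_iff_le_exp p).2 a⟩
  rw [this]
  exact (isCompact_closedBall _ _).inter_right (isClosed_le continuous_const continuous_norm)

theorem cp_emb {Y B C : Type} [TopologicalSpace Y] [T2Space Y] [TopologicalSpace B] [T2Space B]
    [TopologicalSpace C] [T1Space C] [Zero C] {Ω : Set B} {π : B → Y} {n : B → C}
    (cπ : ContinuousOn π Ω) (cn : ContinuousOn n Ω) {K : Set Y} (hK : IsCompact K) {L : Set B}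
    (hL : IsCompact L) (s : L ⊆ Ω) (h : ∀ p ∈ Ω, n p = 0 → π p ∈ K → p ∈ L) :
    IsCompact {p ∈ Ω | n p = 0 ∧ π p ∈ K} := by
  have : {p ∈ Ω | n p = 0 ∧ π p ∈ K} = L ∩ (fun p => (n p, π p)) ⁻¹' ({0} ×ˢ K) := by
    ext p; exact ⟨fun a => ⟨h p a.1 a.2.1 a.2.2, a.2⟩, fun a => ⟨s a.1, a.2⟩⟩
  rw [this]
  exact hL.of_isClosed_subset (((cn.prodMk cπ).mono s).preimage_isClosed_of_isClosed hL.isClosed
    (isClosed_singleton.prod hK.isClosed)) inter_subset_left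

variable (ψ : (R10 × ℝ) ≃L[ℝ] R11)

theorem bd_K {K : Set (R11 × UnitAddCircle)} (hK : IsCompact K) :
    ∃ R, ∀ x a, (ψ x, a) ∈ K → ‖x.1‖ ≤ R ∧ |x.2| ≤ R := by
  obtain ⟨R, hR⟩ := (hK.image (ψ.symm.continuous.comp continuous_fst)).isBounded.exists_norm_le
  refine ⟨R, fun x a m => ?_⟩
  have := hR x ⟨_, m, ψ.symm_apply_apply x⟩
  exact ⟨(norm_fst_le x).trans this, (norm_snd_le x).trans this⟩

/-- the tube around the circle -/
def eT : Emb (R11 × UnitAddCircle) (R10 × ℂ) Unit where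
  Ω := {p | p.2 ≠ 0}
  π p := (ψ (p.1, Real.log ‖p.2‖), ang p.2)
  n _ := 0
  op := isOpen_ne.preimage continuous_snd
  cπ := (ψ.continuous.comp_continuousOn (continuousOn_fst.prodMk
    (log_on.comp continuousOn_snd fun _ h => h))).prodMk (ang_on.comp continuousOn_snd fun _ h => h)
  cn := continuousOn_const
  cp K hK := by
    obtain ⟨R, hR⟩ := bd_K ψ hK
    exact cp_emb ((ψ.continuous.comp_continuousOn (continuousOn_fst.prodMk
      (log_on.comp continuousOn_snd fun _ h => h))).prodMk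
      (ang_on.comp continuousOn_snd fun _ h => h)) continuousOn_const hK
      ((isCompact_closedBall 0 R).prod (ann_cpt R)) (fun p m => m.2.1) fun p o _ m =>
        ⟨mem_closedBall_zero_iff.2 (hR _ _ m).1, o, (hR _ _ m).2⟩

theorem c_pi : ContinuousOn (fun p : ((R11 × ℝ) × ℂ) × I => (ψ ((ψ.symm p.1.1.1).1,
    (1 - (p.2 : ℝ)) * (ψ.symm p.1.1.1).2 + p.2 * Real.log ‖p.1.2‖), ang p.1.2))
    {p | p.1.2 ≠ 0} :=
  (ψ.continuous.comp_continuousOn (Continuous.continuousOn (by fun_prop) |>.prodMk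
    (ContinuousOn.add (Continuous.continuousOn (by fun_prop)) (ContinuousOn.mul
      (Continuous.continuousOn (by fun_prop))
      (log_on.comp continuous_fst.snd.continuousOn fun _ h => h))))).prodMk
    (ang_on.comp continuous_fst.snd.continuousOn fun _ h => h)

theorem c_n : ContinuousOn (fun p : ((R11 × ℝ) × ℂ) × I => (p.1.1.2,
    (1 - (p.2 : ℝ)) * Real.log ‖p.1.2‖ - p.2 * (ψ.symm p.1.1.1).2)) {p | p.1.2 ≠ 0} :=
  Continuous.continuousOn (by fun_prop) |>.prodMk (ContinuousOn.sub (ContinuousOn.mul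
    (Continuous.continuousOn (by fun_prop))
    (log_on.comp continuous_fst.snd.continuousOn fun _ h => h))
    (Continuous.continuousOn (by fun_prop)))

theorem rot_bd {t s l R : ℝ} (t0 : 0 ≤ t) (t1 : t ≤ 1) (e : (1 - t) * l - t * s = 0)
    (h : |(1 - t) * s + t * l| ≤ R) : |s| ≤ 2 * R ∧ |l| ≤ 2 * R := by
  obtain ⟨a, b⟩ := abs_le.1 h
  have d : 1 / 2 ≤ (1 - t) ^ 2 + t ^ 2 := by nlinarith [sq_nonneg (1 - 2 * t)]
  have e1 : ((1 - t) ^ 2 + t ^ 2) * s = (1 - t) * ((1 - t) * s + t * l) := by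
    linear_combination -t * e
  have e2 : ((1 - t) ^ 2 + t ^ 2) * l = t * ((1 - t) * s + t * l) := by
    linear_combination (1 - t) * e
  have R0 : 0 ≤ R := (abs_nonneg _).trans h
  generalize (1 - t) * s + t * l = c at *
  generalize (1 - t) ^ 2 + t ^ 2 = D at *
  refine ⟨abs_le.2 ⟨?_, ?_⟩, abs_le.2 ⟨?_, ?_⟩⟩ <;> by_contra k <;> push Not at k <;> nlinarith

/-- turning the plane of the last base coordinate and the radius -/
def eR : Emb (R11 × UnitAddCircle) (((R11 × ℝ) × ℂ) × I) (ℝ × ℝ) where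
  Ω := {p | p.1.2 ≠ 0}
  π p := (ψ ((ψ.symm p.1.1.1).1,
    (1 - (p.2 : ℝ)) * (ψ.symm p.1.1.1).2 + p.2 * Real.log ‖p.1.2‖), ang p.1.2)
  n p := (p.1.1.2, (1 - (p.2 : ℝ)) * Real.log ‖p.1.2‖ - p.2 * (ψ.symm p.1.1.1).2)
  op := isOpen_ne.preimage continuous_fst.snd
  cπ := c_pi ψ
  cn := c_n ψ
  cp K hK := by
    obtain ⟨R, hR⟩ := bd_K ψ hK
    refine cp_emb (c_pi ψ) (c_n ψ) hK (((((isCompact_closedBall 0 R).prod
      (isCompact_closedBall 0 (2 * R))).image ψ.continuous).prod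
        (isCompact_singleton (x := (0 : ℝ)))).prod (ann_cpt (2 * R)) |>.prod isCompact_univ)
      (fun p m => m.1.2.1) fun p o z m => ?_
    have a := hR _ _ m
    have b := rot_bd p.2.2.1 p.2.2.2 (congrArg Prod.snd z) a.2
    exact ⟨⟨⟨⟨ψ.symm p.1.1.1, ⟨mem_closedBall_zero_iff.2 a.1, mem_closedBall_zero_iff.2 b.1⟩,
      ψ.apply_symm_apply _⟩, congrArg Prod.fst z⟩, o, b.2⟩, trivial⟩

variable {k : ℕ} {E : Type} [NormedAddCommGroup E] [NormedSpace ℝ E] [FiniteDimensional ℝ E]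

/-- the tube problem -/
def tube (P : Pb (R11 × UnitAddCircle) k E) : PB (XX (R10 × ℂ) k E).ls (Rr k E) :=
  ⟨{z : (R10 × ℂ) × V k E | z.1.2 ≠ 0 ∧ ((ψ (z.1.1, Real.log ‖z.1.2‖), ang z.1.2), z.2) ∈ P.O},
    fun z : (R10 × ℂ) × V k E => P.h ((ψ (z.1.1, Real.log ‖z.1.2‖), ang z.1.2), z.2)⟩

variable {P : Pb (R11 × UnitAddCircle) k E}

theorem tube_fr (h : P.Ok) : (tube ψ P).Fr := by
  obtain ⟨a, b, c⟩ := (eT ψ).core h
  refine ⟨a, fun g z u => ⟨u.1, (ok_act h g.toAdd _ _ u.2).1⟩, b.snd,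
    fun g z u => (ok_act h g.toAdd _ _ u.2).2, Eq.subst (motive := IsCompact) ?_ c,
    fun z u => mem_fr (h.fr _ u.1.2)⟩
  ext z
  exact ⟨fun u => ⟨u.1, congrArg Prod.snd u.2⟩, fun u => ⟨u.1, Prod.ext rfl u.2⟩⟩

theorem adm_tube : Adm 12 (XX (R10 × ℂ) k E) (Rr k E) :=
  let e : (R10 × ℂ) ≃L[ℝ] (Fin 12 → ℝ) := ContinuousLinearEquiv.ofFinrankEq (by simp)
  ⟨⟨e.prodCongr (.refl ℝ (V k E)), fun _ _ => rfl⟩⟩

theorem adm_flat : Adm 12 (XX ((R11 × ℝ) × ℂ) k E) (XX (ℝ × ℝ) k E) := adm (by simp) k E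

variable (k E) in
/-- the source of the flat problem -/
def isoS : (XX ((R11 × ℝ) × ℂ) k E).ls.Iso
    ((XX (R10 × ℂ) k E).prod (Rep.triv (Gk k) (ℝ × ℝ))).ls where
  e := show (((R11 × ℝ) × ℂ) × V k E) ≃ₜ (((R10 × ℂ) × V k E) × (ℝ × ℝ)) from
    { toFun z := ((((ψ.symm z.1.1.1).1, z.1.2), z.2), (z.1.1.2, -(ψ.symm z.1.1.1).2))
      invFun z := (((ψ (z.1.1.1, -z.2.2), z.2.1), z.1.1.2), z.1.2)
      left_inv z := by simp
      right_inv z := by simp
      continuous_toFun := by fun_prop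
      continuous_invFun := by fun_prop }
  eq _ _ := rfl

variable (k E) in
/-- the target of the flat problem -/
def isoT : ((Rr k E).prod (Rep.triv (Gk k) (ℝ × ℝ))).Iso (XX (ℝ × ℝ) k E) :=
  ⟨ContinuousLinearEquiv.prodComm ℝ (V k E) (ℝ × ℝ), fun _ _ => rfl⟩

theorem flat_bd (h : P.Ok) :
    (flat P).Bd (((tube ψ P).st (Rep.triv (Gk k) (ℝ × ℝ))).iso (isoS ψ k E) (isoT k E)) := by
  obtain ⟨a, b, c⟩ := (eR ψ).core h
  let s : ((((R11 × ℝ) × ℂ) × V k E) × I) ≃ₜ ((((R11 × ℝ) × ℂ) × I) × V k E) :=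
    ⟨⟨fun z => ((z.1.1, z.2), z.1.2), fun z => ((z.1.1, z.2), z.1.2), fun _ => rfl, fun _ => rfl⟩,
      by fun_prop, by fun_prop⟩
  have H := PB.fam_ok (X := (XX ((R11 × ℝ) × ℂ) k E).ls) (V := XX (ℝ × ℝ) k E)
    (S := (XX ((R11 × ℝ) × ℂ) k E).ls.fr) (a.preimage s.continuous)
    (fun g z t u => ⟨u.1, (ok_act h g.toAdd _ _ u.2).1⟩) (b.comp s.continuous.continuousOn
      fun _ u => u) (fun g z t u => Prod.ext rfl (ok_act h g.toAdd _ _ u.2).2)
    (s.isClosedEmbedding.isCompact_preimage c) fun z t u _ => mem_fr (h.fr _ u.2)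
  have := H.hb_sl
  convert this using 1
  · refine congrArg₂ PB.mk (Set.ext fun z => ?_) (funext fun z => ?_)
    · change _ ↔ (_ ∧ ((ψ (_, (1 - ((0 : I) : ℝ)) * _ + ((0 : I) : ℝ) * _), _), _) ∈ _)
      simp only [Icc.coe_zero, sub_zero, one_mul, zero_mul, add_zero, Prod.mk.eta,
        ψ.apply_symm_apply]
      rfl
    · change _ = ((_, (1 - ((0 : I) : ℝ)) * _ - ((0 : I) : ℝ) * _),
        P.h ((ψ (_, (1 - ((0 : I) : ℝ)) * _ + ((0 : I) : ℝ) * _), _), _))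
      simp only [Icc.coe_zero, sub_zero, one_mul, zero_mul, add_zero, Prod.mk.eta,
        ψ.apply_symm_apply]
      rfl
  · refine congrArg₂ PB.mk (Set.ext fun z => ?_) (funext fun z => ?_)
    · change _ ↔ (_ ∧ ((ψ (_, (1 - ((1 : I) : ℝ)) * _ + ((1 : I) : ℝ) * _), _), _) ∈ _)
      simp only [Icc.coe_one, sub_self, one_mul, zero_mul, zero_add]
      exact ⟨fun u => u.1, fun u => ⟨u, trivial⟩⟩
    · change _ = ((_, (1 - ((1 : I) : ℝ)) * _ - ((1 : I) : ℝ) * _),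
        P.h ((ψ (_, (1 - ((1 : I) : ℝ)) * _ + ((1 : I) : ℝ) * _), _), _))
      simp only [Icc.coe_one, sub_self, one_mul, zero_mul, zero_add, zero_sub]
      rfl

theorem flat_zero (J : AI 12) (hk : 16 ≤ k) (h : P.Ok)
    (z : J.ν (ck k) (XX (R10 × ℂ) k E) (Rr k E) (tube ψ P) = 0) :
    J.ν (ck k) (XX ((R11 × ℝ) × ℂ) k E) (XX (ℝ × ℝ) k E) (flat P) = 0 := by
  obtain ⟨s, hs⟩ := J.stb (ck k) _ _ (Rep.triv (Gk k) (ℝ × ℝ)) (gq hk) (adm_tube (E := E))
  obtain ⟨s', hs'⟩ := J.iso (ck k) _ _ _ _ (gq hk) (Ai.adm_st (adm_tube (E := E)) _) adm_flat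
    (isoS ψ k E) (isoT k E)
  rw [J.bd (ck k) _ _ (gq hk) adm_flat _ _ (flat_bd ψ h), hs' _ (Ai.fr_st (tube_fr ψ h) _),
    hs _ (tube_fr ψ h), z, smul_zero, smul_zero]

end Crest.Agent.N218.D7

end
end

-- ▼ part N218/Tr/Fp
section

/-!
# Row 218, transfer (helper37): the transfer axiom for fibrewise problems
-/

set_option autoImplicit false
set_option linter.unusedVariables false
set_option linter.unusedSectionVars false
set_option linter.unusedSimpArgs false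

open Crest.Agent.R204.K357 Matrix Crest.Agent.N218.K Set Topology OnePoint
open scoped ComplexConjugate

noncomputable section

namespace Crest.Agent.N218.Tr

variable {Γ Γ' : Type} [Group Γ] [TopologicalSpace Γ] [Group Γ'] [TopologicalSpace Γ']
  [CompactSpace Γ] [CompactSpace Γ'] {φ : Γ' →* Γ} {hφ : Continuous φ}
  {Y : GS Γ} {M : LS Γ} {W : Rep Γ}

/-- `P` is induced from the problem `P'` for the subgroup: the zeros of `P` lie in the disjoint
translates of `P'.O` -/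
structure Ind (P : FP Y M W) (P' : FP (Y.res φ hφ) (M.res φ hφ) (W.res φ hφ)) : Prop where
  op : IsOpen (P'.O : Set (Y.Z × M.Z))
  inv : ∀ k, ∀ x : Y.Z × M.Z, x ∈ P'.O → (Y.act (φ k) x.1, M.act (φ k) x.2) ∈ P'.O
  sub : ∀ x : Y.Z × M.Z, x ∈ P'.O → x ∈ P.O
  eq : ∀ x : Y.Z × M.Z, x ∈ P'.O → P'.f x = P.f x
  dis : ∀ g, ∀ x : Y.Z × M.Z, x ∈ P'.O → (Y.act g x.1, M.act g x.2) ∈ P'.O → g ∈ φ.range
  cov : ∀ x ∈ P.O, P.f x = 0 → ∃ g, (Y.act g x.1, M.act g x.2) ∈ P'.O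

variable {P : FP Y M W} {P' : FP (Y.res φ hφ) (M.res φ hφ) (W.res φ hφ)}

theorem act_act (g g' : Γ) (x : Y.Z × M.Z) :
    (Y.act g (Y.act g' x.1), M.act g (M.act g' x.2)) = (Y.act (g * g') x.1, M.act (g * g') x.2) := by
  rw [Y.mul, M.mul]

theorem act_one (x : Y.Z × M.Z) : (Y.act 1 x.1, M.act 1 x.2) = x := by rw [Y.one, M.one]

theorem Ind.back (h : Ind P P') (k : Γ') (x : Y.Z × M.Z)
    (hx : (Y.act (φ k) x.1, M.act (φ k) x.2) ∈ P'.O) : x ∈ P'.O := by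
  have := h.inv k⁻¹ _ hx
  rwa [act_act, ← map_mul, inv_mul_cancel, map_one, act_one] at this

theorem Ind.opn (h : Ind P P') (g : Γ) :
    IsOpen {x : Y.Z × M.Z | (Y.act g x.1, M.act g x.2) ∈ P'.O} :=
  h.op.preimage ((Y.cont.comp (continuous_const.prodMk continuous_fst)).prodMk
    (M.cont.comp (continuous_const.prodMk continuous_snd)))

theorem Ind.cpt (h : Ind P P') {T : Set (Y.Z × M.Z)} (hT : IsCompact T)
    (c : ∀ x ∈ T, ∃ g, (Y.act g x.1, M.act g x.2) ∈ P'.O) : IsCompact {x ∈ T | x ∈ P'.O} := by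
  have : {x ∈ T | x ∈ P'.O} = T ∩ (⋃ g, ⋃ _ : g ∉ φ.range,
      {x : Y.Z × M.Z | (Y.act g x.1, M.act g x.2) ∈ P'.O})ᶜ := by
    ext x
    simp only [mem_ofPred_eq, mem_inter_iff, mem_compl_iff, mem_iUnion, not_exists]
    refine and_congr_right fun hx => ⟨fun a g hg b => hg (h.dis g x a b), fun a => ?_⟩
    obtain ⟨g, hg⟩ := c x hx
    obtain ⟨k, rfl⟩ : g ∈ φ.range := by_contra fun n => a g n hg
    exact h.back k x hg
  rw [this]
  exact hT.inter_right (isOpen_iUnion fun g => isOpen_iUnion fun _ => h.opn g).isClosed_compl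

theorem Ind.ok (h : Ind P P') (hP : P.Ok) : P'.Ok where
  op := h.op
  inv := h.inv
  ct := (hP.ct.mono h.sub).congr h.eq
  eq k x hx := (h.eq _ (h.inv k x hx)).trans ((hP.eq (φ k) x (h.sub x hx)).trans
    (congrArg (W.ρ (φ k)) (h.eq x hx).symm))
  cp := by
    have e : {x : Y.Z × M.Z | x ∈ P'.O ∧ P'.f x = 0} =
        {x ∈ {x ∈ P.O | P.f x = 0} | x ∈ P'.O} := Set.ext fun x =>
      ⟨fun ⟨a, b⟩ => ⟨⟨h.sub x a, (h.eq x a).symm.trans b⟩, a⟩,
        fun ⟨⟨_, b⟩, a⟩ => ⟨a, (h.eq x a).trans b⟩⟩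
    exact (congrArg IsCompact e).mpr (h.cpt hP.cp fun x hx => h.cov x hx.1 hx.2)

variable {J α : Type} [Fintype J] [DecidableEq J] [Fintype α] {C : Cs φ J}
  {s : J → α → C(Y.Z, ℂ)}

theorem pull_cls {A B I : Type} [TopologicalSpace A] [TopologicalSpace B] [Fintype I] (r : C(A, B))
    {e : Matrix I I C(B, ℂ)} (he : e * e = e) :
    pull r (K0.cls e) = K0.cls (e.map fun a => a.comp r) :=
  K0.mapRing_cls ((ContinuousMap.compRightAlgHom ℂ ℂ r : C(B, ℂ) →ₐ[ℂ] _) : C(B, ℂ) →+* C(A, ℂ)) he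

theorem tau_res' (Z : GS Γ) (j : C(Z.Z, Y.Z)) (p : C(Z.Q, Y.Q)) (hp : ∀ z, p (Z.pr z) = Y.pr (j z))
    (hs : Sec Y C s) (hs' : Sec Z C fun i a => (s i a).comp j) (g : J → Matrix α α C(Y.Q, ℂ))
    (hg : ∀ j a b z, g j a b (Y.pr z) = conj (s j a z) * s j b z) (x : KX Z.Q) :
    tau hφ hs' (pull (rq Z hφ) x) = pull p (∑ j, K0.cls (g j)) * x := by
  rw [tau_res hφ hs' (fun i => (g i).map fun a => a.comp p)
    (fun i a b z => (congrArg (g i a b) (hp z)).trans (hg i a b _)) x, map_sum]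
  congr 1
  exact Finset.sum_congr rfl fun j _ => (pull_cls p (gram_idem hs g hg j)).symm

/-- **TRANSFER** -/
theorem Ind.trf (h : Ind P P') (hP : P.Ok) (hs : Sec Y C s) (g : J → Matrix α α C(Y.Q, ℂ))
    (hg : ∀ j a b z, g j a b (Y.pr z) = conj (s j a z) * s j b z)
    (rM : C((Sb (Y.res φ hφ) (M.res φ hφ)).E, (Sb Y M).E))
    (hM : ∀ y w, rM (pt (Y.res φ hφ) (M.res φ hφ) y w) = pt Y M y w)
    (rW : C((Sb (Y.res φ hφ) (W.res φ hφ).ls).E, (Sb Y W.ls).E))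
    (hW : ∀ y w, rW (pt (Y.res φ hφ) (W.res φ hφ).ls y w) = pt Y W.ls y w)
    {l : KS Y W.ls} (hl : (Sb Y W.ls).Rd l) {x : KS Y M} (hx : P'.pb (pull rW l) = pull rM x) :
    P.pb l = (Sb Y M).sm (∑ j, K0.cls (g j)) x := by
  classical
  let P1 : FP Y M W := ⟨{x | ∃ g, (Y.act g x.1, M.act g x.2) ∈ P'.O}, P.f⟩
  have sub1 : P1.O ⊆ P.O := fun x ⟨g, hg⟩ => by
    have := hP.inv g⁻¹ _ (h.sub _ hg)
    rwa [act_act, inv_mul_cancel, act_one] at this
  have h1 : P1.Ok := hP.shrink (by simp only [P1, ofPred_exists]; exact isOpen_iUnion h.opn)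
    (fun g x ⟨g', hg'⟩ => ⟨g' * g⁻¹, by rwa [act_act, inv_mul_cancel_right]⟩) sub1
    (fun _ _ => rfl) h.cov
  obtain ⟨χ, hχ⟩ := h1.exists_cut
  obtain ⟨F, hF, rF⟩ := hχ.rp h1
  have hS := h.cpt hχ.cp hχ.sub
  let χ' : Y.Z × M.Z → ℝ := (P'.O : Set (Y.Z × M.Z)).indicator χ
  have c0 : ∀ x ∉ {x ∈ tsupport χ | x ∈ P'.O}, χ' x = 0 := fun x hx => by
    by_cases a : x ∈ P'.O
    · exact (indicator_of_mem a _).trans (image_eq_zero_of_notMem_tsupport fun b => hx ⟨b, a⟩)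
    · exact indicator_of_notMem a _
  have c1 : tsupport χ' ⊆ {x ∈ tsupport χ | x ∈ P'.O} :=
    closure_minimal (fun x hx => by_contra fun n => hx (c0 x n)) hS.isClosed
  have hχ' : P'.Cut χ' :=
    { ct := continuous_of_tsupport fun x hx => hχ.ct.continuousAt.congr <| by
        filter_upwards [h.op.mem_nhds (c1 hx).2] with y hy using (indicator_of_mem hy _).symm
      nn := fun x => indicator_nonneg (fun y _ => hχ.nn y) x
      cp := hS.of_isClosed_subset isClosed_closure c1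
      sub := fun x hx => (c1 hx).2
      pos := fun x a b => ((hχ.pos x ⟨1, (act_one (Y := Y) (M := M) x).symm ▸ a⟩ ((h.eq x a).symm.trans b)).trans_eq
        (indicator_of_mem a _).symm)
      inv := fun k x => by
        by_cases a : x ∈ P'.O
        · exact (indicator_of_mem (h.inv k x a) _).trans ((hχ.inv (φ k) x).trans
            (indicator_of_mem a _).symm)
        · exact (indicator_of_notMem (fun b => a (h.back k x b)) _).trans
            (indicator_of_notMem a _).symm }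
  obtain ⟨F', hF', rF'⟩ := hχ'.rp (h.ok hP)
  have e1 : P.pb = pull F.f := ((rF.grow sub1 (fun _ _ => rfl) h.cov).ht_hm hP).pull_eq
  have e2 : P'.pb = pull F'.f := (rF'.ht_hm (h.ok hP)).pull_eq
  have hs' : Sec (Y.prod M.sph) C fun j a => (s j a).comp ContinuousMap.fst :=
    ⟨fun j a g z => hs.eq j a g z.1, fun j z => hs.un j z.1⟩
  have em : IsOpenEmbedding (Prod.map id (↑) : Y.Z × M.Z → Y.Z × OnePoint M.Z) :=
    IsOpenEmbedding.id.prodMap isOpenEmbedding_coe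
  have mem : ∀ {A : Set (Y.Z × M.Z)} (y : Y.Z) (w : M.Z), ((y, (w : OnePoint M.Z)) ∈
      Prod.map id (↑) '' A) ↔ (y, w) ∈ A := fun y w => em.injective.mem_set_image (a := (y, w))
  have z : pull ((Sb Y W.ls).s.comp (Sb Y M).p) l = 0 := by
    rw [pull_cm, show pull (Sb Y W.ls).s l = 0 from hl, map_zero]
  have key := tau_supp' hφ hs' F.f ((Sb Y W.ls).s.comp (Sb Y M).p) (rW.comp F'.f)
    (em.isOpenMap _ h.op) (hS.image em.continuous) (image_mono fun x hx => hx.2)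
    (by rintro k _ ⟨x, a, rfl⟩; exact ⟨_, h.inv k x a, rfl⟩)
    (by rintro g _ ⟨x, a, rfl⟩ b; exact h.dis g x a ((mem _ _).1 b))
    (by
      rintro _ ⟨⟨y, w⟩, a, rfl⟩
      refine (congrArg rW (hF' y w)).trans ((hW _ _).trans ((congrArg (pt Y W.ls y) ?_).trans
        (hF y w).symm))
      exact (FP.col_eq _ _).trans ((congrArg₂ (fun (c : ℝ) (v : W.W) => sc (c, (v : OnePoint W.W)))
        (show χ' (y, w) = χ (y, w) from indicator_of_mem a _) (h.eq _ a)).trans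
          (FP.col_eq (P := P1) χ (y, w)).symm))
    (by
      rintro ⟨y, w⟩ a
      induction w using OnePoint.rec with
      | infty => exact (congrArg rW (F'.f_inf y)).trans (hW _ _)
      | coe w =>
        refine (congrArg rW (hF' y w)).trans ((hW _ _).trans (congrArg (pt Y W.ls y) ?_))
        exact if_pos (indicator_of_notMem (fun b => a ((mem y w).2 b)) _))
    (by
      rintro ⟨y, w⟩ a
      induction w using OnePoint.rec with
      | infty => exact F.f_inf y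
      | coe w =>
        refine (hF y w).trans (congrArg (pt Y W.ls y) (if_pos (by_contra fun n => ?_)))
        obtain ⟨g, hg⟩ := hχ.mem n
        exact a g ((mem _ _).2 ⟨subset_closure fun e => n ((hχ.inv g (y, w)).symm.trans e), hg⟩)) l z
  have r : rM = rq (Y.prod M.sph) hφ := ContinuousMap.ext fun e => by
    obtain ⟨y, w, rfl⟩ := pt_surj e; exact hM y w
  have k2 : pull (rW.comp F'.f) l = pull rM x := by rw [pull_cm, ← e2, hx]
  subst r
  have k3 := tau_res' (hφ := hφ) (Y.prod M.sph) ContinuousMap.fst (Sb Y M).p (fun _ => rfl) hs hs'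
    g hg x
  rw [e1]
  exact key.symm.trans ((congrArg (tau hφ hs') k2).trans k3)

end Crest.Agent.N218.Tr
end
end

-- ▼ part N218/Tr/Ind
section

/-!
# Row 218, transfer (helper37): induced problems, transfer in terms of line bundles
-/

set_option autoImplicit false
set_option linter.unusedVariables false
set_option linter.unusedSectionVars false

open Crest.Agent.R204.K357 Matrix Crest.Agent.N218.K Set Topology OnePoint
open scoped ComplexConjugate

noncomputable section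

namespace Crest.Agent.N218.Tr

variable {Γ Γ' : Type} [Group Γ] [TopologicalSpace Γ] [Group Γ'] [TopologicalSpace Γ']
  {φ : Γ' →* Γ} {hφ : Continuous φ}

/-- inverse characters -/
def Cs.inv {J : Type} (C : Cs φ J) : Cs φ J :=
  ⟨C.t, C.ex, C.un, fun j => (C.χ j)⁻¹, fun j k => by rw [MonoidHom.inv_apply, C.tr, inv_one],
    fun i j h => C.inj (inv_injective h)⟩

/-- coset data for subgroups of finite groups with a faithful character -/
theorem exists_cs [Fintype Γ] [Fintype Γ'] {χ : Γ →* Circle} (hχ : Function.Injective χ)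
    (hi : Function.Injective φ) {m : ℕ} (hm : Fintype.card Γ = Fintype.card Γ' * m) :
    ∃ C : Cs φ (Fin m), ∀ j, C.χ j = χ ^ (Fintype.card Γ' * j) := by
  have cm : ∀ a b : Γ, a * b = b * a := fun a b => hχ (by rw [map_mul, map_mul, mul_comm])
  have h0 : Fintype.card Γ' ≠ 0 := Fintype.card_ne_zero
  have hc : Nat.card (Γ ⧸ φ.range) = m := by
    have := φ.range.card_eq_card_quotient_mul_card_subgroup
    rw [← Nat.card_congr (φ.ofInjective hi).toEquiv, Nat.card_eq_fintype_card (α := Γ),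
      Nat.card_eq_fintype_card (α := Γ'), hm, mul_comm] at this
    exact (Nat.eq_of_mul_eq_mul_right (Nat.pos_of_ne_zero h0) this).symm
  let e : (Γ ⧸ φ.range) ≃ Fin m := Finite.equivFinOfCardEq hc
  have : IsCyclic Γ := isCyclic_of_injective_ringHom (Circle.coeHom.comp χ)
    (Circle.coe_injective.comp hχ)
  obtain ⟨g0, hg0⟩ := IsCyclic.exists_ofOrder_eq_natCard (α := Γ)
  refine ⟨⟨fun i => (e.symm i).out, fun g => ?_, fun i j k H => ?_,
    fun j => χ ^ (Fintype.card Γ' * j), fun j k => ?_, fun i j H => ?_⟩, fun _ => rfl⟩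
  · obtain ⟨⟨_, k, rfl⟩, hk⟩ := QuotientGroup.mk_out_eq_mul φ.range g
    refine ⟨e g, k⁻¹, ?_⟩
    rw [e.symm_apply_apply, hk, cm g, map_inv, inv_mul_cancel_left]
  · refine e.symm.injective ?_
    rw [← (e.symm i).out_eq', ← (e.symm j).out_eq', H, cm]
    exact QuotientGroup.mk_mul_of_mem _ ⟨k, rfl⟩
  · rw [MonoidHom.pow_apply, ← map_pow, ← map_pow, pow_mul, pow_card_eq_one, one_pow, map_one,
      map_one]
  · have H1 := DFunLike.congr_fun H g0
    simp only [MonoidHom.pow_apply, ← map_pow] at H1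
    have H2 := pow_eq_pow_iff_modEq.1 (hχ H1)
    rw [hg0, Nat.card_eq_fintype_card, hm] at H2
    have := Nat.ModEq.mul_left_cancel' h0 H2
    rw [Nat.ModEq, Nat.mod_eq_of_lt i.2, Nat.mod_eq_of_lt j.2] at this
    exact Fin.ext this

/-- sections with a common index set -/
def pad {Y : GS Γ} {J : Type} [Fintype J] [DecidableEq J] {χ : J → Γ →* Circle}
    (S : ∀ j, K.Sec Y (χ j)) (j : J) : K.Sec Y (χ j) where
  ι := Σ i, (S i).ι
  s := ⟨fun y x => if x.1 = j then (S x.1).s y x.2 else 0, continuous_pi fun x => by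
    split_ifs
    · fun_prop
    · exact continuous_const⟩
  un y := by
    have := (S j).un y
    simp only [Un1, ContinuousMap.coe_mk, Fintype.sum_sigma] at this ⊢
    rw [Finset.sum_eq_single j (fun i _ h => by simp [h]) (by simp)]
    simpa using this
  eq g y x := by
    obtain ⟨i, a⟩ := x
    by_cases h : i = j
    · subst h; simp [(S i).eq]
    · simp [h]

/-- **TRANSFER**, with line bundles -/
theorem Ind.trf' [CompactSpace Γ] [CompactSpace Γ'] {Y : GS Γ} {M : LS Γ} {W : Rep Γ}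
    {P : FP Y M W} {P' : FP (Y.res φ hφ) (M.res φ hφ) (W.res φ hφ)} {J : Type} [Fintype J]
    (h : Ind P P') (hP : P.Ok) (C : Cs φ J) (hS : ∀ j, Nonempty (K.Sec Y (C.χ j)))
    (rM : C((Sb (Y.res φ hφ) (M.res φ hφ)).E, (Sb Y M).E))
    (hM : ∀ y w, rM (pt (Y.res φ hφ) (M.res φ hφ) y w) = pt Y M y w)
    (rW : C((Sb (Y.res φ hφ) (W.res φ hφ).ls).E, (Sb Y W.ls).E))
    (hW : ∀ y w, rW (pt (Y.res φ hφ) (W.res φ hφ).ls y w) = pt Y W.ls y w)
    {l : KS Y W.ls} (hl : (Sb Y W.ls).Rd l) {x : KS Y M} (hx : P'.pb (pull rW l) = pull rM x) :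
    P.pb l = (Sb Y M).sm (∑ j, Lc Y (C.χ j)) x := by
  classical
  let T := pad fun j => (hS j).some
  have hs : Sec Y C.inv fun j (a : Σ i, (hS i).some.ι) =>
      ⟨fun y => (T j).inv.s y a, by fun_prop⟩ :=
    ⟨fun j a g z => (T j).inv.eq g z a, fun j z => (T j).inv.un z⟩
  rw [h.trf hP hs (fun j => (T j).out (T j)) (fun j a b z => by
    change _ = conj (conj _) * _
    rw [Complex.conj_conj]; rfl) rM hM rW hW hl hx]
  congr 1
  exact Finset.sum_congr rfl fun j _ => (Lc_eq (T j)).symm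

/-! ## induced functions and problems -/

variable {X : LS Γ} {V W : Rep Γ}

open Classical in
/-- the induced function -/
def ind (X : LS Γ) (W : Rep Γ) (O : Set X.Z) (f : X.Z → W.W) (x : X.Z) : W.W :=
  if h : ∃ g, X.act g x ∈ O then W.ρ h.choose⁻¹ (f (X.act h.choose x)) else 0

/-- disjoint translates -/
def Dj (φ : Γ' →* Γ) (X : LS Γ) (O : Set X.Z) : Prop :=
  ∀ g, ∀ x ∈ O, X.act g x ∈ O → g ∈ φ.range

theorem rho_mul (g g' : Γ) (w : W.W) : W.ρ (g * g') w = W.ρ g (W.ρ g' w) := by rw [map_mul]; rfl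

theorem rho_zero {g : Γ} {w : W.W} (h : W.ρ g w = 0) : w = 0 := by
  rw [← W.inv_apply g w, h, map_zero]

section
variable {O : Set X.Z} {f : X.Z → W.W} (d : Dj φ X O)
  (e : ∀ k, ∀ x ∈ O, f (X.act (φ k) x) = W.ρ (φ k) (f x))
include d e

theorem ind_eq {g : Γ} {x : X.Z} (h : X.act g x ∈ O) : ind X W O f x = W.ρ g⁻¹ (f (X.act g x)) := by
  have h' : ∃ g, X.act g x ∈ O := ⟨g, h⟩
  rw [ind, dif_pos h']
  obtain ⟨k, hk⟩ := d (g * h'.choose⁻¹) _ h'.choose_spec (by rwa [X.mul, X.inv_act])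
  have := e k _ h'.choose_spec
  rw [hk, X.mul, X.inv_act] at this
  rw [this, ← rho_mul, inv_mul_cancel_left]

theorem ind_one {x : X.Z} (h : x ∈ O) : ind X W O f x = f x := by
  rw [ind_eq d e (g := 1) (by rwa [X.one]), X.one, inv_one, map_one]; rfl

theorem ind_act (g : Γ) {x : X.Z} (h : ∃ g, X.act g x ∈ O) :
    ind X W O f (X.act g x) = W.ρ g (ind X W O f x) := by
  obtain ⟨g', h⟩ := h
  have a : X.act (g' * g⁻¹) (X.act g x) = X.act g' x := by rw [X.mul, X.inv_act]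
  rw [ind_eq d e h, ind_eq d e (g := g' * g⁻¹) (by rwa [a]), a, ← rho_mul, _root_.mul_inv_rev,
    inv_inv]

theorem ind_ct (op : IsOpen O) (ct : ContinuousOn f O) :
    ContinuousOn (ind X W O f) {x | ∃ g, X.act g x ∈ O} := fun x ⟨g, h⟩ => by
  refine (((W.ρ g⁻¹).continuous.continuousAt.comp ((ct.continuousAt (op.mem_nhds h)).comp
    (X.cont_act g).continuousAt)).congr ?_).continuousWithinAt
  filter_upwards [(op.preimage (X.cont_act g)).mem_nhds h] with y hy using (ind_eq d e hy).symm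
end

/-- the induced problem -/
def indP (Q : PB (X.res φ hφ) (V.res φ hφ)) : PB X V := ⟨{x | ∃ g, X.act g x ∈ Q.O}, ind X V Q.O Q.f⟩

variable {Q Q' : PB (X.res φ hφ) (V.res φ hφ)} {S' : Set X.Z}

theorem ind_z (d : Dj φ X Q.O) (h : Q.Ok S') {g : Γ} {x : X.Z} (a : X.act g x ∈ Q.O) :
    x ∈ (indP Q).Z ↔ X.act g x ∈ Q.Z :=
  ⟨fun b => ⟨a, rho_zero (W := V) ((ind_eq d h.eq a).symm.trans b.2)⟩, fun b => ⟨⟨g, a⟩,
    (ind_eq d h.eq a).trans ((congrArg (V.ρ g⁻¹) b.2).trans (map_zero _))⟩⟩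

theorem ind_ok [Finite Γ] (d : Dj φ X Q.O) (h : Q.Ok S') {S : Set X.Z}
    (fr : ∀ g x, X.act g x ∈ Q.Z → x ∈ S) : (indP Q).Ok S where
  op := by
    simp only [indP, ofPred_exists]
    exact isOpen_iUnion fun g => h.op.preimage (X.cont_act g)
  inv g x := fun ⟨g', a⟩ => ⟨g' * g⁻¹, by rwa [X.mul, X.inv_act]⟩
  ct := ind_ct d h.eq h.op h.ct
  eq g x a := ind_act d h.eq g a
  cp := by
    have : (indP Q).Z = ⋃ g, X.act g⁻¹ '' Q.Z := Set.ext fun x => by
      rw [mem_iUnion]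
      refine ⟨fun b => ?_, ?_⟩
      · obtain ⟨g, a⟩ := b.1
        exact ⟨g, _, (ind_z d h a).1 b, X.inv_act g x⟩
      · rintro ⟨g, y, b, rfl⟩
        have a : X.act g (X.act g⁻¹ y) = y := X.act_inv g y
        exact (ind_z d h (g := g) (a.symm ▸ b.1)).2 (a.symm ▸ b)
    rw [this]
    exact isCompact_iUnion fun g => h.cp.image (X.cont_act _)
  fr x b := by
    obtain ⟨g, a⟩ := b.1
    exact fr g x ((ind_z d h a).1 b)

theorem Dj.fr (d : Dj φ X Q.O) {x : X.Z} (a : x ∈ Q.O) (b : x ∈ (X.res φ hφ).fr) (g : Γ) {y : X.Z}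
    (e : X.act g y = x) : y ∈ X.fr := by
  have : x ∈ X.fr := fun g' h' => by
    obtain ⟨k, rfl⟩ := d g' x a (h'.symm ▸ a)
    rw [b k h', map_one]
  rw [← X.inv_act g y, e]; exact X.fr_act _ this

theorem ind_le (d : Dj φ X Q'.O) (h : Q.Ok S') {S'' : Set X.Z} (h' : Q'.Ok S'') (l : Q.Le Q') :
    (indP Q).Le (indP Q') where
  sub x := fun ⟨g, a⟩ => ⟨g, l.sub a⟩
  eq x := fun ⟨g, a⟩ => (ind_eq (fun g x a b => d g x (l.sub a) (l.sub b)) h.eq a).trans
    ((congrArg (V.ρ g⁻¹) (l.eq _ a)).trans (ind_eq d h'.eq (l.sub a)).symm)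
  z x b := by
    obtain ⟨g, a⟩ := b.1
    exact ⟨g, l.z ((ind_z d h' a).1 b)⟩

theorem ind_le' {P : PB X V} {S : Set X.Z} (hP : P.Ok S) (d : Dj φ X Q.O) (h : Q.Ok S')
    (sub : ∀ x : X.Z, x ∈ Q.O → x ∈ P.O ∧ Q.f x = P.f x) (cov : ∀ x ∈ P.Z, ∃ g, X.act g x ∈ Q.O) :
    (indP Q).Le P := by
  have s : ∀ g x, X.act g x ∈ Q.O → x ∈ P.O := fun g x a => by
    have := hP.inv g⁻¹ _ (sub _ a).1
    rwa [X.inv_act] at this
  exact ⟨fun x ⟨g, a⟩ => s g x a, fun x ⟨g, a⟩ => (ind_eq d h.eq a).trans ((congrArg (V.ρ g⁻¹)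
    ((sub _ a).2.trans (hP.eq g x (s g x a)))).trans (V.inv_apply g _)), cov⟩

theorem ind_lift (d : Dj φ X Q.O) (h : Q.Ok S') {k : X.Z → W.W} (l : Q.Lift (W.res φ hφ) k) :
    (indP Q).Lift W (ind X W Q.O k) where
  ct := ind_ct d l.eq h.op l.ct
  eq g x a := ind_act d l.eq g a
  nz x b := fun c => by
    obtain ⟨g, a⟩ := b.1
    exact l.nz _ ((ind_z d h a).1 b) (rho_zero ((ind_eq d l.eq a).symm.trans c))

end Crest.Agent.N218.Tr
end
end

-- ▼ part N218/K/Dtrf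
section

/-!
# Row 218, block D1 (helper37): the transfer axiom for the primary class
-/

set_option autoImplicit false
set_option linter.unusedVariables false

open Set Crest.Agent.N218.Tr unitInterval

noncomputable section

namespace Crest.Agent.N218.K

/-- the tautological section of the unit sphere -/
def spSec {Γ : Type} [Group Γ] [TopologicalSpace Γ] (χ : Γ →* Circle) (hχ : Continuous χ) (r : ℕ) :
    Sec (Sp χ hχ r) χ := ⟨Fin r, ⟨fun u : US r => u.1, continuous_subtype_val⟩, fun u => u.2,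
      fun _ _ _ => rfl⟩

theorem LL_spSec {Γ : Type} [Group Γ] [TopologicalSpace Γ] [CompactSpace Γ] (χ : Γ →* Circle)
    (hχ : Continuous χ) (r : ℕ) : LL χ hχ r = Lc (Sp χ hχ r) χ := (Lc_eq (spSec χ hχ r)).symm

theorem dtrf : DTRF := by
  intro Γ _ _ _ _ χ Γ' _ _ _ _ φ r m X V hχ hφ hm hd P U hP hQ dis cov G G' hG hG' l y hl hy
  obtain ⟨F', cF', eF'⟩ := hy
  obtain ⟨Q', k, H, q1, qO, HO, h1, l0, l1, lk⟩ := cle (χ.comp φ) r (X.res φ (cc φ))
    (V.res φ (cc φ)) (Nat.lt_of_succ_lt hd) _ hQ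
  have d : Dj φ X.ls ((P.res φ (cc φ)).on U).O := fun g x a b => dis g x a.2 b.2
  have d' : Dj φ X.ls Q'.O := qO ▸ d
  have dH : Dj φ X.ls.cy H.O := fun g x a b => d g x.1 (HO.le a) (HO.le b)
  have d0 : ∀ t : I, Dj φ X.ls (H.sl t).O := fun t g x a b => dH g (x, t) a b
  have p1 : (indP (hφ := cc φ) (X := X.ls) (V := V) Q').Fr :=
    ind_ok d' q1 fun g x b => d'.fr b.1 (q1.fr b) g rfl
  have bd : P.Bd (indP (hφ := cc φ) (X := X.ls) (V := V) Q') :=
    ⟨hP, p1, indP (hφ := cc φ) (X := X.ls.cy) (V := V) H,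
      ind_ok (S' := Prod.fst ⁻¹' (X.ls.res φ (cc φ)).fr) dH h1 fun g x b =>
        d.fr (HO.le b.1) (h1.fr b) g rfl,
      ind_le' hP (d0 0) (h1.sl 0) (fun x a => ⟨(l0.sub a).1, l0.eq x a⟩) fun x a =>
        (cov x a).imp fun g b => l0.z ⟨⟨(hP.z_act g a).1, b⟩, (hP.z_act g a).2⟩,
      ind_le d' (h1.sl 1) q1 l1⟩
  have lk' := ind_lift (W := UU χ (cc χ) r) d' q1 lk
  have t1 := Tc_ok χ (cc χ) r p1 lk'
  have t2 := Tc_ok (χ.comp φ) (cc _) r q1 lk
  obtain ⟨C, hC⟩ := exists_cs hχ hφ hm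
  have hI : Ind (hφ := cc φ) (Tc χ (cc χ) r (indP (hφ := cc φ) (X := X.ls) (V := V) Q')
      (ind X.ls (UU χ (cc χ) r) Q'.O k))
      (Tc (χ.comp φ) (cc _) r Q' k) :=
    { op := t2.op
      inv := t2.inv
      sub := fun x a => ⟨1, (X.ls.one x.2.1).symm ▸ a⟩
      eq := fun x a => Prod.ext (ind_one (W := V) d' q1.eq a).symm
        (congrArg (· - _) (ind_one (W := UU χ (cc χ) r) d' lk.eq a).symm)
      dis := fun g x a b => d' g _ a b
      cov := fun x a _ => a }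
  have e := (clu (χ.comp φ) r (X.res φ (cc φ)) (V.res φ (cc φ)) hd _ F' _ cF'
    ⟨Q', k, ⟨hQ, q1, H, h1, l0, l1⟩, lk, t2.rp_hm⟩).pull_eq
  refine ⟨_, ⟨_, _, bd, lk', t1.rp_hm⟩, ?_⟩
  refine (hI.trf' t1 C (fun j => hC j ▸ sec_pow ⟨spSec χ _ r⟩ _) G hG G' hG' hl
    ((DFunLike.congr_fun e _).symm.trans eF')).trans ?_
  rw [Finset.sum_range fun j => LL χ (cc χ) r ^ (Fintype.card Γ' * j)]
  congr 1
  exact Finset.sum_congr rfl fun j _ => by rw [hC, Lc_pow ⟨spSec χ _ r⟩, LL_spSec]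

end Crest.Agent.N218.K
end
end

-- ▼ part N218/D7/Trf
section

/-!
# Row 218, block D7 (helper37): the transfer formula for `d` over the base `B`
-/

set_option autoImplicit false
set_option linter.unusedVariables false

open Set Polynomial Module

noncomputable section

namespace Crest.Agent.N218.D7

open K Fo Al Tr

/-- transfer, with classes pulled back from common spaces -/
theorem trf0 {Γ Γ' : Type} [Group Γ] [Fintype Γ] [TopologicalSpace Γ] [DiscreteTopology Γ]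
    [Group Γ'] [Fintype Γ'] [TopologicalSpace Γ'] [DiscreteTopology Γ'] {χ : Γ →* Circle}
    {φ : Γ' →* Γ} {r m : ℕ} {X V : Rep Γ} (hχ : Function.Injective χ) (hφ : Function.Injective φ)
    (hm : Fintype.card Γ = Fintype.card Γ' * m) (hd : finrank ℝ X.W + 1 < finrank ℝ V.W + 2 * r)
    {P : PB X.ls V} {Q : PB (X.ls.res φ (cc φ)) (V.res φ (cc φ))} (hP : P.Fr) (hQ : Q.Fr)
    (sub : ∀ x ∈ Q.O, x ∈ P.O ∧ Q.f x = P.f x) (dis : ∀ g, ∀ x ∈ Q.O, X.ρ g x ∈ Q.O → g ∈ φ.range)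
    (cov : ∀ x ∈ P.Z, ∃ g, X.ρ g x ∈ Q.O) {l y} (hl : (Sb _ _).Rd l) (p : ℤ[X])
    (h : Dg (χ.comp φ) (cc _) r Q (pull (Vr.rH χ φ r (TT χ (cc χ) r V)).f l)
      ((Sb _ _).sm (ev (χ.comp φ) (cc _) r p) (pull (Vr.rH χ φ r X.ls.xr).f y))) :
    Dg χ (cc χ) r P l ((Sb _ _).sm
      (ev χ (cc χ) r ((∑ j ∈ Finset.range m, (Polynomial.X ^ Fintype.card Γ') ^ j) * p)) y) := by
  have e : (P.res φ (cc φ)).on Q.O = ⟨Q.O, P.f⟩ :=
    congrArg (fun U => (⟨U, P.f⟩ : PB (X.ls.res φ (cc φ)) (V.res φ (cc φ))))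
      (inter_eq_right.2 fun x a => (sub x a).1)
  have z : (⟨Q.O, P.f⟩ : PB _ (V.res φ (cc φ))).Z = Q.Z :=
    Set.ext fun x => and_congr_right fun a => by rw [(sub x a).2]
  have hU : ((P.res φ (cc φ)).on Q.O).Fr := e ▸ ⟨hQ.op, hQ.inv, hP.ct.mono fun x a => (sub x a).1,
    fun g x a => hP.eq (φ g) x (sub x a).1, z ▸ hQ.cp, z ▸ hQ.fr⟩
  have le : Q.Le ((P.res φ (cc φ)).on Q.O) :=
    ⟨fun x a => ⟨(sub x a).1, a⟩, fun x a => (sub x a).2, fun x a => a.1.2⟩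
  have := dtrf χ φ r m X V hχ hφ hm hd P Q.O hP hU dis cov (Vr.rH χ φ r X.ls.xr).f
    (Vr.rH χ φ r (TT χ (cc χ) r V)).f (fun _ _ => rfl) (fun _ _ => rfl) l
    ((Sb _ _).sm (ev χ (cc χ) r p) y) hl (Eq.mpr (congrArg (Dg _ _ r _ _)
      (((Vr.rH χ φ r X.ls.xr).pull_sm _ y).trans (by rw [Vr.pull_ev]; rfl)))
      (h.bd (PB.hb_le hU hQ hQ le (PB.Le.rfl' Q))))
  rw [← Orb.sm_mul] at this
  rw [map_mul, map_sum]
  simp only [← pow_mul, map_pow, ev, aeval_X]
  exact this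

/-- transfer for restrictions of circle representations to `C_h ⊆ C_q` -/
theorem trf1 {q h c r : ℕ} [NeZero q] [NeZero h] (e : q = h * c) {X V : Rep Circle}
    (hd : finrank ℝ X.W + 1 < finrank ℝ V.W + 2 * r) {χ : Ch h →* Circle} {hχ : Continuous χ}
    (e' : χ = (inc q).comp (Tr.ph e)) {P : PB (X.res (inc q) (inc_cont q)).ls (V.res _ (inc_cont q))}
    {Q : PB (X.res χ hχ).ls (V.res χ hχ)} (hP : P.Fr) (hQ : Q.Fr)
    (sub : ∀ x : X.W, x ∈ Q.O → x ∈ P.O ∧ Q.f x = P.f x)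
    (dis : ∀ (g : Ch q) (x : X.W), x ∈ Q.O → X.ρ (inc q g) x ∈ Q.O → ∃ b : ℕ, g.toAdd = b * c)
    (cov : ∀ x : X.W, x ∈ P.Z → ∃ g : Ch q, X.ρ (inc q g) x ∈ Q.O)
    {E1 E2 : Type} [TopologicalSpace E1] [TopologicalSpace E2] {lS : KX E1} {lT : KX E2}
    {G1 : C((Sb (Sp (inc q) (inc_cont q) r) (X.res _ (inc_cont q)).ls.xr).E, E1)}
    {G1' : C((Sb (Sp χ hχ r) (X.res χ hχ).ls.xr).E, E1)}
    {G2 : C((Sb (Sp (inc q) (inc_cont q) r) (TT _ (inc_cont q) r (V.res _ (inc_cont q)))).E, E2)}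
    {G2' : C((Sb (Sp χ hχ r) (TT χ hχ r (V.res χ hχ))).E, E2)}
    (h1 : ∀ y w, G1' (pt _ _ y w) = G1 (pt _ _ y w)) (h2 : ∀ y w, G2' (pt _ _ y w) = G2 (pt _ _ y w))
    (hl : (Sb _ _).Rd (pull G2 lT)) (p : ℤ[X])
    (H : Dg χ hχ r Q (pull G2' lT) ((Sb _ _).sm (ev χ hχ r p) (pull G1' lS))) :
    Dg (inc q) (inc_cont q) r P (pull G2 lT) ((Sb _ _).sm (ev _ (inc_cont q) r
      ((∑ j ∈ Finset.range c, (Polynomial.X ^ h) ^ j) * p)) (pull G1 lS)) := by
  subst e'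
  have a1 := pull_pull (Vr.rH (inc q) (Tr.ph e) r (X.res _ (inc_cont q)).ls.xr).f G1 G1'
    (fun z => by obtain ⟨y, w, rfl⟩ := pt_surj z; exact (h1 y w).symm) lS
  have a2 := pull_pull (Vr.rH (inc q) (Tr.ph e) r (TT _ (inc_cont q) r (V.res _ (inc_cont q)))).f G2 G2'
    (fun z => by obtain ⟨y, w, rfl⟩ := pt_surj z; exact (h2 y w).symm) lT
  have k : Fintype.card (Ch h) = h := by rw [Fintype.card_multiplicative, ZMod.card]
  have := trf0 (χ := inc q) (φ := ph e) (r := r) (m := c) (X := X.res _ (inc_cont q))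
    (V := V.res _ (inc_cont q)) (inc_inj q) (ph_inj e)
    (by rw [k, Fintype.card_multiplicative, ZMod.card, e]) hd (P := P) (Q := Q) hP hQ sub
    (fun g x a b => (mem_ph e g).2 (dis g x a b)) cov (y := pull G1 lS) hl p
    (Eq.mpr (congrArg₂ (fun a b => Dg _ hχ r Q a ((Sb _ _).sm _ b)) a2 a1) H)
  rwa [k] at this

theorem iS_trf (h c : ℕ) (p : ℤ[X]) :
    iS ((∑ j ∈ Finset.range c, (Polynomial.X ^ h) ^ j) * p) = N (L ^ h) c * iS p := by
  simp only [map_mul, map_sum, map_pow, iS, aeval_X, N]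

/-- **the field `trf`** -/
theorem trf {B : Type} [NormedAddCommGroup B] [NormedSpace ℝ B] [FiniteDimensional ℝ B]
    [LocallyCompactSpace B] {q : ℕ} [NeZero q] {E : Type} [NormedAddCommGroup E] [NormedSpace ℂ E]
    [FiniteDimensional ℂ E] (hB : finrank ℝ B = 11) (o : OC B q E) : TRF o := by
  rintro h c _ e P Q _ hP hQ sub dis cov - ⟨p, rfl, H⟩
  have hd : finrank ℝ (B × (ZMod q → E)) + 1 < finrank ℝ (ZMod q → E) + 2 * 7 := by
    rw [finrank_prod, hB]; omega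
  have a : ∀ (g : Ch q) (x : B × (ZMod q → E)),
      ((Rep.triv Circle B).prod (cir q E)).ρ (inc q g) x = (x.1, sh g.toAdd x.2) :=
    fun g x => Prod.ext rfl (reg_apply g x.2)
  exact ⟨_, (iS_trf h c p).symm, trf1 e (X := (Rep.triv Circle B).prod (cir q E)) (V := cir q E) hd
    (inc_ph e) (P := P) (Q := Q) hP hQ sub (fun g x u v => dis x g.toAdd u (a g x ▸ v))
    (fun x u => (cov x u).elim fun g v => ⟨.ofAdd g, (a (.ofAdd g) x).symm ▸ v⟩)
    (G1 := (gH (inc q) (XC B q E).xr).f) (G1' := (gH (inc h) (XC B q E).xr).f)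
    (G2 := (gH (inc q) (TC q E)).f) (G2' := (gH (inc h) (TC q E)).f) (fun _ _ => rfl)
    (fun _ _ => rfl) (Orb.pull_rd (gH (inc q) (TC q E)) o.tT.1) p H⟩

end Crest.Agent.N218.D7

end
end

-- ▼ part N218/D7/Oc
section

/-! # Row 218, block D7 (helper32): existence of the pair of Thom classes over the circle -/

set_option autoImplicit false
set_option linter.unusedVariables false
set_option linter.unusedSectionVars false

noncomputable section

namespace Crest.Agent.N218.D7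

open K Fo

variable (B : Type) [NormedAddCommGroup B] [NormedSpace ℝ B] [FiniteDimensional ℝ B]
  [LocallyCompactSpace B] (q : ℕ) [NeZero q] (E : Type) [NormedAddCommGroup E] [NormedSpace ℂ E]
  [FiniteDimensional ℂ E]

/-- `cir` is a sum of characters -/
theorem cir_wt : ∃ n, Nonempty ((cir q E).ls.Iso (wtc q (Fin n)).ls) := by
  obtain ⟨n, ⟨A⟩⟩ : ∃ n, Nonempty (E ≃L[ℂ] (Fin n → ℂ)) :=
    ⟨Module.finrank ℂ E, ⟨ContinuousLinearEquiv.ofFinrankEq (by simp)⟩⟩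
  let e : (ZMod q → E) ≃L[ℂ] (ZMod q × Fin n → ℂ) :=
    (ContinuousLinearEquiv.piCongrRight fun _ : ZMod q => A).trans (co q _)
  have h : ∀ y, e y = co q _ fun i => A (y i) := fun _ => rfl
  refine ⟨n, ⟨e.toHomeomorph, fun z (y : ZMod q → E) => ?_⟩⟩
  have k := mu_N (fun k : ZMod q => (z : ℂ) ^ k.val) (A : E →L[ℂ] (Fin n → ℂ)) y
  exact (h _).trans ((congrArg (co q _) k.symm).trans (co_cir z fun i => A (y i)))


theorem ut_cir (T : THOM1) (r : ℕ) : ∃ l ρ, UT (Sp i1 continuous_id r) (cir q E).ls l ∧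
    ps _ l = (Sb _ _).sm ρ l ∧ D3 ρ :=
  let ⟨_, ⟨A⟩⟩ := cir_wt q E
  ut_sp (χ := i1) continuous_id r T (fun k => ⟨k.1.val, by rw [zpow_natCast]; rfl⟩) A

theorem exists_oc' (T : THOM1) (hB : Module.finrank ℝ B = 11) :
    ∃ o : OC B q E, OK o ∧ UT _ _ o.lS ∧ UT _ _ o.lT := by
  obtain ⟨l, ρ, a, b, c⟩ := ut_cir q E T 7
  obtain ⟨o, e, -, s, t⟩ := ori_ex (χ := i1) continuous_id 7 T (S := (XC B q E).xr) (E := B × ℝ)
    (m := 6) (by simp [hB]) (rcomm (LS.triv Circle B) (cir q E).ls (LS.triv Circle ℝ)) a b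
  refine ⟨o, ⟨fun h _ => ?_, fun h _ => ?_, ?_⟩, s, t⟩
  · exact s.2 _ (inc h) (cc _) _ _ (eqv7 (inc h)) _ (gH_mp (inc h) _)
  · exact t.2 _ (inc h) (cc _) _ _ (eqv7 (inc h)) _ (gH_mp (inc h) _)
  · rw [e]; exact (d3_pow 6).mul c


end Crest.Agent.N218.D7

end
end

-- ▼ part N218/D7/Orbj

/-!
# Row 218, block D7 (helper75): the flat orbit loop has invariant zero
-/

set_option autoImplicit false
set_option linter.unusedVariables false

open Set Module

noncomputable section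

namespace Crest.Agent.N218.D7

open Pm In K

/-- the field `ext` for the base that is used -/
def EXA : Prop := ∀ (k : ℕ) (E : Type) [NormedAddCommGroup E] [NormedSpace ℂ E]
  [FiniteDimensional ℂ E] (o : OC (R10 × ℝ) (2 ^ (k + 1)) E), OK o → UT _ _ o.lS → UT _ _ o.lT → EXT o

theorem ex_psi : ∃ ψ : (R10 × ℝ) ≃L[ℝ] R11, ∀ x, ‖x‖ ≤ ‖ψ x‖ := by
  let ψ : (R10 × ℝ) ≃L[ℝ] R11 := .ofFinrankEq (by simp)
  obtain ⟨C, c, h⟩ := (ψ.symm : R11 →L[ℝ] R10 × ℝ).bound
  refine ⟨(LinearEquiv.smulOfNeZero ℝ _ C c.ne').toContinuousLinearEquiv.trans ψ, fun x => ?_⟩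
  have := h (ψ x)
  change ‖x‖ ≤ ‖ψ (C • x)‖
  rw [map_smul, norm_smul, Real.norm_of_nonneg c.le]
  simpa using this

variable (k : ℕ) (E : Type) [NormedAddCommGroup E] [NormedSpace ℂ E] [FiniteDimensional ℂ E]

/-- the two models of the target -/
def isoV : ((Fo.cir (2 ^ (k + 1)) E).res (ck k) (cc _)).Iso (Rr k E) :=
  ⟨.refl ℝ (V k E), fun g y => Fo.reg_apply g y⟩

/-- the two models of the source -/
def isoX : (XX (R10 × ℂ) k E).ls.Iso ((Orb.XT R10 (2 ^ (k + 1)) E).res (ck k) (cc _)).ls where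
  e := .refl ((R10 × ℂ) × V k E)
  eq g x := by
    obtain ⟨⟨b, w⟩, y⟩ : (R10 × ℂ) × V k E := x
    refine Prod.ext (Prod.ext rfl ?_) (Fo.reg_apply g y).symm
    change w = ((Orb.cq (2 ^ (k + 1)) (ck k g) : Circle) : ℂ) * w
    rw [show Orb.cq (2 ^ (k + 1)) (ck k g) = 1 from
      ((Orb.odT R10 (2 ^ (k + 1)) E).hr _).2 ⟨g, rfl⟩, Circle.coe_one, one_mul]

variable {k E}

theorem rt_g (w : ℂ) (y : V k E) : (Fo.cir (2 ^ (k + 1)) E).ρ (Orb.rt (2 ^ (k + 1)) w) y =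
    Fo.g (-(w.arg / (2 * Real.pi))) y := by
  rw [← Fo.cir_exp, Orb.rt]
  congr 3
  field_simp

theorem rt_g' (w : ℂ) (y : V k E) : (Fo.cir (2 ^ (k + 1)) E).ρ (Orb.rt (2 ^ (k + 1)) w)⁻¹ y =
    Fo.g (w.arg / (2 * Real.pi)) y := by
  rw [← Fo.cir_exp, Orb.rt, ← Circle.exp_neg]
  congr 3
  field_simp

theorem tube_eq (ψ : (R10 × ℝ) ≃L[ℝ] R11) (δ : ℝ) (v : R11 × E → E) :
    (Orb.tube (zP ((2 ^ k : ℕ) : Ix k) (t0 k δ) fun z : (R10 × ℝ) × E => v (ψ z.1, z.2))).iso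
      (isoX k E) (isoV k E) = tube ψ (OL k v δ) := by
  refine Ai.pb_ext (Set.ext fun z : (R10 × ℂ) × V k E => and_congr_right fun _ => ?_)
    (funext fun z : (R10 × ℂ) × V k E => ?_)
  · change D7.mn (ht k) ((Fo.cir (2 ^ (k + 1)) E).ρ (Orb.rt (2 ^ (k + 1)) z.1.2) z.2) ≠ 0 ↔
      Pm.mn z.2 ≠ 0
    rw [rt_g, mn_pm, mn_g_ne]
  · refine Eq.trans ?_ (ol_coe (ψ (z.1.1, Real.log ‖z.1.2‖)) (z.1.2.arg / (2 * Real.pi)) z.2).symm
    exact (rt_g' z.1.2 (N0 k δ v (ψ (z.1.1, Real.log ‖z.1.2‖),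
      (Fo.cir (2 ^ (k + 1)) E).ρ (Orb.rt (2 ^ (k + 1)) z.1.2) z.2))).trans (by rw [rt_g])

theorem orbj (hD : DSUM) (hE : EXA) : ORBJ := by
  intro J hJ E _ _ _ k δ v hk hd hv
  obtain ⟨ψ, hψ⟩ := ex_psi
  have hB : finrank ℝ (R10 × ℝ) = 11 := by simp
  have h10 : finrank ℝ R10 = 10 := by simp
  obtain ⟨o, ok, u, u'⟩ := exists_oc' (R10 × ℝ) (2 ^ (k + 1)) E thom hB
  have nf : NF (fun z : (R10 × ℝ) × E => v (ψ z.1, z.2)) (4 * δ) :=
    ⟨hv.ct.comp (by fun_prop), fun x => hv.sm (ψ x), fun x y h => hv.far (ψ x) y (h.trans (hψ x)),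
      fun c => (hv.pr c).imp fun R h x => h (ψ x)⟩
  obtain ⟨f, d, -, dd, g⟩ := core _ k E (dt kln hD hB o ok (trf hB o) (hE k E o ok u u')) (t0 k δ) _ δ
    _ (by omega) (by omega) hd le_rfl nf (t0_cu hd) t0_sh
  have z := Orb.orbG thom kln hJ h10 ⟨k + 1, by omega, rfl⟩ o ok.dv dd g
  obtain ⟨s, hs⟩ := J.iso (ck k) _ _ _ _ (gq hk) (Orb.adm_tube h10) adm_tube (isoX k E) (isoV k E)
  refine flat_zero ψ J hk (hv.ok hd) ?_
  rw [← tube_eq, hs _ (Orb.tube_fr f)]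
  exact (congrArg (s • ·) z).trans (smul_zero s)

end Crest.Agent.N218.D7

end
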