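import Crest.Agent.N218.En.Wrb0
import Crest.Agent.N218.En.Wrb1_Mg
import Crest.Agent.N218.Pm.Kit2
import Crest.Agent.N218.Rd.Defs
import Crest.Agent.N218.Pm.Arc_Mg
import Crest.Agent.N218.Pm.Kit1
import Crest.Agent.N218.D7.St
import Crest.Agent.N218.Pm.Pc

-- ▼ part N218/En/Wrb
section

/-! Row 218, END wrapper (helper21): `WRB` -/

namespace Crest.Agent.N218.En

theorem wrb : WRB := wrb_of gf (wrb1 gf)

end Crest.Agent.N218.En
end

-- ▼ part N218/Rd/Tl0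
section

/-!
# Row 218, RED (helper17): stabilised families, uniform absence of free zeros
-/

set_option autoImplicit false
set_option linter.unusedVariables false
set_option linter.unusedSectionVars false

open Set Topology unitInterval

noncomputable section

namespace Crest.Agent.N218.Pm.Tl

variable {B : Type} [TopologicalSpace B] {k : ℕ} {E E' : Type} [NormedAddCommGroup E]
  [NormedSpace ℝ E] [NormedAddCommGroup E'] [NormedSpace ℝ E']

variable (E') in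
/-- stabilisation of a family with normal map `1` -/
def stM (A : PM B k E) : PM B k (E × E') :=
  ⟨{w | (w.1, s1 w.2) ∈ A.O}, fun w => pr (A.P (w.1, s1 w.2)) (s2 w.2), fun _ => 1⟩

theorem n_s1 (w : V k (E × E')) : ‖s1 w‖ ≤ ‖w‖ :=
  (pi_norm_le_iff_of_nonneg (norm_nonneg _)).2 fun i =>
    (norm_fst_le (w i)).trans (norm_le_pi_norm w i)
theorem n_pr0 (y : V k E) : ‖pr y (0 : V k E')‖ = ‖y‖ :=
  le_antisymm ((pi_norm_le_iff_of_nonneg (norm_nonneg _)).2 fun i => by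
    simpa [pr] using norm_le_pi_norm y i) (n_s1 (pr y (0 : V k E')))
theorem mn_pr (y : V k E) (z : V k E') : mn (pr y z) = pr (mn y) (mn z) := by
  rw [← pr_s (mn (pr y z)), s1_mn, s2_mn]; rfl
theorem nrm_pr (t : ℝ) (y : V k E) (z : V k E') :
    pr y z - t • mn (pr y z) = pr (y - t • mn y) (z - t • mn z) := by
  rw [mn_pr]; rfl
theorem ct_pr0 : Continuous fun x : B × V k E => (x.1, pr x.2 (0 : V k E')) := by
  unfold pr; fun_prop

theorem ok_of_st {A : PM B k E} (h : (stM E' A).Ok) (hn : ∀ b, A.n b = 1) : A.Ok where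
  op := h.op.preimage ct_pr0
  inv x m := h.inv (x.1, pr x.2 0) m
  ct := by
    have c : Continuous (s1 : V k (E × E') → V k E) := by unfold s1; fun_prop
    exact c.comp_continuousOn (h.ct.comp ct_pr0.continuousOn fun x m => m)
  eq x m := congrArg s1 (h.eq (x.1, pr x.2 0) m)
  pp K hK R := by
    have c : Continuous fun x : B × V k (E × E') => (x.1, s1 x.2) := by unfold s1; fun_prop
    convert (h.pp K hK R).image c using 1
    ext x
    constructor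
    · rintro ⟨a, b, d⟩
      exact ⟨(x.1, pr x.2 0), ⟨a, b, (n_pr0 _).trans_le d⟩, rfl⟩
    · rintro ⟨w, ⟨a, b, d⟩, rfl⟩
      exact ⟨a, b, (n_s1 ((stM E' A).P w)).trans d⟩
  nc := by rw [show A.n = fun _ => 1 from funext hn]; exact continuous_const
  ne b y := by rw [hn]; rfl
  ni b y := by rw [hn]; exact id

theorem noz_of_st {A : PM B k E} {δ : ℝ} {b : B} (h : (stM E' A).NoZ δ b) (hn : A.n b = 1) :
    A.NoZ δ b := by
  intro y t ht hd m e
  have e0 : mn (pr y (0 : V k E')) = pr (mn y) 0 := by rw [mn_pr, mn_zero]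
  have := h (pr y 0) t ht (by rwa [e0, n_pr0]) (by rw [nrm_pr]; exact m) (by
    rw [nrm_pr, e0]
    rw [hn] at e
    funext i
    exact Prod.ext (congrFun e i) (by simp [stM, pr, s2]))
  rw [e0] at this
  exact (pr_eq_zero.1 this).1

theorem z_st {A : PM B k E} {τ : B × V k (E × E') → ℝ} {x : B × V k (E × E')}
    (h : x ∈ ((stM E' A).F τ).Z) : s2 x.2 = 0 := by
  funext i
  have := congrArg Prod.snd (congrFun h.2 i)
  simpa [PM.F, stM, pr, s2] using this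

variable [FiniteDimensional ℝ E] [FiniteDimensional ℝ E'] [T2Space B]

/-- **stabilisation commutes with the free part** -/
theorem F_st {A : PM B k E} (h : (stM E' A).Ok) (hn : ∀ b, A.n b = 1) {δ : ℝ} (hδ : 0 < δ)
    (hc : (stM E' A).Cs δ) : ((stM E' A).F (tau δ)).Eqv ((A.F (tau δ)).st E') := by
  let τ : (B × I) × V k (E × E') → ℝ := fun x => tau δ (x.1, pr (s1 x.2) ((x.1.2 : ℝ) • s2 x.2))
  have ct : Continuous τ := (tau_ok hδ).ct.comp (by unfold pr s1 s2; fun_prop)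
  have o1 := PM.fok h (tau_ok hδ) hc
  obtain ⟨K, hK, hc⟩ := hc
  have o : (((stM E' A).pull (Prod.fst : B × I → B)).F τ).Ok := by
    refine PM.fok0 (h.pull continuous_fst) ct
      (fun x => (tau_ok hδ).inv (x.1, pr (s1 x.2) ((x.1.2 : ℝ) • s2 x.2)))
      (hK.prod isCompact_univ) (half_pos hδ) (R := δ) fun x hx => ?_
    have z : s2 x.2 = 0 := z_st (A := A.pull Prod.fst) hx
    have e : τ x = tau δ (x.1.1, x.2) := by
      simp only [τ]; rw [z, smul_zero, ← z, pr_s]; rfl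
    have m : (x.1.1, x.2) ∈ ((stM E' A).F (tau δ)).Z := by
      have u := hx.1.2
      have v := hx.2
      simp only [PM.F, e] at u v
      exact ⟨⟨hx.1.1, u⟩, v⟩
    refine ⟨⟨by_contra fun n => (hc _ n).notMem (tau_ok hδ) m, mem_univ _⟩,
      le_of_not_gt fun n => hx.1.1 ?_, ?_⟩
    · have t0 : tau δ (x.1.1, x.2) = 0 := by
        refine max_eq_left ((min_le_right _ _).trans ?_)
        rw [sub_nonpos, div_le_one hδ]; linarith
      have u := m.1.2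
      have v := m.2
      simp only [PM.F, t0] at u v
      exact h.t0 u v
    · rw [e]
      rcases le_total δ ‖mn x.2‖ with l | l
      · rw [(tau_ok hδ).o (x.1.1, x.2) l]; simpa using hδ.le
      · have := (tau_ok (B := B) (E := E × E') (k := k) hδ).mem (x.1.1, x.2)
        rw [norm_smul, Real.norm_of_nonneg (by linarith [this.2])]
        nlinarith [this.1, norm_nonneg (mn x.2)]
  have e1 : τ ∘ (fun x : B × V k (E × E') => ((x.1, (1 : I)), x.2)) = tau δ := by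
    funext x; simp only [τ, Function.comp, Set.Icc.coe_one, one_smul, pr_s]; rfl
  have e0 : τ ∘ (fun x : B × V k (E × E') => ((x.1, (0 : I)), x.2)) =
      fun x => tau δ (x.1, s1 x.2) := by
    funext x
    simp only [τ, Function.comp, Set.Icc.coe_zero, zero_smul, tau]
    rw [mn_pr, mn_zero, n_pr0]
  have q : ((stM E' A).F fun x => tau δ (x.1, s1 x.2)).Eqv ((stM E' A).F (tau δ)) := by
    rw [← e0, ← e1]; exact o.eqv
  have o0 := q.ok.2 o1
  obtain ⟨r1, r2⟩ := o0.eqv_rs (N := {x | mn (s1 x.2) ≠ 0})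
    (isOpen_ne_fun (by unfold s1; fun_prop) continuous_const) (fun x m => sh_ne m) fun x m n => by
      refine m.1.1 ?_
      rw [← pr_s x.2, mn_pr, n, z_st m, mn_zero]; rfl
  refine q.symm.trans (r2.trans (r1.eqv_sm ⟨?_, fun x m => ?_⟩))
  · ext x
    have a : s1 (x.2 - (1 - tau δ (x.1, s1 x.2)) • mn x.2) =
        s1 x.2 - (1 - tau δ (x.1, s1 x.2)) • mn (s1 x.2) := by rw [← s1_mn]; rfl
    constructor
    · rintro ⟨⟨_, b⟩, c⟩
      exact ⟨c, a ▸ b⟩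
    · rintro ⟨c, b⟩
      exact ⟨⟨fun n => c (by rw [← s1_mn, n]; rfl), by rw [← a] at b; exact b⟩, c⟩
  · have a : s1 (x.2 - (1 - tau δ (x.1, s1 x.2)) • mn x.2) =
        s1 x.2 - (1 - tau δ (x.1, s1 x.2)) • mn (s1 x.2) := by rw [← s1_mn]; rfl
    simp only [Pb.rs, PM.F, Pb.st, stM, a, hn]
    funext i
    refine Prod.ext ?_ ?_
    · simp [pr, ← s1_mn, s1]
    · simp [pr, s2]

/-- local form near the zero section, without odd eigenvectors -/
def Lc (Q : PM B k E) (b : B) (ρ : ℝ) : Prop := ∃ A C : E →L[ℝ] E,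
  (∀ w, ‖w‖ < ρ → (b, w) ∈ Q.O → ∀ i, Q.P (b, w) i = w i - (A (w i) + C (w (i - 1)))) ∧
  ∀ (s : ℝ) (m : V k E), mn m = m → (∀ i, m i = s • (A (m i) + C (m (i - 1)))) → m = 0

/-- **uniform absence of free zeros** -/
theorem noz_unif {Q : PM B k E} (h : Q.Ok) (hn : ∀ b, Q.n b = 1) {K : Set B} (hK : IsCompact K)
    (hz : ∀ b ∈ K, ∀ w, (b, w) ∈ Q.O → Q.P (b, w) = 0 → w = 0) {ρ : ℝ} (hρ : 0 < ρ)
    (hl : ∀ b ∈ K, Lc Q b ρ) : ∃ δ₀ > 0, ∀ δ < δ₀, ∀ b ∈ K, Q.NoZ δ b := by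
  have k1 := (h.pp K hK 1).inter_right (isClosed_le (continuous_const (y := ρ))
    (continuous_snd.norm : Continuous fun x : B × V k E => ‖x.2‖))
  obtain ⟨ε, ε0, hε⟩ := k1.exists_forall_le' (f := fun x => ‖Q.P x‖) (a := 0)
    (h.ct.mono fun x m => m.1.1).norm fun x m => norm_pos_iff.2 fun n => by
      have := hz x.1 m.1.2.1 x.2 m.1.1 n
      have l : ρ ≤ ‖x.2‖ := m.2
      rw [this, norm_zero] at l; linarith
  refine ⟨min ε 1, lt_min ε0 one_pos, fun δ hδ b hb y t ht hd m e => ?_⟩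
  rw [hn] at e
  rcases hd with rfl | hd
  · simp only [sub_self, zero_smul, sub_zero, add_zero] at m e
    rw [hz b hb y m e, mn_zero]
  have p : ‖Q.P (b, y - (1 - t) • mn y)‖ ≤ δ := by
    rw [eq_neg_of_add_eq_zero_left e, norm_neg, norm_smul, Real.norm_of_nonneg (by linarith [ht.2])]
    change (1 - t) * ‖mn y‖ ≤ δ
    nlinarith [ht.1, norm_nonneg (mn y)]
  have l : ‖y - (1 - t) • mn y‖ < ρ := lt_of_not_ge fun n => by
    have := hε (b, y - (1 - t) • mn y) ⟨⟨m, hb, by linarith [min_le_right ε 1]⟩, n⟩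
    linarith [min_le_left ε 1]
  obtain ⟨A, C, h1, h2⟩ := hl b hb
  refine h2 t (mn y) (mn_mn y) fun i => ?_
  have g : ∀ i, y i = A ((y - (1 - t) • mn y) i) + C ((y - (1 - t) • mn y) (i - 1)) := fun i => by
    have := congrFun e i
    rw [Pi.add_apply, h1 _ l m i] at this
    change y i - (1 - t) • mn y i - _ + (1 - t) • mn y i = 0 at this
    rw [← sub_eq_zero, ← this]; abel
  have n := mn_nrm t y
  generalize y - (1 - t) • mn y = w at g n
  have n1 := congrFun n i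
  have n2 := congrFun n (i - 1)
  rw [Pi.smul_apply] at n1 n2
  rw [smul_add, ← map_smul, ← map_smul, ← n1, ← n2]
  simp only [mn, map_smul, map_sub]
  rw [g i, g (i + 2 ^ k), add_sub_right_comm i]
  module

end Crest.Agent.N218.Pm.Tl

end
end

-- ▼ part N218/Rd/Tail
section

/-!
# Row 218, RED (helper17): `TAIL`
-/

set_option autoImplicit false
set_option linter.unusedVariables false
set_option linter.unusedSectionVars false

open Set Topology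

noncomputable section

namespace Crest.Agent.N218.Rd
open Pm Pm.Tl ContinuousLinearMap

namespace TlK

theorem nn_use {k : ℕ} {E : Type} [NormedAddCommGroup E] [NormedSpace ℝ E] {L : E →L[ℝ] E}
    (h : Nn L) (hk : 1 ≤ k) {m : V k E} (hm : mn m = m) (c : ℝ)
    (e : ∀ i, m i = c • L (m (i - 1))) : m = 0 := by
  funext i
  obtain ⟨j, rfl⟩ := Nat.exists_eq_add_of_le' hk
  have := h c (fun n => m (i + n)) (2 ^ j) (fun n => by
    rw [e]; congr 3; push_cast; ring) (by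
    have := congrFun (mn_eq_self.1 hm) i
    rw [tL_apply] at this
    simp only [Nat.cast_zero, add_zero]
    rw [← Pi.neg_apply, ← this]; congr 2; push_cast; ring)
  simpa using this

theorem all_sh {k : ℕ} {p : Ix k → Prop} : (∀ i, p (i - 1)) ↔ ∀ i, p i :=
  ⟨fun h i => by simpa using h (i + 1), fun h i => h _⟩

theorem lc_mono {B : Type} [TopologicalSpace B] {k : ℕ} {E : Type} [NormedAddCommGroup E]
    [NormedSpace ℝ E] {Q Q' : PM B k E} {b b' : B} {ρ ρ' : ℝ} (h : Lc Q' b' ρ') (e : ρ ≤ ρ')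
    (a : Sq.At Q b Q' b') : Lc Q b ρ := by
  obtain ⟨A, C, h1, h2⟩ := h
  exact ⟨A, C, fun w l m i => by rw [(a w).2 m]; exact h1 w (l.trans_le e) ((a w).1.1 m) i, h2⟩

variable {X E₁ E₂ : Type} [TopologicalSpace X] [NormedAddCommGroup E₁] [InnerProductSpace ℂ E₁]
  [NormedAddCommGroup E₂] [InnerProductSpace ℂ E₂] {D : Data X E₁ E₂} {c κ R₀ M : ℝ}
  {O : Set ((X × ℝ) × E₁)} {ph : (X × ℝ) × E₁ → E₁} {k : ℕ}

theorem mn12 {m : V k (E₁ × E₂)} (h : mn m = m) : mn (s1 m) = s1 m ∧ mn (s2 m) = s2 m :=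
  ⟨by rw [← s1_mn, h], by rw [← s2_mn, h]⟩
theorem z12 {m : V k (E₁ × E₂)} (h1 : s1 m = 0) (h2 : s2 m = 0) : m = 0 := by
  rw [← pr_s m, h1, h2]; rfl
theorem n1 (w : V k (E₁ × E₂)) (i : Ix k) : ‖(w i).1‖ ≤ ‖w‖ :=
  (_root_.norm_fst_le _).trans (norm_le_pi_norm w i)
theorem n2 (w : V k (E₁ × E₂)) (i : Ix k) : ‖(w i).2‖ ≤ ‖w‖ :=
  (_root_.norm_snd_le _).trans (norm_le_pi_norm w i)

variable (h : (toRD D).Ok c κ R₀ M O ph)
include h

theorem u0 (x : X) : D.u (x, 0) = 0 ∧ D.v (x, 0) = 0 := by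
  obtain ⟨ρ, ρ0, Λ, l⟩ := h.u.ln
  obtain ⟨U, W, -, -, -, -, a, b⟩ := l x
  exact ⟨(a 0 (by simpa)).trans U.map_zero, (b 0 (by simpa)).2.trans W.map_zero⟩

theorem ex1 (x : X) {s : ℝ} (hs : 1 / 4 ≤ s) (w : V k (E₁ × E₂))
    (m : ((x, s), w) ∈ (D.a₁ k (sh k E₁)).O) (e : (D.a₁ k (sh k E₁)).P ((x, s), w) = 0) : w = 0 := by
  obtain ⟨e1, e2⟩ := pr_eq_zero.1 e
  exact z12 (h.t.z x s hs k (s1 w) (all_sh.1 m) fun i => sub_eq_zero.1 (congrFun e1 i)) e2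

theorem ex2 (x : X) (s : ℝ) (w : V k (E₁ × E₂))
    (m : ((x, s), w) ∈ (D.a₂ k (sh k E₁)).O) (e : (D.a₂ k (sh k E₁)).P ((x, s), w) = 0) : w = 0 := by
  obtain ⟨e1, e2⟩ := pr_eq_zero.1 e
  have m' : ∀ i, (x, s1 w i) ∈ D.Ov := all_sh.1 m
  have f2 : ∀ i, s2 w i = cl (s - 2) • D.v (x, s1 w (i - 1)) := fun i =>
    sub_eq_zero.1 (congrFun e2 i)
  have z : s1 w = 0 := h.t.z x 1 (by norm_num) k (s1 w)
    (fun i => (h.a.r₁ x 1 _ le_rfl).1.2 (m' i)) fun i => by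
      refine (sub_eq_zero.1 (congrFun e1 i)).trans
        (Eq.trans ?_ ((h.a.r₁ x 1 _ le_rfl).2 (m' _)).symm)
      change D.u (x, _ • s2 w i + _ • D.v (x, s1 w (i - 1))) = D.u (x, D.v (x, s1 w (i - 1)))
      rw [f2, smul_smul, Ar.cl_mul (by ring), ← add_smul, add_sub_cancel, one_smul]
  refine z12 z (funext fun i => ?_)
  rw [f2, z, Pi.zero_apply, (u0 h x).2, smul_zero]; rfl

theorem ex3 (x : X) (s : ℝ) (w : V k (E₁ × E₂))
    (m : ((x, s), w) ∈ (D.a₃ k (sh k E₂)).O) (e : (D.a₃ k (sh k E₂)).P ((x, s), w) = 0) : w = 0 := by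
  obtain ⟨e1, e2⟩ := pr_eq_zero.1 e
  have f1 : ∀ i, s1 w i = (1 - cl (s - 3)) • D.u (x, s2 w i) := fun i =>
    sub_eq_zero.1 (congrFun e1 i)
  have a : ∀ i, (1 - cl (s - 4)) • s1 w i + cl (s - 3) • D.u (x, s2 w i) = D.u (x, s2 w i) :=
    fun i => by
      have := Ar.cl_mul (s := s - 3) (t := s - 4) (by ring)
      rw [f1, smul_smul, ← add_smul,
        show (1 - cl (s - 4)) * (1 - cl (s - 3)) + cl (s - 3) = 1 by linear_combination this,
        one_smul]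
  have m' : ∀ i, (x, D.u (x, s2 w i)) ∈ D.Ov := fun i => a i ▸ m i
  have z : s2 w = 0 := h.b.z x 0 k (s2 w)
    (fun i => (h.b.l₂ x 0 _ le_rfl).1.2 (m' i)) fun i => by
      refine (sub_eq_zero.1 (congrFun e2 i)).trans
        (Eq.trans ?_ ((h.b.l₂ x 0 _ le_rfl).2 (m' _)).symm)
      exact congrArg (fun y => D.v (x, y)) (a (i - 1))
  refine z12 (funext fun i => ?_) z
  rw [f1, z, Pi.zero_apply, (u0 h x).1, smul_zero]; rfl

theorem ex4 (x : X) (s : ℝ) (w : V k (E₁ × E₂))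
    (m : ((x, s), w) ∈ (D.a₄ k (sh k E₂)).O) (e : (D.a₄ k (sh k E₂)).P ((x, s), w) = 0) : w = 0 := by
  obtain ⟨e1, e2⟩ := pr_eq_zero.1 e
  exact z12 e1 (h.b.z x (s - 5) k (s2 w) m fun i => sub_eq_zero.1 (congrFun e2 i))

theorem lc1 (hk : 1 ≤ k) : ∃ ρ > 0, ∀ x s, 1 / 4 ≤ s → Lc (D.a₁ k (sh k E₁)) (x, s) ρ := by
  obtain ⟨ρ, ρ0, l⟩ := h.t.ln
  refine ⟨ρ, ρ0, fun x s hs => ?_⟩
  obtain ⟨L, nn, a⟩ := l x s hs
  refine ⟨0, (L.comp (fst ℝ E₁ E₂)).prod 0, fun w hw m i => ?_, fun t m hm e => ?_⟩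
  · refine Prod.ext ?_ (by simp [Data.a₁, pr, s2])
    have : D.h₁ ((x, s), (w (i - 1)).1) = L (w (i - 1)).1 := (a _ ((n1 w _).trans_lt hw)).2
    simp [Data.a₁, pr, s1, this]
  · exact z12 (nn_use nn hk (mn12 hm).1 t fun i => by simpa [s1] using congrArg Prod.fst (e i))
      (funext fun i => by simpa [s2] using congrArg Prod.snd (e i))

theorem lc4 (hk : 1 ≤ k) : ∃ ρ > 0, ∀ x s, Lc (D.a₄ k (sh k E₂)) (x, s) ρ := by
  obtain ⟨ρ, ρ0, l⟩ := h.b.ln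
  refine ⟨ρ, ρ0, fun x s => ?_⟩
  obtain ⟨L, nn, a⟩ := l x (s - 5)
  refine ⟨0, ContinuousLinearMap.prod 0 (L.comp (snd ℝ E₁ E₂)), fun w hw m i => ?_,
    fun t m hm e => ?_⟩
  · refine Prod.ext (by simp [Data.a₄, pr, s1]) ?_
    have : D.h₂ ((x, s - 5), (w (i - 1)).2) = L (w (i - 1)).2 := (a _ ((n2 w _).trans_lt hw)).2
    simp [Data.a₄, pr, s2, this]
  · exact z12 (funext fun i => by simpa [s1] using congrArg Prod.fst (e i))
      (nn_use nn hk (mn12 hm).2 t fun i => by simpa [s2] using congrArg Prod.snd (e i))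

theorem lc23 (hk : 1 ≤ k) : ∃ ρ > 0, ∀ x s, Lc (D.a₂ k (sh k E₁)) (x, s) ρ ∧
    Lc (D.a₃ k (sh k E₂)) (x, s) ρ := by
  obtain ⟨ρ, ρ0, Λ, l⟩ := h.u.ln
  have Λ0 := abs_nonneg Λ
  refine ⟨ρ / (1 + |Λ|), by positivity, fun x s => ?_⟩
  obtain ⟨U, W, nu, nw, bu, bw, a, b⟩ := l x
  have lt : ∀ {r : ℝ}, 0 ≤ r → r < ρ / (1 + |Λ|) → r < ρ ∧ r + Λ * r < ρ := fun {r} r0 hr => by
    rw [lt_div_iff₀ (by positivity)] at hr
    constructor <;> nlinarith [le_abs_self Λ]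
  have Λm : ∀ {r r' : ℝ}, 0 ≤ r → r ≤ r' → r' < ρ / (1 + |Λ|) → ∀ q ≤ r', q + Λ * r < ρ :=
    fun {r r'} r0 hr hr' q hq => by
      rw [lt_div_iff₀ (by positivity)] at hr'
      nlinarith [le_abs_self Λ, mul_le_mul_of_nonneg_left hr Λ0]
  have c1 : ∀ t, 0 ≤ 1 - cl t ∧ 1 - cl t ≤ 1 := fun t => by
    constructor <;> linarith [(Ar.cl_mem t).1, (Ar.cl_mem t).2]
  constructor
  · refine ⟨(cl (s - 1) • U.comp (snd ℝ E₁ E₂)).prod 0,
      ((1 - cl (s - 2)) • (U.comp W).comp (fst ℝ E₁ E₂)).prod (cl (s - 2) • W.comp (fst ℝ E₁ E₂)),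
      fun w hw m i => ?_, fun t m hm e => ?_⟩
    · have hv : D.v (x, (w (i - 1)).1) = W (w (i - 1)).1 :=
        (b _ ((n1 w _).trans_lt (lt (norm_nonneg _) hw).1)).2
      have hu : D.u (x, cl (s - 1) • (w i).2 + (1 - cl (s - 2)) • W (w (i - 1)).1) = U _ :=
        a _ ((norm_add_le _ _).trans_lt ((add_le_add (Ar.smul_le (Ar.cl_mem _) _)
          ((Ar.smul_le (c1 _) _).trans (bw _))).trans_lt
            (Λm (norm_nonneg _) (n1 w _) hw _ (n2 w _))))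
      refine Prod.ext ?_ ?_
      · simp [Data.a₂, pr, s1, s2, hv, hu]
      · simp [Data.a₂, pr, s1, s2, hv]
    · have e2 : ∀ i, (m i).2 = t • cl (s - 2) • W (m (i - 1)).1 := fun i => by
        simpa using congrArg Prod.snd (e i)
      have z := nn_use nu hk (mn12 hm).1 (t * (cl (s - 1) * (t * cl (s - 2)) + (1 - cl (s - 2))))
        fun i => by
          have := congrArg Prod.fst (e i)
          simp only [Prod.smul_fst, Prod.fst_add, prod_apply, smul_apply, comp_apply, coe_fst',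
            coe_snd', e2 i, map_smul] at this
          change (m i).1 = _ • U (W (m (i - 1)).1)
          rw [this]; module
      refine z12 z (funext fun i => ?_)
      change (m i).2 = 0
      rw [e2, show (m (i - 1)).1 = 0 from congrFun z _]; simp
  · refine ⟨((1 - cl (s - 3)) • U.comp (snd ℝ E₁ E₂)).prod 0, ContinuousLinearMap.prod 0
      ((1 - cl (s - 4)) • W.comp (fst ℝ E₁ E₂) + cl (s - 3) • (W.comp U).comp (snd ℝ E₁ E₂)),
      fun w hw m i => ?_, fun t m hm e => ?_⟩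
    · have hu : ∀ i, D.u (x, (w i).2) = U (w i).2 := fun i =>
        a _ ((n2 w _).trans_lt (lt (norm_nonneg _) hw).1)
      have hv : D.v (x, (1 - cl (s - 4)) • (w (i - 1)).1 + cl (s - 3) • U (w (i - 1)).2) = W _ :=
        (b _ ((norm_add_le _ _).trans_lt ((add_le_add (Ar.smul_le (c1 _) _)
          ((Ar.smul_le (Ar.cl_mem _) _).trans (bu _))).trans_lt
            (Λm (norm_nonneg _) (n2 w _) hw _ (n1 w _))))).2
      refine Prod.ext ?_ ?_
      · simp [Data.a₃, pr, s1, s2, hu]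
      · simp [Data.a₃, pr, s1, s2, hu, hv]
    · have e1 : ∀ i, (m i).1 = t • (1 - cl (s - 3)) • U (m i).2 := fun i => by
        simpa using congrArg Prod.fst (e i)
      have z := nn_use nw hk (mn12 hm).2
        (t * ((1 - cl (s - 4)) * (t * (1 - cl (s - 3))) + cl (s - 3))) fun i => by
          have := congrArg Prod.snd (e i)
          simp only [Prod.smul_snd, Prod.snd_add, prod_apply, smul_apply, comp_apply, coe_fst',
            coe_snd', e1 (i - 1), map_smul, add_apply, zero_apply] at this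
          change (m i).2 = _ • W (U (m (i - 1)).2)
          rw [this]; module
      refine z12 (funext fun i => ?_) z
      change (m i).1 = 0
      rw [e1, show (m i).2 = 0 from congrFun z _]; simp

theorem ag (b : X × ℝ) : ((D.Y k).rp fun b => min (b.2 / 4) (1 / 4)).Ag b
    (stM E₂ (Psi k O ph)) b := by
  obtain ⟨x, s⟩ := b
  have l : min (s / 4) (1 / 4) ≤ 1 / 4 := min_le_right _ _
  have q : ∀ y, (((x, min (s / 4) (1 / 4)), y) ∈ D.O₁ ↔ ((x, s), y) ∈ O) ∧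
      D.h₁ ((x, min (s / 4) (1 / 4)), y) = ph ((x, s), y) := fun y => by
    obtain ⟨a, b⟩ := h.a.hd x _ y l
    rcases le_total s 1 with e | e
    · rw [show 4 * min (s / 4) (1 / 4) = s by rw [min_eq_left (by linarith)]; ring] at a b
      exact ⟨a, b⟩
    · rw [show 4 * min (s / 4) (1 / 4) = 1 by rw [min_eq_right (by linarith)]; ring] at a b
      exact ⟨a.trans (h.a.cs x s y e).1.symm, b.trans (h.a.cs x s y e).2.symm⟩
  have p := Sq.p1 (D := D) (k := k) x (sh k E₁) (sh k E₂) (l.trans (by norm_num : (1 / 4 : ℝ) ≤ 1))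
  refine ⟨fun w => ⟨(p w).1.trans ?_, fun m => ((p w).2 m).trans ?_⟩, Sq.path_n _ _ _⟩
  · exact (all_sh (p := fun i => ((x, min (s / 4) (1 / 4)), s1 w i) ∈ D.O₁)).trans
      (forall_congr' fun i => (q _).1)
  · exact congrArg (fun y => pr y (s2 w)) (funext fun i => congrArg (s1 w i - ·) (q _).2)

end TlK

open TlK in
theorem tail : TAIL := by
  intro X _ _ _ A _ T E₁ E₂ _ _ _ _ _ _ D c κ R₀ M O ph k p1 p2 h hk
  have hD := ok_of p1 p2 h
  have yo : (D.Y k).Ok := Sq.y_eq (D := D) (k := k) ▸ Sq.path_ok arc hD (.inr rfl)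
  obtain ⟨ρ1, r1, l1⟩ := lc1 (k := k) h (by omega)
  obtain ⟨ρ2, r2, l2⟩ := lc23 (k := k) h (by omega)
  obtain ⟨ρ4, r4, l4⟩ := lc4 (k := k) h (by omega)
  have cs : ∀ s : ℝ, s ≤ 1 ∨ (1 < s ∧ s ≤ 3) ∨ (3 < s ∧ s ≤ 5) ∨ 5 < s := fun s => by
    by_contra n
    push Not at n
    linarith [n.2.2.1 (n.2.1 n.1), n.2.2.2]
  obtain ⟨δ₀, d0, nz⟩ := noz_unif yo (Sq.path_n _ _) (K := univ ×ˢ Icc (1 / 4) 6)
    (isCompact_univ.prod isCompact_Icc) (fun b hb w m e => by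
      obtain ⟨x, s⟩ := b
      rcases cs s with a | a | a | a
      · have p := Sq.p1 (D := D) (k := k) x (sh k E₁) (sh k E₂) a w
        exact ex1 h x hb.2.1 w (p.1.1 m) ((p.2 m).symm.trans e)
      · have p := Sq.p2 (D := D) (k := k) x (sh k E₁) (sh k E₂) a.1 a.2 w
        exact ex2 h x s w (p.1.1 m) ((p.2 m).symm.trans e)
      · have p := Sq.p3 (D := D) (k := k) x (sh k E₁) (sh k E₂) a.1 a.2 w
        exact ex3 h x s w (p.1.1 m) ((p.2 m).symm.trans e)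
      · have p := Sq.p4 (D := D) (k := k) x (sh k E₁) (sh k E₂) a w
        exact ex4 h x s w (p.1.1 m) ((p.2 m).symm.trans e))
    (lt_min r1 (lt_min r2 r4)) fun b hb => by
      obtain ⟨x, s⟩ := b
      rcases cs s with a | a | a | a
      · exact lc_mono (l1 x s hb.2.1) (min_le_left _ _) (Sq.p1 x _ _ a)
      · exact lc_mono (l2 x s).1 ((min_le_right _ _).trans (min_le_left _ _)) (Sq.p2 x _ _ a.1 a.2)
      · exact lc_mono (l2 x s).2 ((min_le_right _ _).trans (min_le_left _ _)) (Sq.p3 x _ _ a.1 a.2)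
      · exact lc_mono (l4 x s) ((min_le_right _ _).trans (min_le_right _ _)) (Sq.p4 x _ _ a)
  refine ⟨δ₀, d0, fun δ hδ hl => ?_⟩
  have z : ∀ x s, s ≤ 0 ∨ 1 / 4 ≤ s → (D.Y k).NoZ δ (x, s) := fun x s hs => by
    rcases hs with a | a
    · exact Sq.y_noZ hD x s δ (.inl a)
    · rcases le_total s 6 with b | b
      · exact nz δ hl (x, s) ⟨mem_univ _, a, b⟩
      · exact Sq.y_noZ hD x s δ (.inr b)
  have cφ : Continuous fun b : X × ℝ => min (b.2 / 4) (1 / 4) := by fun_prop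
  have o1 : ((D.Y k).rp fun b => min (b.2 / 4) (1 / 4)).Ok := yo.pull (by fun_prop)
  have o2 := o1.ag (ag h)
  have z2 : ∀ x s, s ≤ 0 ∨ 1 ≤ s → (stM E₂ (Psi k O ph)).NoZ δ (x, s) := fun x s hs =>
    (ag h (x, s)).symm.noz (PM.NoZ.pull.2 (z x _ (hs.imp
      (fun a => (min_le_left _ _).trans (by linarith)) fun a => le_min (by linarith) le_rfl)))
  have c2 : (stM E₂ (Psi k O ph)).Cs δ :=
    PM.cs_of 0 1 (fun x t a => z2 x t (.inl a.le)) fun x t a => z2 x t (.inr a.le)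
  have o3 : ((Psi k O ph).F (tau δ)).Ok := PM.fok (ok_of_st o2 fun _ => rfl) (tau_ok hδ)
    (PM.cs_of 0 1 (fun x t a => noz_of_st (z2 x t (.inl a.le)) rfl)
      fun x t a => noz_of_st (z2 x t (.inr a.le)) rfl)
  refine ⟨o3, ?_⟩
  have fo : ((D.Y k).F (tau δ)).Ok := PM.fok yo (tau_ok hδ)
    (PM.cs_of 0 1 (fun x t a => z x t (.inl a.le)) fun x t a => z x t (.inr (by linarith)))
  have e1 := fo.eqv_rp (c := 0) (d := 1 / 4) (R := 1) (fun x hx =>
    ⟨lt_of_not_ge fun a => (z x.1.1 x.1.2 (.inl a)).notMem (tau_ok hδ) hx,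
      lt_of_not_ge fun a => (z x.1.1 x.1.2 (.inr a)).notMem (tau_ok hδ) hx⟩) cφ
    (fun b a => (min_le_left _ _).trans (by linarith)) fun b a => le_min (by linarith) le_rfl
  have e2 := (e1.ok.1 fo).eqv_sm (PM.F_sm (ag h) (tau δ))
  rw [T.pa_eqv k (sp (E₁ × E₂)) _ _ hk ((e1.trans e2).trans (F_st o2 (fun _ => rfl) hδ c2))]
  exact T.pa_st k (sp E₁) (sp E₂) _ hk o3

end Crest.Agent.N218.Rd

end
end

-- ▼ part N218/Rd/Trs
section

/-! Row 218, RED (helper21): complex coordinates for real data. -/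

set_option autoImplicit false
set_option linter.unusedSectionVars false
open Set Topology

noncomputable section

namespace Crest.Agent.N218.Rd
open Pm

namespace Tr
variable {X B E₁ E₂ F₁ F₂ : Type} [TopologicalSpace X] [TopologicalSpace B]
  [NormedAddCommGroup E₁] [NormedSpace ℝ E₁] [NormedAddCommGroup E₂] [NormedSpace ℝ E₂]
  [NormedAddCommGroup F₁] [NormedSpace ℝ F₁] [NormedAddCommGroup F₂] [NormedSpace ℝ F₂]
  (e₁ : F₁ ≃ₗᵢ[ℝ] E₁) (e₂ : F₂ ≃ₗᵢ[ℝ] E₂)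

/-- transported domains -/
def dm (O : Set (B × E₁)) : Set (B × F₁) := {w | (w.1, e₁ w.2) ∈ O}
/-- transported maps -/
def mp (h : B × E₁ → E₂) (w : B × F₁) : F₂ := e₂.symm (h (w.1, e₁ w.2))
/-- transported linear maps -/
def ln (L : E₁ →L[ℝ] E₂) : F₁ →L[ℝ] F₂ :=
  (e₂.symm : E₂ →L[ℝ] F₂).comp (L.comp (e₁ : F₁ →L[ℝ] E₁))

theorem ln_apply (L : E₁ →L[ℝ] E₂) (y : F₁) : ln e₁ e₂ L y = e₂.symm (L (e₁ y)) := rfl
theorem ct : Continuous fun w : B × F₁ => (w.1, e₁ w.2) := by fun_prop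
theorem dm_op {O : Set (B × E₁)} (h : IsOpen O) : IsOpen (dm e₁ O) := h.preimage (ct e₁)
theorem dm_cp {O : Set (B × E₁)} (h : IsCompact O) : IsCompact (dm e₁ O) :=
  ((Homeomorph.refl B).prodCongr e₁.toHomeomorph).isCompact_preimage.2 h
theorem mp_ct {O : Set (B × E₁)} {h : B × E₁ → E₂} (c : ContinuousOn h O) :
    ContinuousOn (mp e₁ e₂ h) (dm e₁ O) :=
  e₂.symm.continuous.comp_continuousOn (c.comp (ct e₁).continuousOn fun _ a => a)

theorem nn {L : E₁ →L[ℝ] E₁} {L' : F₁ →L[ℝ] F₁} (h : Nn L) (e : ∀ y, e₁ (L' y) = L (e₁ y)) :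
    Nn L' := fun c z j a b => e₁.injective ((h c (fun i => e₁ (z i)) j
      (fun i => by rw [a, map_smul, e]) (by rw [b, map_neg])).trans (map_zero _).symm)

theorem hp {p C : X → E₁ →L[ℝ] E₁} {μ c κ R₀ M : ℝ} {O : Set ((X × ℝ) × E₁)}
    {h : (X × ℝ) × E₁ → E₁} (a : HP p C μ c κ R₀ M O h) :
    HP (fun x => ln e₁ e₁ (p x)) (fun x => ln e₁ e₁ (C x)) μ c κ R₀ M (dm e₁ O) (mp e₁ e₁ h) where
  op := dm_op e₁ a.op
  ct := mp_ct e₁ e₁ a.ct
  cp R := by convert dm_cp e₁ (a.cp R) using 1; ext; simp [dm, mp]; tauto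
  bd w m := by
    have := a.bd _ m
    rw [← e₁.norm_map, ← e₁.norm_map (w.2 - _)]
    simpa [mp, ln_apply] using this
  ex w m := by simpa [mp, ln_apply] using a.ex _ m
  ln x s y m := ⟨(a.ln x s _ m).1, by simp [mp, ln_apply, (a.ln x s _ m).2]⟩

theorem zz {O : Set (B × E₁)} {h : B × E₁ → E₁} {b : B} (z : ∀ (k : ℕ) (y : V k E₁),
    (∀ i, (b, y i) ∈ O) → (∀ i, y i = h (b, y (i - 1))) → y = 0) (k : ℕ) (y : V k F₁)
    (m : ∀ i, (b, y i) ∈ dm e₁ O) (e : ∀ i, y i = mp e₁ e₁ h (b, y (i - 1))) : y = 0 :=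
  funext fun i => e₁.injective ((congrFun (z k (fun i => e₁ (y i)) m fun i => by
    rw [e i]; simp [mp]) i).trans (map_zero _).symm)

theorem ll {O : Set (B × E₁)} {h : B × E₁ → E₁} {b : B} {ρ : ℝ}
    (a : ∃ L, Nn L ∧ ∀ y, ‖y‖ < ρ → (b, y) ∈ O ∧ h (b, y) = L y) :
    ∃ L, Nn L ∧ ∀ y, ‖y‖ < ρ → (b, y) ∈ dm e₁ O ∧ mp e₁ e₁ h (b, y) = L y :=
  let ⟨L, n, a⟩ := a
  ⟨ln e₁ e₁ L, nn e₁ n fun y => by simp [ln_apply], fun y m =>
    have := a (e₁ y) (by simpa using m)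
    ⟨this.1, congrArg e₁.symm this.2⟩⟩

/-- transported data -/
def tr (R : RD X E₁ E₂) : RD X F₁ F₂ :=
  ⟨fun x => ln e₁ e₁ (R.p₁ x), fun x => ln e₂ e₂ (R.p₂ x), fun x => ln e₁ e₁ (R.C x), R.μ,
    mp e₂ e₁ R.u, dm e₁ R.Ov, mp e₁ e₂ R.v, dm e₁ R.O₁, mp e₁ e₁ R.h₁, dm e₂ R.O₂, mp e₂ e₂ R.h₂⟩

theorem tr_ok {R : RD X E₁ E₂} {c κ R₀ M : ℝ} {O : Set ((X × ℝ) × E₁)} {ph : (X × ℝ) × E₁ → E₁}
    (h : R.Ok c κ R₀ M O ph) : (tr e₁ e₂ R).Ok c κ R₀ M (dm e₁ O) (mp e₁ e₁ ph) where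
  l := ⟨h.l.hμ, h.l.hc, h.l.hκ, continuous_const.clm_comp (h.l.Cc.clm_comp continuous_const),
    fun x => ContinuousLinearMap.opNorm_le_bound _ ((norm_nonneg _).trans (h.l.Cn x)) fun y => by
      simpa [tr, ln_apply] using (R.C x).le_of_opNorm_le (h.l.Cn x) (e₁ y),
    fun x y => by simpa [tr, ln_apply] using h.l.Cp x (e₁ y)⟩
  u := by
    obtain ⟨ρ, r, Λ, a⟩ := h.u.ln
    refine ⟨e₁.symm.continuous.comp (h.u.uc.comp (ct e₂)),
      fun x z => by simp [tr, mp, ln_apply, h.u.up], fun x z => ?_,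
      fun x z => by simpa [tr, mp, ln_apply] using h.u.ux x (e₂ z), dm_op e₁ h.u.vo,
      mp_ct e₁ e₂ h.u.vc, fun w m => by simpa [tr, mp, ln_apply] using h.u.vp _ m,
      fun r => by convert dm_cp e₁ (h.u.vk r) using 1; ext; simp [tr, dm, mp]; tauto,
      fun w m => by simpa [tr, ln_apply] using h.u.vb _ m, ρ, r, Λ, fun x => ?_⟩
    · rw [← e₁.norm_map]; simpa [tr, mp, ln_apply] using h.u.ub x (e₂ z)
    · obtain ⟨U, W, n, n', b, b', d, d'⟩ := a x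
      exact ⟨ln e₂ e₁ U, ln e₁ e₂ W, nn e₁ n fun y => by simp [ln_apply],
        nn e₂ n' fun y => by simp [ln_apply], fun z => by simpa [ln_apply] using b (e₂ z),
        fun y => by simpa [ln_apply] using b' (e₁ y),
        fun z m => congrArg e₁.symm (d (e₂ z) (by simpa using m)), fun y m =>
          have := d' (e₁ y) (by simpa using m)
          ⟨this.1, congrArg e₂.symm this.2⟩⟩
  a := ⟨hp e₁ h.a.hp, fun x s y m => ⟨(h.a.r₁ x s _ m).1, fun o => by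
      simp [tr, mp, (h.a.r₁ x s _ m).2 o]⟩,
    fun x s y m => ⟨(h.a.hd x s _ m).1, congrArg e₁.symm (h.a.hd x s _ m).2⟩,
    fun x s y m => ⟨(h.a.cs x s _ m).1, congrArg e₁.symm (h.a.cs x s _ m).2⟩⟩
  t := ⟨fun x s m => zz e₁ (h.t.z x s m),
    let ⟨ρ, r, a⟩ := h.t.ln; ⟨ρ, r, fun x s m => ll e₁ (a x s m)⟩⟩
  b := ⟨dm_op e₂ h.b.o₂, mp_ct e₂ e₂ h.b.c₂,
    fun x s z => by simpa [tr, mp, dm, ln_apply] using h.b.q₂ x s (e₂ z),
    fun r => by convert dm_cp e₂ (h.b.k₂ r) using 1; ext; simp [tr, dm, mp]; tauto,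
    fun w m => by simpa [tr, mp, ln_apply] using h.b.x₂ _ m,
    fun x s z m => by simpa [tr, mp, dm] using h.b.l₂ x s (e₂ z) m,
    fun x s z m => ⟨(h.b.r₂ x s _ m).1, by simp [tr, mp, ln_apply, (h.b.r₂ x s _ m).2]⟩,
    fun x s => zz e₂ (h.b.z x s), let ⟨ρ, r, a⟩ := h.b.ln; ⟨ρ, r, fun x s => ll e₂ (a x s)⟩⟩

/-- slotwise isometries -/
def sw (k : ℕ) : V k E₁ ≃L[ℝ] V k F₁ :=
  ContinuousLinearEquiv.piCongrRight fun _ => e₁.symm.toContinuousLinearEquiv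

theorem sw_apply {k : ℕ} (y : V k E₁) (i : Ix k) : sw e₁ k y i = e₁.symm (y i) := rfl
theorem sw_symm {k : ℕ} (y : V k F₁) (i : Ix k) : (sw e₁ k).symm y i = e₁ (y i) := rfl
theorem sw_mn {k : ℕ} (y : V k E₁) (i : Ix k) : mn (sw e₁ k y) i = e₁.symm (mn y i) := by
  simp [mn, sw_apply]
theorem sw_norm {k : ℕ} (y : V k E₁) : ‖mn (sw e₁ k y)‖ = ‖mn y‖ := by
  simp [Pi.norm_def, sw_mn]

theorem cj_ok {k : ℕ} {P : Pb B k F₁} (h : P.Ok) (a : V k E₁ ≃L[ℝ] V k F₁)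
    (e : ∀ y, a (sh k _ y) = sh k _ (a y)) : (P.cj a).Ok := by
  let Φ : B × V k E₁ ≃ₜ B × V k F₁ := (Homeomorph.refl B).prodCongr a.toHomeomorph
  refine ⟨h.op.preimage Φ.continuous, fun x m => ?_, a.symm.continuous.comp_continuousOn
    (h.ct.comp Φ.continuous.continuousOn fun _ m => m), fun x m => a.injective ?_, ?_,
    fun x m z => h.fr _ m ?_⟩
  · change (x.1, a (sh k _ x.2)) ∈ P.O
    rw [e]; exact h.inv _ m
  · simp only [Pb.cj, e, a.apply_symm_apply]; exact h.eq _ m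
  · convert Φ.isCompact_preimage.2 h.cp using 1
    ext x
    exact and_congr Iff.rfl a.symm.map_eq_zero_iff
  · exact (comm_mn (L := (a : V k E₁ →L[ℝ] V k F₁)) e x.2).symm.trans (by rw [z, map_zero])

theorem psi_cj {k : ℕ} (O : Set (B × E₁)) (h : B × E₁ → E₁) (δ : ℝ) :
    ((Psi k (dm e₁ O) (mp e₁ e₁ h)).F (tau δ)).cj (sw e₁ k) = (Psi k O h).F (tau δ) := by
  simp only [Pb.cj, PM.F, Psi, tau, sw_norm]
  congr 1
  · ext x
    have : mn (sw e₁ k x.2) = 0 ↔ mn x.2 = 0 := by rw [← norm_eq_zero, sw_norm, norm_eq_zero]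
    simp [dm, this, sw_mn, sw_apply, sw_norm]
  · funext x i
    simp [mp, sw_symm, sw_mn, sw_apply]
end Tr

open Tr in
theorem trs (H : TAIL) : TRS := by
  intro X _ _ _ A _ T E₁ E₂ _ _ _ _ _ _ R c κ R₀ M O ph F₁ F₂ _ _ _ _ _ _ e₁ e₂ π₁ π₂ k h p₁ p₂
    a₁ a₂ hk
  let D : Data X F₁ F₂ := ⟨π₁, π₂, (tr e₁ e₂ R).C, R.μ, (tr e₁ e₂ R).u, (tr e₁ e₂ R).Ov,
    (tr e₁ e₂ R).v, (tr e₁ e₂ R).O₁, (tr e₁ e₂ R).h₁, (tr e₁ e₂ R).O₂, (tr e₁ e₂ R).h₂⟩
  have e : toRD D = tr e₁ e₂ R := by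
    unfold toRD tr
    congr 1
    · exact funext fun x => ContinuousLinearMap.ext fun y => e₁.eq_symm_apply.2 (a₁ x y)
    · exact funext fun x => ContinuousLinearMap.ext fun y => e₂.eq_symm_apply.2 (a₂ x y)
  have o := e ▸ tr_ok e₁ e₂ h
  obtain ⟨δ₀, d, u⟩ := H X A T F₁ F₂ D c κ R₀ M _ _ k p₁ p₂ o hk
  refine ⟨D, ok_of p₁ p₂ o, rfl, rfl, δ₀, d, fun δ b b' => ?_⟩
  obtain ⟨v, w⟩ := u δ b b'
  rw [← psi_cj e₁]
  exact ⟨cj_ok v _ fun _ => rfl,
    w.trans (T.pa_cj k (sp F₁) (sp E₁) (sw e₁ k) _ hk v fun _ => rfl).symm⟩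

end Crest.Agent.N218.Rd
end
end

-- ▼ part N218/D7/Rfl

/-!
# Row 218, block D7 (helper11): the leaves RFL and ZER
-/

set_option autoImplicit false
set_option linter.unusedVariables false
set_option linter.unusedSectionVars false

open Set

noncomputable section

namespace Crest.Agent.N218.D7

open Pm

namespace Rf

section cj
variable {B : Type} {k : ℕ} {E : Type} [NormedAddCommGroup E] [NormedSpace ℝ E]

/-- `A'` is the transport of `A` along `e` -/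
structure Cj (e : V k E ≃L[ℝ] V k E) (A' A : PM B k E) : Prop where
  o : ∀ x, x ∈ A'.O ↔ (x.1, e x.2) ∈ A.O
  p : ∀ x, e (A'.P x) = A.P (x.1, e x.2)
  n : ∀ b y, e (A'.n b y) = A.n b (e y)

theorem Cj.glue {e : V k E ≃L[ℝ] V k E} {A' A C' C : PM (B × ℝ) k E} (h : Cj e A' A)
    (h' : Cj e C' C) (c : ℝ) : Cj e (PM.glue c A' C') (PM.glue c A C) where
  o x := by
    by_cases hx : x.1.2 ≤ c
    · simpa [PM.glue, hx] using h.o x
    · simpa [PM.glue, hx] using h'.o x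
  p x := by
    by_cases hx : x.1.2 ≤ c
    · simpa [PM.glue, hx] using h.p x
    · simpa [PM.glue, hx] using h'.p x
  n b y := by
    by_cases hx : b.2 ≤ c
    · simpa [PM.glue, hx] using h.n b y
    · simpa [PM.glue, hx] using h'.n b y

theorem Cj.F {e : V k E ≃L[ℝ] V k E} {A' A : PM B k E} (h : Cj e A' A)
    (hm : ∀ y, e (Pm.mn y) = Pm.mn (e y)) (hn : ∀ y, ‖e y‖ = ‖y‖) (δ : ℝ) :
    A'.F (tau δ) = (A.F (tau δ)).cj e := by
  have ht : ∀ x : B × V k E, tau δ (x.1, e x.2) = tau δ x := fun x => by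
    simp only [tau, ← hm, hn]
  unfold PM.F Pb.cj
  congr 1
  · ext x
    simp only [mem_ofPred_eq, ht, h.o, map_sub, map_smul, hm]
    rw [← hm, ne_eq, ne_eq, map_eq_zero_iff e e.injective]
  · funext x
    apply e.injective
    simp only [ht, map_add, map_smul, h.p, h.n, map_sub, hm, ContinuousLinearEquiv.apply_symm_apply]
end cj

variable {X E₁ E₂ : Type} [TopologicalSpace X] [NormedAddCommGroup E₁] [InnerProductSpace ℂ E₁]
  [NormedAddCommGroup E₂] [InnerProductSpace ℂ E₂]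

variable (E₁) in
/-- the isometry of the second slot -/
def ee (k : ℕ) (ρ : E₂ ≃ₗᵢ[ℝ] E₂) : V k (E₁ × E₂) ≃L[ℝ] V k (E₁ × E₂) :=
  ContinuousLinearEquiv.piCongrRight fun _ =>
    (ContinuousLinearEquiv.refl ℝ E₁).prodCongr ρ.toContinuousLinearEquiv

theorem ee_apply (k : ℕ) (ρ : E₂ ≃ₗᵢ[ℝ] E₂) (y : V k (E₁ × E₂)) (i : Ix k) :
    ee E₁ k ρ y i = ((y i).1, ρ (y i).2) := rfl

theorem ee_norm (k : ℕ) (ρ : E₂ ≃ₗᵢ[ℝ] E₂) (y : V k (E₁ × E₂)) : ‖ee E₁ k ρ y‖ = ‖y‖ := by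
  have : ∀ i, ‖ee E₁ k ρ y i‖₊ = ‖y i‖₊ := fun i => by
    ext; simp [ee_apply, Prod.norm_def]
  simp only [Pi.norm_def, this]

theorem cj_Y (D : Data X E₁ E₂) (k : ℕ) (ρ : E₂ ≃ₗᵢ[ℝ] E₂) (r : ∀ z, ρ (ρ z) = z) :
    Cj (ee E₁ k ρ) ((rf D ρ).Y k) (D.Y k) := by
  refine Cj.glue ⟨fun x => Iff.rfl, fun x => rfl, fun _ _ => rfl⟩ (Cj.glue
    ⟨fun x => Iff.rfl, fun x => ?_, fun _ _ => rfl⟩ (Cj.glue
      ⟨fun x => Iff.rfl, fun x => ?_, fun _ _ => rfl⟩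
      ⟨fun x => Iff.rfl, fun x => ?_, fun _ _ => rfl⟩ 5) 3) 1
  · funext i
    simp [ee_apply, Data.a₂, rf, pr, s1, s2, r]
  · funext i
    simp [ee_apply, Data.a₃, rf, pr, s1, s2, r]
  · funext i
    simp [ee_apply, Data.a₄, rf, pr, s1, s2, r]

theorem rf_ok {D : Data X E₁ E₂} {c κ R₀ M : ℝ} (h : D.Ok c κ R₀ M) (ρ : E₂ ≃ₗᵢ[ℝ] E₂)
    (r : ∀ z, ρ (ρ z) = z) (p : ∀ x z, ρ (D.π₂ x z) = D.π₂ x (ρ z)) : (rf D ρ).Ok c κ R₀ M := by
  have hc : Continuous fun w : (X × ℝ) × E₂ => (w.1, ρ w.2) := by fun_prop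
  have pn : ∀ x z, ‖D.π₂ x (ρ z)‖ = ‖D.π₂ x z‖ := fun x z => by rw [← p, ρ.norm_map]
  refine ⟨h.p₁, h.p₂, h.hμ, h.hc, h.hκ, h.Cc, h.Cn, h.Cp, h.uc.comp (by fun_prop), fun x z => ?_,
    fun x z => h.ub x (ρ z), fun x z hz => ?_, h.vo, ρ.continuous.comp_continuousOn h.vc,
    fun w hw => ?_, fun R => ?_, h.vb, h.o₁, h.c₁, h.k₁, h.b₁, h.x₁, h.l₁, fun x s y hs => ?_,
    h.o₂.preimage hc, ρ.continuous.comp_continuousOn (h.c₂.comp hc.continuousOn fun w hw => hw),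
    fun x s z => ?_, fun R => ?_, fun w hw hz => ?_, fun x s z hs => ?_, fun x s z hs => ?_⟩
  · change D.u (x, ρ (D.π₂ x z)) = D.u (x, ρ z)
    rw [p, h.up]
  · have := h.ux x (ρ z) (by rw [pn]; exact hz)
    rw [pn] at this; exact this
  · change D.π₂ w.1 (ρ (D.v w)) = ρ (D.v w)
    rw [← p, h.vp w hw]
  · have := h.vk R
    simpa only [rf, ρ.norm_map] using this
  · refine ⟨(h.r₁ x s y hs).1, fun hy => ?_⟩
    change D.h₁ ((x, s), y) = D.u (x, ρ (ρ (D.v (x, y))))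
    rw [r, (h.r₁ x s y hs).2 hy]
  · obtain ⟨a, b, c⟩ := h.q₂ x s (ρ z)
    refine ⟨?_, ?_, ?_⟩
    · change ((x, s), ρ z) ∈ D.O₂ ↔ ((x, s), ρ (D.π₂ x z)) ∈ D.O₂
      rw [p]; exact a
    · change ρ (D.h₂ ((x, s), ρ (D.π₂ x z))) = ρ (D.h₂ ((x, s), ρ z))
      rw [p, b]
    · change D.π₂ x (ρ (D.h₂ ((x, s), ρ z))) = ρ (D.h₂ ((x, s), ρ z))
      rw [← p, c]
  · convert (h.k₂ R).image hc using 1
    ext w
    constructor
    · rintro ⟨a, b, c, d⟩
      refine ⟨(w.1, ρ w.2), ⟨a, b, ?_, ?_⟩, by simp only [r]⟩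
      · rw [← ρ.norm_map]; exact c
      · rw [ρ.norm_map]; exact d
    · rintro ⟨w, ⟨a, b, c, d⟩, rfl⟩
      refine ⟨?_, b, ?_, ?_⟩
      · change (w.1, ρ (ρ w.2)) ∈ D.O₂
        rw [r]; exact a
      · change ‖ρ (D.h₂ (w.1, ρ (ρ w.2)))‖ ≤ R
        rw [r, ρ.norm_map]; exact c
      · change ‖ρ w.2‖ ≤ R
        rw [ρ.norm_map]; exact d
  · have := h.x₂ (w.1, ρ w.2) hw (by rw [pn]; exact hz)
    change _ ≤ ‖ρ _‖
    rw [ρ.norm_map]
    rw [pn] at this; exact this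
  · refine ⟨(h.l₂ x s (ρ z) hs).1, fun hy => ?_⟩
    change ρ (D.h₂ ((x, s), ρ z)) = ρ (D.v (x, D.u (x, ρ z)))
    rw [(h.l₂ x s (ρ z) hs).2 hy]
  · refine ⟨(h.r₂ x s (ρ z) hs).1, ?_⟩
    change ρ (D.h₂ ((x, s), ρ z)) = D.μ • D.π₂ x z
    rw [(h.r₂ x s (ρ z) hs).2, map_smul, p, r]

end Rf
open Rf

theorem rfl_ : RFL := by
  intro A _ T E₁ E₂ _ _ _ _ _ _ k δ hk hd D c κ R₀ M j j' ρ hD he r r1 r2 ok
  refine ⟨rf_ok hD ρ r fun x z => by rw [he.p₂, he.p₂, r1], ?_⟩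
  rw [(cj_Y D k ρ r).F (fun y => ?_) (ee_norm k ρ) δ]
  · exact T.pa_cj k (sp (E₁ × E₂)) (sp (E₁ × E₂)) (ee E₁ k ρ) _ hk ok fun y => rfl
  · funext i
    simp [ee_apply, Pm.mn]

theorem zer : ZER := by
  intro A _ T E₁ E₂ _ _ _ _ _ _ k δ hk hd D c κ R₀ M j hD he ok
  refine (T.iv_an hk).emp (S := sp (E₁ × E₂)) ok (eq_empty_of_forall_notMem fun x hx => ?_)
  obtain ⟨⟨h1, h2⟩, h3⟩ := hx
  have p1 : ∀ x y, D.π₁ x y = 0 := fun x y => by rw [he.p₁]; rfl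
  have p2 : ∀ x y, D.π₂ x y = 0 := fun x y => by rw [he.p₂]; simp
  have hu : ∀ x z, D.u (x, z) = D.u (x, 0) := fun x z => by rw [← hD.up x z, p2]
  have hv : (fun i => D.v (x.1.1, Fo.g (-rep x.1.2)
      (s1 (x.2 - (1 - tau δ x) • Pm.mn x.2)) i)) = 0 := funext fun i => by
    exact (hD.vp _ (h2 i)).symm.trans (p2 _ _)
  have h4 : ∀ i, x.2 i = (D.u (x.1.1, 0), 0) := fun i => by
    have := congrFun h3 i
    simp only [PM.F, Data.Orb, hv, p1, p2, map_zero, sub_zero] at this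
    simp only [pr, s1, s2, Pi.add_apply, Pi.smul_apply, Pi.sub_apply, Prod.ext_iff,
      one_apply_eq_self, Prod.fst_add, Prod.snd_add, Prod.fst_sub, Prod.snd_sub,
      Prod.smul_fst, Prod.smul_snd, Pi.zero_apply, Prod.fst_zero, Prod.snd_zero] at this
    rw [hu] at this
    ext1
    · rw [← sub_eq_zero, ← this.1]; abel
    · rw [← this.2]; abel
  exact h1 (funext fun i => by simp [Pm.mn, h4])

end Crest.Agent.N218.D7

end
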