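import Crest.Agent.N218.En.Defs
import Crest.Agent.N218.D7.Dg0
import Crest.Agent.N218.D7.St
import Crest.Agent.N218.Pm.Kit1
import Crest.Agent.N218.Pm.Loop0
import Crest.Agent.N218.Pm.Loop

-- ▼ part N218/En/Cxe
section

/-! # Row 218, END wrapper (helper92): complex coordinates -/

set_option autoImplicit false
set_option linter.unusedVariables false

open Set Module
open scoped InnerProductSpace

noncomputable section

namespace Crest.Agent.N218.En
open Pm Sk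

namespace Cx

/-- the coordinate projection -/
def pc (a b : ℕ) : Cn (a + b) →L[ℂ] Cn (a + b) :=
  LinearMap.toContinuousLinearMap
    { toFun := fun y => WithLp.toLp 2 fun i => if (i : ℕ) < a then y i else 0
      map_add' := fun y z => by ext i; by_cases h : (i : ℕ) < a <;> simp [h]
      map_smul' := fun c z => by ext i; by_cases h : (i : ℕ) < a <;> simp [h] }

theorem pc_apply (a b : ℕ) (y : Cn (a + b)) (i : Fin (a + b)) :
    pc a b y i = if (i : ℕ) < a then y i else 0 := rfl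

/-- a real orthonormal basis of complex Euclidean space -/
def rb (n : ℕ) : OrthonormalBasis (Fin n × Fin 2) ℝ (Cn n) :=
  (Pi.orthonormalBasis fun _ : Fin n => Complex.orthonormalBasisOneI).reindex
    (Equiv.sigmaEquivProd _ _)

theorem rb_apply (n : ℕ) (i : Fin n) (j : Fin 2) :
    rb n (i, j) = PiLp.single 2 i (Complex.orthonormalBasisOneI j) := by
  simp [rb]

theorem pc_rb (a b : ℕ) (i : Fin (a + b)) (j : Fin 2) :
    pc a b (rb _ (i, j)) = if (i : ℕ) < a then rb _ (i, j) else 0 := by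
  ext l
  rw [pc_apply, rb_apply]
  by_cases h : l = i
  · subst h; split_ifs <;> simp
  · split_ifs <;> simp [h]

end Cx
open Cx

theorem cxe : CXE := by
  intro F _ _ _ π o ⟨n, hn⟩ ⟨a, ha⟩
  set U := LinearMap.range (π : F →ₗ[ℝ] F)
  have hs := U.finrank_add_finrank_orthogonal
  obtain ⟨b, rfl⟩ : ∃ b, n = a + b := ⟨n - a, by omega⟩
  have hb : finrank ℝ Uᗮ = b + b := by omega
  let u : OrthonormalBasis (Fin a × Fin 2) ℝ U :=
    (stdOrthonormalBasis ℝ U).reindex (Fintype.equivOfCardEq (by simp [ha]; ring))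
  let v : OrthonormalBasis (Fin b × Fin 2) ℝ Uᗮ :=
    (stdOrthonormalBasis ℝ Uᗮ).reindex (Fintype.equivOfCardEq (by simp [hb]; ring))
  let w : Fin (a + b) × Fin 2 → F := fun x =>
    Fin.addCases (motive := fun _ => F) (fun i => u (i, x.2)) (fun i => v (i, x.2)) x.1
  have ow : Orthonormal ℝ w := by
    rw [orthonormal_iff_ite]
    rintro ⟨i, j⟩ ⟨i', j'⟩
    refine Fin.addCases (fun i => ?_) (fun i => ?_) i <;>
      refine Fin.addCases (fun i' => ?_) (fun i' => ?_) i' <;>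
      simp only [w, Fin.addCases_left, Fin.addCases_right]
    · simpa using orthonormal_iff_ite.1 u.orthonormal (i, j) (i', j')
    · rw [(v (i', j')).2 _ (u (i, j)).2, if_neg]
      intro h
      have := congrArg (fun x => (x.1 : ℕ)) h
      simp at this; omega
    · rw [real_inner_comm, (v (i, j)).2 _ (u (i', j')).2, if_neg]
      intro h
      have := congrArg (fun x => (x.1 : ℕ)) h
      simp at this; omega
    · simpa using orthonormal_iff_ite.1 v.orthonormal (i, j) (i', j')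
  let W : OrthonormalBasis (Fin (a + b) × Fin 2) ℝ F := OrthonormalBasis.mk ow
    (ow.linearIndependent.span_eq_top_of_card_eq_finrank' (by simp [hn]; ring)).ge
  let e := (rb (a + b)).equiv W (Equiv.refl _)
  refine ⟨a + b, e, pc a b, fun y => ?_, fun y z => ?_, fun y => ?_⟩
  · ext i; simp only [pc_apply]; split_ifs <;> rfl
  · simp only [PiLp.inner_apply, pc_apply]
    exact Finset.sum_congr rfl fun i _ => by split_ifs <;> simp
  · have : e.toLinearEquiv.toLinearMap ∘ₗ ((pc a b).toLinearMap.restrictScalars ℝ) =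
        π.toLinearMap ∘ₗ e.toLinearEquiv.toLinearMap := by
      refine (rb (a + b)).toBasis.ext ?_
      rintro ⟨i, j⟩
      change e (pc a b (rb _ (i, j))) = π (e (rb _ (i, j)))
      rw [pc_rb, OrthonormalBasis.equiv_apply_basis, apply_ite e, map_zero,
        OrthonormalBasis.equiv_apply_basis, Equiv.refl_apply, OrthonormalBasis.coe_mk]
      refine Fin.addCases (fun i => ?_) (fun i => ?_) i <;>
        simp only [w, Fin.addCases_left, Fin.addCases_right]
      · obtain ⟨t, ht⟩ := (u (i, j)).2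
        rw [if_pos (by simp), ← ht]
        exact (o.id t).symm
      · rw [if_neg (by simp)]
        refine (inner_self_eq_zero (𝕜 := ℝ)).1 ?_ |>.symm
        rw [o.sy, o.id, real_inner_comm]
        exact (v (i, j)).2 _ ⟨_, rfl⟩
    exact LinearMap.congr_fun this y

end Crest.Agent.N218.En

end
end

-- ▼ part N218/D7/Dg1
section

/-!
# Row 218, block D7 (helper99): invariance of dimension, kit
-/

set_option autoImplicit false
set_option linter.unusedSectionVars false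
set_option linter.unusedVariables false
open Topology Filter Set OnePoint unitInterval

noncomputable section

namespace Crest.Agent.N218.D7

open Crest.Agent.R204 Freud661 CubeSph661 HDeg160 K357 Nf Pm

namespace Dg




/-- the projection onto the range -/
def pR {E : Type} [NormedAddCommGroup E] [InnerProductSpace ℂ E] (π : E →L[ℂ] E) :
    E →L[ℂ] π.range := π.codRestrict _ fun y => ⟨y, rfl⟩

theorem pR_sub {E : Type} [NormedAddCommGroup E] [InnerProductSpace ℂ E] {π : E →L[ℂ] E}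
    (h : ∀ y, π (π y) = π y) (w : π.range) : pR π w = w := by
  obtain ⟨_, y, rfl⟩ := w
  exact Subtype.ext (h y)

theorem ev_fin (W : Type) [NormedAddCommGroup W] [NormedSpace ℂ W] :
    Even (Module.finrank ℝ W) := by
  rw [finrank_real_of_complex]; exact even_two_mul _

end Dg

end Crest.Agent.N218.D7
end
end

-- ▼ part N218/D7/Deg
section

/-!
# Row 218, block D7 (helper99): leaf DEG
-/

set_option autoImplicit false
set_option linter.unusedSectionVars false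
set_option linter.unusedVariables false
open Topology Filter Set OnePoint unitInterval

noncomputable section

namespace Crest.Agent.N218.D7

open Crest.Agent.R204 Freud661 Nf Pm

namespace Dg

/-- the reflection in a unit vector -/
theorem ex_rf {E : Type} [NormedAddCommGroup E] [InnerProductSpace ℝ E] (w : E) (hw : ‖w‖ = 1) :
    ∃ ρ : E ≃ₗᵢ[ℝ] E, (∀ z, ρ (ρ z) = z) ∧ ∀ z, ρ z = z - (2 * inner ℝ w z) • w :=
  ⟨(ℝ ∙ w)ᗮ.reflection, Submodule.reflection_reflection _, fun z => by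
    rw [Submodule.reflection_orthogonal_apply, Submodule.reflection_singleton_apply, hw]
    simp [two_smul, two_mul, add_smul]⟩

/-- Hopf's theorem with an orthogonal reflection -/
theorem hd_rf {W : Type} [NormedAddCommGroup W] [InnerProductSpace ℝ W] [FiniteDimensional ℝ W]
    (hn : Even (Module.finrank ℝ W)) (w : W) (hw : ‖w‖ = 1)
    {v u : C(OnePoint W, OnePoint W)} (hv : v ∞ = ∞) (hu : u ∞ = ∞)
    (h : (v.comp u).Homotopic (.id _)) : ∃ (t : ℝ) (R : W ≃L[ℝ] W), (t = 0 ∨ t = 2) ∧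
      (∀ z, R z = z - (t * inner ℝ w z) • w) ∧ v.HomotopicRel (om R) {∞} := by
  have : Nontrivial W := ⟨⟨w, 0, fun e => by simp [e] at hw⟩⟩
  obtain ⟨n, k⟩ := Nat.exists_eq_succ_of_ne_zero (Module.finrank_pos (R := ℝ) (M := W)).ne'
  obtain ⟨b, hb⟩ := Orthonormal.exists_orthonormalBasis_extension_of_card_eq (𝕜 := ℝ) (E := W)
    (ι := Fin (n + 1)) (by simp [k]) (v := fun _ => w) (s := {0})
    ⟨fun _ => hw, fun i j d => (d (Subsingleton.elim i j)).elim⟩
  have b0 : b 0 = w := hb 0 rfl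
  let e : W ≃L[ℝ] (Fin (n + 1) → ℝ) := b.toBasis.equivFunL
  have he : ∀ z i, e z i = inner ℝ (b i) z := fun z i => b.repr_apply_apply z i
  rcases hd (n := n) (by rwa [k] at hn) e 0 hv hu h with a | a
  · exact ⟨0, .refl ℝ W, .inl rfl, fun z => by simp,
      by convert a using 1; ext s; induction s using OnePoint.rec <;> rfl⟩
  · refine ⟨2, _, .inr rfl, fun z => e.injective (funext fun i => ?_), a⟩
    rw [ContinuousLinearEquiv.trans_apply, ContinuousLinearEquiv.apply_symm_apply,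
      ContinuousLinearEquiv.trans_apply, rf_apply]
    simp only [he, inner_sub_right, inner_smul_right, ← b0, orthonormal_iff_ite.1 b.orthonormal]
    split_ifs with c
    · subst c; ring
    · ring

/-- `-1` is homotopic to `1` on a complex sphere -/
theorem neg_rel {W : Type} [NormedAddCommGroup W] [NormedSpace ℂ W] [FiniteDimensional ℂ W] :
    (om (ContinuousLinearEquiv.neg ℝ : W ≃L[ℝ] W)).HomotopicRel (.id _) {∞} := by
  have := FiniteDimensional.proper_real W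
  obtain ⟨F, a, b⟩ := ppu (B := I) (W := W)
    (f := fun z => -(Complex.exp (((Real.pi * z.1 : ℝ) : ℂ) * Complex.I) • z.2)) (by fun_prop)
    fun R => ⟨R, fun z h => by
      rwa [norm_neg, norm_smul, Complex.norm_exp_ofReal_mul_I, one_mul] at h⟩
  refine rel_of F a rfl rfl (fun w => (b 0 w).trans ?_) fun w => (b 1 w).trans ?_
  · simp; rfl
  · simp

end Dg
open Dg

theorem deg : DEG := by
  intro E₁ E₂ _ _ _ _ _ _ D c κ R₀ M j j' x hD he hj
  let _ : InnerProductSpace ℝ E₂ := InnerProductSpace.complexToReal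
  let W := (D.π₂ x).range
  let _ : InnerProductSpace ℝ W := InnerProductSpace.complexToReal
  have s₂ := pR_sub (hD.p₂.id x)
  let i₂ : W →L[ℝ] E₂ := W.subtypeL.restrictScalars ℝ
  let p₂ : E₂ →L[ℝ] W := (pR (D.π₂ x)).restrictScalars ℝ
  let i₁ : W →L[ℝ] E₁ := (j' ∘L W.subtypeL).restrictScalars ℝ
  let p₁ : E₁ →L[ℝ] W := (pR (D.π₂ x) ∘L j).restrictScalars ℝ
  have πj : ∀ y, D.π₂ x (j y) = j y := fun y => by rw [he.p₂, he.jj]
  have πw : ∀ w : W, D.π₂ x w = w := fun w => congrArg Subtype.val (s₂ w)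
  have h₁ : ∀ y, i₁ (p₁ y) = D.π₁ x y := fun y => by
    rw [he.p₁]; exact congrArg j' (πj y)
  have h₁' : ∀ w, p₁ (i₁ w) = w := fun w => Subtype.ext
    ((πj _).trans ((he.p₂ x w).symm.trans (πw w)))
  obtain ⟨v, u, v0, u0, v1, v2, u1, h⟩ := core hD x i₁ p₁ i₂ p₂ h₁ h₁' (fun _ => rfl) s₂
  obtain ⟨w, hw⟩ : ∃ w : W, ‖w‖ = 1 := by
    obtain ⟨z, hz⟩ : ∃ z, j' z ≠ 0 := by
      by_contra k
      exact hj (ContinuousLinearMap.ext fun z => not_not.1 fun d => k ⟨z, d⟩)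
    have : Nontrivial W := ⟨⟨p₂ z, 0, fun e => hz (by
      rw [← he.jj', ← he.p₂ x, show D.π₂ x z = 0 from congrArg Subtype.val e, map_zero])⟩⟩
    exact exists_norm_eq W zero_le_one
  obtain ⟨t, R, ht, hR, hv⟩ := hd_rf (ev_fin W) w hw v0 u0 h.homotopic
  obtain ⟨ρ, r1, r2⟩ : ∃ ρ : E₂ ≃ₗᵢ[ℝ] E₂, (∀ z, ρ (ρ z) = z) ∧
      ∀ z, ρ z = z - (t * inner ℝ (w : E₂) z) • (w : E₂) := by
    rcases ht with rfl | rfl
    · exact ⟨.refl ℝ E₂, fun _ => rfl, fun z => by simp⟩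
    · exact ex_rf (w : E₂) hw
  have ip : ∀ z, inner ℝ (w : E₂) (D.π₂ x z) = inner ℝ (w : E₂) z := fun z =>
    congrArg RCLike.re ((hD.p₂.sa x w z).symm.trans (by rw [πw]))
  have r3 : ∀ z, ρ (D.π₂ x z) = D.π₂ x (ρ z) := fun z => by
    rw [r2, r2, ip, map_sub, ContinuousLinearMap.map_smul_of_tower, πw]
  have r4 : ∀ z : W, ρ z = R z := fun z => by rw [r2, hR]; rfl
  have RR : (om R).comp (om R) = .id _ := by
    ext s
    induction s using OnePoint.rec with
    | infty => rfl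
    | coe z => exact congrArg _ (Subtype.ext (by rw [← r4, ← r4, r1]))
  have A : ((om R).comp v).HomotopicRel (.id _) {∞} := RR ▸ rel_post hv (om R)
  have B : (u.comp (om R)).HomotopicRel (.id _) {∞} := by
    have k1 : ((om R).comp u).HomotopicRel (.id _) {∞} := (rel_pre hv.symm u u0).trans h
    have k2 := rel_pre (a := ∞) (rel_post k1 (om R)) (om R) rfl
    rwa [← ContinuousMap.comp_assoc, RR, ContinuousMap.id_comp, ContinuousMap.comp_id, RR] at k2
  refine ⟨ρ, r1, fun z => by rw [← he.p₂ x, ← he.p₂ x, r3], fun z hz => ?_, fun a b ha hb =>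
    ⟨transfer p₁ i₁ h₁' ((rel_post A (om (.neg ℝ))).trans neg_rel) (by
      simp only [ContinuousMap.comp_apply, v0]; rfl) a x fun y => ?_,
    transfer p₂ i₂ s₂ B u0 b x fun z => ?_⟩⟩
  · rw [r2, ← ip, he.p₂, hz]; simp
  · simp only [ContinuousMap.comp_apply]
    by_cases k : (x, D.π₁ x y) ∈ D.Ov
    · rw [(ha x y).1 k, v1 _ (by rwa [h₁]), h₁]
      refine congrArg _ ?_
      change y - D.π₁ x y - j' (ρ (D.v (x, D.π₁ x y))) = y - D.π₁ x y +
        j' (-(R (p₂ (D.v (x, D.π₁ x y))) : E₂))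
      rw [map_neg, ← r4, show ((p₂ (D.v (x, D.π₁ x y)) : W) : E₂) = _ from hD.vp _ k,
        sub_eq_add_neg _ (j' _)]
    · rw [(ha x y).2 k, v2 _ (by rwa [h₁])]; rfl
  · rw [hb x z]
    change _ = (u (R (p₂ z) : W)).map _
    rw [u1]
    refine congrArg _ ?_
    change z - D.π₂ x z + j (D.u (x, ρ z)) = z - D.π₂ x z + D.π₂ x (j (D.u (x, (R (p₂ z) : E₂))))
    rw [πj, ← r4, show ((p₂ z : W) : E₂) = D.π₂ x z from rfl, r3, hD.up]

end Crest.Agent.N218.D7
end
end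

-- ▼ part N218/D7/Plh
section

/-!
# Row 218 (helper88): the loops of pointed families are proper, homotopy invariance
-/

set_option autoImplicit false
set_option linter.unusedVariables false
set_option linter.unusedSectionVars false

open Set OnePoint unitInterval Topology

noncomputable section

namespace Crest.Agent.N218.D7

open Pm Pm.Lo

namespace Ph

section slot
variable {B E : Type} [TopologicalSpace B] [NormedAddCommGroup E] (a : PT B E)

theorem cf : Continuous fun z : B × E => a.f (z.1, (z.2 : OnePoint E)) :=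
  a.ct.comp (continuous_fst.prodMk (continuous_coe.comp continuous_snd))

theorem sl_op : IsOpen {z : B × E | a.f (z.1, (z.2 : OnePoint E)) ≠ ∞} :=
  isClosed_infty.isOpen_compl.preimage (cf a)

theorem un_coe {w : OnePoint E} (h : w ≠ ∞) : ((un w : E) : OnePoint E) = w := by
  induction w using OnePoint.rec with
  | infty => exact absurd rfl h
  | coe y => rfl

theorem un_at {w : OnePoint E} (h : w ≠ ∞) : ContinuousAt un w := by
  rw [← un_coe h]
  exact isOpenEmbedding_coe.continuousAt_iff.1 continuousAt_id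

theorem sl_ct : ContinuousOn (fun z : B × E => un (a.f (z.1, (z.2 : OnePoint E))))
    {z | a.f (z.1, (z.2 : OnePoint E)) ≠ ∞} := fun z h =>
  ((un_at h).comp (f := fun z : B × E => a.f (z.1, (z.2 : OnePoint E)))
    (cf a).continuousAt).continuousWithinAt

theorem sl_cp [ProperSpace E] {K : Set B} (hK : IsCompact K) (R : ℝ) :
    IsCompact {z : B × E | z.1 ∈ K ∧ a.f (z.1, (z.2 : OnePoint E)) ≠ ∞ ∧
      ‖un (a.f (z.1, (z.2 : OnePoint E)))‖ ≤ R} := by
  have e : IsOpenEmbedding (Prod.map id (↑) : B × E → B × OnePoint E) :=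
    IsOpenEmbedding.id.prodMap isOpenEmbedding_coe
  have c := (hK.prod (isCompact_univ (X := OnePoint E))).inter_right
    (((isCompact_closedBall (0 : E) R).image continuous_coe).isClosed.preimage a.ct)
  convert e.isInducing.isCompact_preimage' c ?_ using 1
  · ext z
    refine ⟨fun h => ⟨⟨h.1, trivial⟩, _, mem_closedBall_zero_iff.2 h.2.2, un_coe h.2.1⟩, ?_⟩
    rintro ⟨h, y, i, j⟩
    have j' : (y : OnePoint E) = a.f (z.1, (z.2 : OnePoint E)) := j
    exact ⟨h.1, j' ▸ coe_ne_infty y, j' ▸ mem_closedBall_zero_iff.1 i⟩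
  · rintro ⟨x, w⟩ ⟨-, y, -, j⟩
    induction w using OnePoint.rec with
    | infty => exact absurd (j.trans (a.pt x)) (coe_ne_infty y)
    | coe w => exact ⟨(x, w), rfl⟩
end slot

section real
variable {B E E' : Type} [TopologicalSpace B] [NormedAddCommGroup E] [NormedSpace ℝ E]
  [NormedAddCommGroup E'] [NormedSpace ℝ E'] {k : ℕ}

variable (k) in
/-- the slotwise family -/
def QN (a : PT B E) : PM B k E :=
  ⟨{w | ∀ i, a.f (w.1, (w.2 i : E)) ≠ ∞}, fun w i => un (a.f (w.1, (w.2 i : E))), fun _ => 1⟩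

theorem qn_ok [T2Space B] [ProperSpace E] (a : PT B E) : (QN k a).Ok := by
  have c : ∀ i, Continuous fun w : B × V k E => (w.1, w.2 i) := fun i => by fun_prop
  have ct : ContinuousOn (QN k a).P (QN k a).O :=
    continuousOn_pi.2 fun i => (sl_ct a).comp (c i).continuousOn fun w h => h i
  refine ⟨?_, fun x h i => h _, ct, fun _ _ => rfl, fun K hK R => ?_, continuous_const,
    fun _ _ => rfl, fun _ _ h => h⟩
  · convert isOpen_iInter_of_finite fun i => (sl_op a).preimage (c i) using 1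
    ext w
    rw [mem_iInter]; rfl
  have s := sl_cp a hK R
  refine pp_of ct (C := (K ×ˢ univ.pi fun _ => Prod.snd '' _) ∩ ⋂ i, (fun w => (w.1, w.2 i)) ⁻¹' _)
    ((hK.prod (isCompact_univ_pi fun _ => s.image continuous_snd)).inter_right
      (isClosed_iInter fun i => s.isClosed.preimage (c i))) (fun w h i => (mem_iInter.1 h.2 i).2.1)
    hK fun w h i n => ?_
  have m : ∀ j, (w.1, w.2 j) ∈ {z : B × E | z.1 ∈ K ∧
      a.f (z.1, (z.2 : OnePoint E)) ≠ ∞ ∧ ‖un (a.f (z.1, (z.2 : OnePoint E)))‖ ≤ R} := fun j =>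
    ⟨i, h j, (norm_le_pi_norm ((QN k a).P w) j).trans n⟩
  exact ⟨⟨i, fun j _ => ⟨_, m j, rfl⟩⟩, mem_iInter.2 m⟩

/-- the product of two families, normal map `1` -/
def pp (A : PM B k E) (A' : PM B k E') : PM B k (E × E') :=
  ⟨{w | (w.1, s1 w.2) ∈ A.O ∧ (w.1, s2 w.2) ∈ A'.O},
    fun w => pr (A.P (w.1, s1 w.2)) (A'.P (w.1, s2 w.2)), fun _ => 1⟩

theorem pp_ok [T2Space B] {A : PM B k E} {A' : PM B k E'} (h : A.Ok) (h' : A'.Ok) :
    (pp A A').Ok := by
  have c : Continuous fun w : B × V k (E × E') => (w.1, s1 w.2) := by fun_prop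
  have c' : Continuous fun w : B × V k (E × E') => (w.1, s2 w.2) := by fun_prop
  have ct : ContinuousOn (pp A A').P (pp A A').O := continuousOn_pi.2 fun i =>
    (continuousOn_pi.1 (h.ct.comp c.continuousOn fun _ a => a.1) i).prodMk
      (continuousOn_pi.1 (h'.ct.comp c'.continuousOn fun _ a => a.2) i)
  refine ⟨(h.op.preimage c).inter (h'.op.preimage c'), fun x a => ⟨h.inv _ a.1, h'.inv _ a.2⟩, ct,
    fun x a => congrArg₂ pr (h.eq _ a.1) (h'.eq _ a.2), fun K hK R => ?_, continuous_const,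
    fun _ _ => rfl, fun _ _ h => h⟩
  refine pp_of ct ((((h.pp K hK R).prod (h'.pp K hK R)).inter_right
    (isClosed_eq (continuous_fst.fst) continuous_snd.fst)).image
      (f := fun u => (u.1.1, pr u.1.2 u.2.2)) (by fun_prop)) ?_ hK fun w a i n =>
    ⟨((w.1, s1 w.2), (w.1, s2 w.2)), ⟨⟨⟨a.1, i, le_trans ?_ n⟩, a.2, i, le_trans ?_ n⟩, rfl⟩, rfl⟩
  · rintro _ ⟨⟨⟨b, y⟩, b', z⟩, ⟨a, e⟩, rfl⟩
    obtain rfl : b = b' := e
    exact ⟨a.1.1, a.2.1⟩
  · exact (pi_norm_le_iff_of_nonneg (norm_nonneg _)).2 fun j =>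
      (norm_fst_le _).trans (norm_le_pi_norm ((pp A A').P w) j)
  · exact (pi_norm_le_iff_of_nonneg (norm_nonneg _)).2 fun j =>
      (norm_snd_le _).trans (norm_le_pi_norm ((pp A A').P w) j)
end real

section cx
variable {B E : Type} [TopologicalSpace B] [NormedAddCommGroup E] [NormedSpace ℂ E] {k : ℕ}

/-- conjugation by the flow, normal map `1` -/
def cg (r : B → ℝ) (A : PM B k E) : PM B k E :=
  ⟨{w | (w.1, Fo.g (-r w.1) w.2) ∈ A.O},
    fun w => Fo.g (r w.1) (A.P (w.1, Fo.g (-r w.1) w.2)), fun _ => 1⟩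

theorem cg_ok [T2Space B] [ProperSpace E] {r : B → ℝ} (hr : Continuous r) {A : PM B k E}
    (h : A.Ok) : (cg r A).Ok := by
  have c : Continuous fun w : B × V k E => (w.1, Fo.g (-r w.1) w.2) := by fun_prop
  have g : Continuous fun w : B × V k E => Fo.g (r w.1) w.2 := by fun_prop
  have ct : ContinuousOn (cg r A).P (cg r A).O := g.comp_continuousOn
    (f := fun w : B × V k E => (w.1, A.P (w.1, Fo.g (-r w.1) w.2)))
    (continuousOn_fst.prodMk (h.ct.comp c.continuousOn fun _ a => a))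
  refine ⟨h.op.preimage c, fun x a => ?_, ct, fun x a => ?_, fun K hK R => ?_, continuous_const,
    fun _ _ => rfl, fun _ _ h => h⟩
  · change (x.1, Fo.g _ (sh k E x.2)) ∈ A.O
    rw [g_sh']; exact h.inv _ a
  · change Fo.g _ (A.P (x.1, Fo.g _ (sh k E x.2))) = sh k E (Fo.g _ _)
    exact (congrArg (Fo.g (r x.1)) ((congrArg (fun y => A.P (x.1, y)) (g_sh' _ _)).trans
      (h.eq _ a))).trans (g_sh' _ _)
  obtain ⟨R', b⟩ := ((hK.prod (isCompact_closedBall (0 : V k E) R)).image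
    c.snd).isBounded.exists_norm_le
  refine pp_of ct ((h.pp K hK R').image (continuous_fst.prodMk g)) ?_ hK fun w a i n =>
    ⟨(w.1, Fo.g (-r w.1) w.2), ⟨a, i, ?_⟩, Prod.ext rfl (Fo.g_neg' _ _)⟩
  · rintro _ ⟨w, a, rfl⟩
    change (w.1, Fo.g _ (Fo.g _ w.2)) ∈ A.O
    rw [Fo.g_neg]; exact a.1
  · exact b _ ⟨(w.1, (cg r A).P w), ⟨i, mem_closedBall_zero_iff.2 n⟩, Fo.g_neg _ _⟩

end cx

end Ph

open Ph

section ql
variable {X E : Type} [TopologicalSpace X] [NormedAddCommGroup E] [NormedSpace ℂ E]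

/-- the one-slot loop `g_r N a g_(-r)` with normal map `1` -/
def QL (k : ℕ) (a : PT X E) : PM (X × UnitAddCircle) k E :=
  ⟨{w | ∀ i, a.f (w.1.1, (Fo.g (-rep w.1.2) w.2 i : E)) ≠ ∞},
    fun w => Fo.g (rep w.1.2) fun i => un (a.f (w.1.1, (Fo.g (-rep w.1.2) w.2 i : E))), fun _ => 1⟩

theorem ql_ok [T2Space X] [ProperSpace E] (k : ℕ) (a : PT X E) : (QL k a).Ok := by
  have p : ∀ (r : ℝ) (y : V k E), Fo.g (-rep (r : UnitAddCircle)) y =
      Fo.sh ((⌊r⌋ : ℤ) : Ix k) (Fo.g (-r) y) := fun r y => by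
    rw [rep_coe, ← g_int, ← Fo.g_add]; congr 2; push_cast; ring
  refine desc (φ := Prod.map id ((↑) : ℝ → UnitAddCircle))
    (IsOpenQuotientMap.id.prodMap QuotientAddGroup.isOpenQuotientMap_mk)
    (fun K hK => ⟨(Prod.fst '' K) ×ˢ Icc 0 1, (hK.image continuous_fst).prod isCompact_Icc,
      fun b hb => ⟨(b.1, rep b.2), ⟨⟨_, hb, rfl⟩, rep_mem _⟩, Prod.ext rfl (coe_rep _)⟩⟩)
    (cg_ok continuous_snd ((qn_ok (k := k) a).pull continuous_fst)) ?_ ?_ fun b => rfl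
  · rintro ⟨x, r⟩ y
    change (∀ i, a.f (x, (Fo.g (-rep (r : UnitAddCircle)) y i : E)) ≠ ∞) ↔
      ∀ i, a.f (x, (Fo.g (-r) y i : E)) ≠ ∞
    rw [p]
    exact ⟨fun h i => by simpa [Fo.sh] using h (i - ((⌊r⌋ : ℤ) : Ix k)), fun h i => h _⟩
  · rintro ⟨x, r⟩ y -
    change Fo.g (rep (r : UnitAddCircle)) (fun i =>
      un (a.f (x, (Fo.g (-rep (r : UnitAddCircle)) y i : E)))) =
      Fo.g r fun i => un (a.f (x, (Fo.g (-r) y i : E)))
    rw [p, rep_coe, Fo.g_add, g_int]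
    congr 1
    funext i
    simp [Fo.sh]

theorem PT.Ht.ex {B F : Type} [TopologicalSpace B] [TopologicalSpace F] {a a' : PT B F}
    (h : a.Ht a') : ∃ H : PT (B × I) F, a = H.pull (fun x => (x, 0)) (by fun_prop) ∧
      a' = H.pull (fun x => (x, 1)) (by fun_prop) := by
  obtain ⟨H, u, v⟩ := h
  cases a; cases a'
  refine ⟨H, ?_, ?_⟩ <;> simp only [PT.pull, PT.mk.injEq] <;> funext z
  exacts [(u z.1 z.2).symm, (v z.1 z.2).symm]

theorem cs_cp {B F : Type} [TopologicalSpace B] [CompactSpace B] [NormedAddCommGroup F]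
    [NormedSpace ℝ F] {k : ℕ} (A : PM B k F) (δ : ℝ) : A.Cs δ :=
  ⟨univ, isCompact_univ, fun _ h => absurd trivial h⟩

end ql

section pl
variable {X E₁ E₂ : Type} [TopologicalSpace X] [NormedAddCommGroup E₁] [InnerProductSpace ℂ E₁]
  [NormedAddCommGroup E₂] [InnerProductSpace ℂ E₂] [FiniteDimensional ℂ E₁]
  [FiniteDimensional ℂ E₂] [T2Space X]

theorem pl_ok (k : ℕ) (a : PT X E₁) (b : PT X E₂) : (PL k a b).Ok :=
  haveI := FiniteDimensional.proper_rclike ℂ E₁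
  haveI := FiniteDimensional.proper_rclike ℂ E₂
  pp_ok (ql_ok k a) ((qn_ok (k := k) b).pull continuous_fst)

theorem pl_ht [CompactSpace X] (k : ℕ) {a a' : PT X E₁} {b b' : PT X E₂} (h : a.Ht a')
    (h' : b.Ht b') {δ : ℝ} (hd : 0 < δ) : ((PL k a b).F (tau δ)).Eqv ((PL k a' b').F (tau δ)) := by
  obtain ⟨H, rfl, rfl⟩ := h.ex
  obtain ⟨H', rfl, rfl⟩ := h'.ex
  exact PM.eqv_F ((pl_ok k H H').pull
    (φ := fun b : (X × UnitAddCircle) × I => ((b.1.1, b.2), b.1.2)) (by fun_prop)) hd (cs_cp _ δ)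
end pl

theorem plh : PLH := fun A _ T E₁ E₂ _ _ _ _ _ _ k δ hk hd a a' b b' h h' =>
  ⟨pl_ok k a b, PM.fok (pl_ok k a b) (tau_ok hd) (cs_cp _ δ),
    T.an_eqv k (sp (E₁ × E₂)) _ _ hk (pl_ht k h h' hd)⟩

end Crest.Agent.N218.D7

end
end

-- ▼ part N218/D7/Rot
section

/-!
# Row 218, block D7 (helper47): `rot : ROT`
-/

set_option autoImplicit false
set_option linter.unusedVariables false
set_option linter.unusedSectionVars false

open Set OnePoint unitInterval Topology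

noncomputable section

namespace Crest.Agent.N218.D7

open Pm Pm.Lo

namespace Rt

/-- extension of a proper partial map by `∞` -/
theorem ext_pt {X E : Type} [TopologicalSpace X] [T2Space X] [NormedAddCommGroup E] [ProperSpace E]
    {O : Set (X × E)} (hO : IsOpen O) {f : X × E → E} (hf : ContinuousOn f O)
    (hp : ∀ R : ℝ, ∃ C, IsCompact C ∧ C ⊆ O ∧ ∀ w ∈ O, ‖f w‖ ≤ R → w ∈ C) :
    ∃ a : PT X E, ∀ x (y : E), ((x, y) ∈ O → a.f (x, y) = (f (x, y) : OnePoint E)) ∧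
      ((x, y) ∉ O → a.f (x, y) = ∞) := by
  classical
  let F : X × OnePoint E → OnePoint E := fun w =>
    w.2.elim ∞ fun y => if (w.1, y) ∈ O then (f (w.1, y) : OnePoint E) else ∞
  have ι : IsOpenEmbedding (Prod.map id (↑) : X × E → X × OnePoint E) :=
    IsOpenEmbedding.id.prodMap isOpenEmbedding_coe
  have key : ∀ s : Set (OnePoint E), ∞ ∉ s →
      F ⁻¹' s = Prod.map id (↑) '' (O ∩ f ⁻¹' ((↑) ⁻¹' s)) := by
    intro s hs
    ext ⟨x, w⟩
    induction w using OnePoint.rec with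
    | infty => simp [F, hs]
    | coe y => by_cases c : (x, y) ∈ O <;> simp [F, c, hs]
  refine ⟨⟨F, continuous_def.2 fun s hs => ?_, fun _ => rfl⟩,
    fun x y => ⟨fun c => if_pos c, fun c => if_neg c⟩⟩
  by_cases i : ∞ ∈ s
  · rw [← isClosed_compl_iff, ← preimage_compl, key _ (not_not.2 i)]
    have K := (isOpen_def.1 hs).1 i
    obtain ⟨R, hR⟩ := K.isBounded.exists_norm_le
    obtain ⟨C, c1, c2, c3⟩ := hp R
    have e : O ∩ f ⁻¹' ((↑) ⁻¹' sᶜ) = C ∩ f ⁻¹' ((↑) ⁻¹' s)ᶜ :=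
      Set.ext fun w => ⟨fun a => ⟨c3 w a.1 (hR _ a.2), a.2⟩, fun a => ⟨c2 a.1, a.2⟩⟩
    rw [e]
    exact ((c1.of_isClosed_subset ((hf.mono c2).preimage_isClosed_of_isClosed c1.isClosed
      K.isClosed) inter_subset_left).image ι.continuous).isClosed
  · rw [key _ i]
    exact ι.isOpenMap _ (hf.isOpen_inter_preimage hO (hs.preimage continuous_coe))

/-- bounded functions -/
def Bd {S F : Type} [Norm F] (f : S → F) : Prop := ∃ C, ∀ s, ‖f s‖ ≤ C

namespace Bd
variable {S F G : Type} [NormedAddCommGroup F] [NormedAddCommGroup G] {f f' : S → F}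
theorem eq (h : Bd f) (e : ∀ s, f' s = f s) : Bd f' := h.imp fun _ a s => (e s).symm ▸ a s
theorem add (h : Bd f) (h' : Bd f') : Bd fun s => f s + f' s :=
  let ⟨a, p⟩ := h; let ⟨b, q⟩ := h'; ⟨a + b, fun s => norm_add_le_of_le (p s) (q s)⟩
theorem sub (h : Bd f) (h' : Bd f') : Bd fun s => f s - f' s :=
  let ⟨a, p⟩ := h; let ⟨b, q⟩ := h'; ⟨a + b, fun s => norm_sub_le_of_le (p s) (q s)⟩
theorem clm [NormedSpace ℂ F] [NormedSpace ℂ G] (h : Bd f) (A : F →L[ℂ] G) : Bd fun s => A (f s) :=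
  let ⟨a, p⟩ := h; ⟨‖A‖ * a, fun s => A.le_opNorm_of_le (p s)⟩
theorem sm [NormedSpace ℝ F] {t : S → ℝ} (ht : Bd t) (h : Bd f) : Bd fun s => t s • f s :=
  let ⟨a, p⟩ := ht; let ⟨b, q⟩ := h
  ⟨a * b, fun s => (norm_smul _ _).trans_le
    (mul_le_mul (p s) (q s) (norm_nonneg _) ((norm_nonneg _).trans (p s)))⟩
theorem mem {t : S → ℝ} {c : ℝ} (h : ∀ s, t s ∈ Icc 0 c) : Bd t :=
  ⟨c, fun s => (Real.norm_of_nonneg (h s).1).trans_le (h s).2⟩
theorem two (h : Bd f) {g : S → G} (h' : Bd g) : ∃ C, ∀ s, ‖f s‖ ≤ C ∧ ‖g s‖ ≤ C :=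
  let ⟨a, p⟩ := h; let ⟨b, q⟩ := h'
  ⟨max a b, fun s => ⟨(p s).trans (le_max_left _ _), (q s).trans (le_max_right _ _)⟩⟩
theorem g {q : ℕ} [NeZero q] {E : Type} [NormedAddCommGroup E] [InnerProductSpace ℂ E]
    {y : S → ZMod q → E} (h : Bd fun p : S × ZMod q => y p.1 p.2) (r : S → ℝ) :
    Bd fun p : S × ZMod q => Fo.g (r p.1) (y p.1) p.2 :=
  let ⟨a, p⟩ := h
  ⟨q * a, fun s => (Fo.le_n2 _ _).trans ((Fo.n2_g _ _).trans_le (Fo.n2_le _ fun i => p (s.1, i)))⟩
end Bd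

variable {X E₁ E₂ : Type} [TopologicalSpace X] [NormedAddCommGroup E₁] [InnerProductSpace ℂ E₁]
  [FiniteDimensional ℂ E₁] [NormedAddCommGroup E₂] [InnerProductSpace ℂ E₂]
  [FiniteDimensional ℂ E₂] {D : Data X E₁ E₂} {k : ℕ} {c κ R₀ M : ℝ} {j : E₁ →L[ℂ] E₂}
  {j' : E₂ →L[ℂ] E₁}

theorem e1 (he : En D j j') (x : X) (z : E₂) : D.π₁ x (j' z) = j' z := by rw [he.p₁, he.jj']
theorem e2 (he : En D j j') (x : X) (y : E₁) : D.π₂ x (j y) = j y := by rw [he.p₂, he.jj]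
theorem Bd.p1 {S : Type} {f : S → E₁} (h : Bd f) (he : En D j j') (x : S → X) :
    Bd fun s => D.π₁ (x s) (f s) := ((h.clm j).clm j').eq fun s => he.p₁ _ _
theorem Bd.p2 {S : Type} {f : S → E₂} (h : Bd f) (he : En D j j') (x : S → X) :
    Bd fun s => D.π₂ (x s) (f s) := ((h.clm j').clm j).eq fun s => he.p₂ _ _
theorem Bd.ux {S : Type} {x : S → X} {z : S → E₂} (h : D.Ok c κ R₀ M)
    (b : Bd fun s => D.π₁ (x s) (D.u (x s, z s))) : Bd fun s => D.π₂ (x s) (z s) := by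
  obtain ⟨a, p⟩ := b
  refine ⟨max a R₀, fun s => ?_⟩
  by_cases t : R₀ ≤ ‖D.π₂ (x s) (z s)‖
  · have := (h.ux _ _ t).trans (p s)
    exact le_max_of_le_left (by nlinarith [mul_nonneg h.hκ.le (norm_nonneg (D.π₂ (x s) (z s)))])
  · exact le_max_of_le_right (not_le.1 t).le

theorem ex_a [CompactSpace X] [T2Space X] (h : D.Ok c κ R₀ M) (he : En D j j') :
    ∃ a, IsA D j' a := by
  haveI : ProperSpace E₁ := FiniteDimensional.proper ℂ E₁
  have c1 := h.p₁.ct
  have cp : Continuous fun w : X × E₁ => (w.1, D.π₁ w.1 w.2) := by fun_prop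
  refine ext_pt (O := {w | (w.1, D.π₁ w.1 w.2) ∈ D.Ov})
    (f := fun w => w.2 - D.π₁ w.1 w.2 - j' (D.v (w.1, D.π₁ w.1 w.2))) (h.vo.preimage cp)
    (ContinuousOn.sub (Continuous.continuousOn (by fun_prop))
      (j'.continuous.comp_continuousOn (h.vc.comp cp.continuousOn fun w hw => hw))) fun R => ?_
  let S := {w : X × E₁ // (w.1, D.π₁ w.1 w.2) ∈ D.Ov ∧
    ‖w.2 - D.π₁ w.1 w.2 - j' (D.v (w.1, D.π₁ w.1 w.2))‖ ≤ R}
  have b0 : Bd fun s : S => s.1.2 - D.π₁ s.1.1 s.1.2 - j' (D.v (s.1.1, D.π₁ s.1.1 s.1.2)) :=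
    ⟨R, fun s => s.2.2⟩
  have b1 : Bd fun s : S => D.π₁ s.1.1 s.1.2 :=
    ⟨R₀, fun s => by simpa only [h.p₁.id] using h.vb _ s.2.1⟩
  have b2 : Bd fun s : S => j' (D.v (s.1.1, D.π₁ s.1.1 s.1.2)) :=
    ((b0.p1 he fun s => s.1.1).clm (-1)).eq fun s => by simp [h.p₁.id, e1 he]
  have b3 : Bd fun s : S => D.v (s.1.1, D.π₁ s.1.1 s.1.2) :=
    (b2.clm j).eq fun s => by rw [← he.p₂ s.1.1]; exact (h.vp _ s.2.1).symm
  have b4 : Bd fun s : S => s.1.2 := ((b0.add b1).add b2).eq fun s => by abel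
  obtain ⟨R₁, p⟩ := b3.two b1
  obtain ⟨R₂, q⟩ := b4
  exact ⟨(univ ×ˢ Metric.closedBall 0 R₂) ∩ (fun w => (w.1, D.π₁ w.1 w.2)) ⁻¹'
    {w ∈ D.Ov | ‖D.v w‖ ≤ R₁ ∧ ‖w.2‖ ≤ R₁},
    (isCompact_univ.prod (isCompact_closedBall _ _)).inter_right ((h.vk R₁).isClosed.preimage cp),
    fun w hw => hw.2.1, fun w hw t => ⟨⟨trivial, mem_closedBall_zero_iff.2 (q ⟨w, hw, t⟩)⟩,
      hw, p ⟨w, hw, t⟩⟩⟩

theorem ex_b [CompactSpace X] [T2Space X] (h : D.Ok c κ R₀ M) (he : En D j j') :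
    ∃ b, IsB D j b := by
  haveI : ProperSpace E₂ := FiniteDimensional.proper ℂ E₂
  have c2 := h.p₂.ct
  have cu := h.uc
  refine (ext_pt (O := univ) (f := fun w => w.2 - D.π₂ w.1 w.2 + j (D.u w)) isOpen_univ
    (Continuous.continuousOn (by fun_prop)) fun R => ?_).imp fun b e x z => (e x z).1 trivial
  let S := {w : X × E₂ // ‖w.2 - D.π₂ w.1 w.2 + j (D.u w)‖ ≤ R}
  have b0 : Bd fun s : S => s.1.2 - D.π₂ s.1.1 s.1.2 + j (D.u s.1) := ⟨R, fun s => s.2⟩
  have b1 : Bd fun s : S => j (D.u s.1) :=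
    (b0.p2 he fun s => s.1.1).eq fun s => by simp [h.p₂.id, e2 he]
  have b2 : Bd fun s : S => D.π₂ s.1.1 s.1.2 := Bd.ux h ((b1.clm j').eq fun s => he.p₁ _ _)
  obtain ⟨R₂, q⟩ : Bd fun s : S => s.1.2 := ((b0.add b2).sub b1).eq fun s => by abel
  exact ⟨univ ×ˢ Metric.closedBall 0 R₂, isCompact_univ.prod (isCompact_closedBall _ _),
    subset_univ _, fun w _ t => ⟨trivial, mem_closedBall_zero_iff.2 (q ⟨w, t⟩)⟩⟩

variable (D) in
/-- the argument of `v` -/
def pp (b : (X × ℝ) × I) (y : V k E₁) : V k E₁ := fun i =>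
  Fo.g (-b.1.2) y i - (b.2 : ℝ) • (Fo.g (-b.1.2) y i - D.π₁ b.1.1 (Fo.g (-b.1.2) y i))
variable (D) in
/-- the rotated value of `v` -/
def WW (b : (X × ℝ) × I) (y : V k E₁) : V k E₂ := Fo.g b.1.2 fun i => D.v (b.1.1, pp D b y i)

theorem pp_sh (b : (X × ℝ) × I) (y : V k E₁) : pp D b (sh k E₁ y) = sh k E₁ (pp D b y) := by
  unfold pp; rw [g_sh']; rfl
theorem WW_sh (b : (X × ℝ) × I) (y : V k E₁) : WW D b (sh k E₁ y) = sh k E₂ (WW D b y) := by
  unfold WW; rw [pp_sh, ← g_sh']; rfl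
theorem pp_per (x : X) (r : ℝ) (m : ℤ) (l : I) (y : V k E₁) (i : Ix k) :
    pp D ((x, r + m), l) y i = pp D ((x, r), l) y (i + ((-m : ℤ) : Ix k)) := by
  simp only [pp, Data.g_per]
theorem WW_per (x : X) (r : ℝ) (m : ℤ) (l : I) (y : V k E₁) :
    WW D ((x, r + m), l) y = WW D ((x, r), l) y := by
  simp only [WW, pp_per]
  rw [Fo.g_add, g_int]
  congr 1
  funext i
  simp [Fo.sh]

variable (D k j j') in
/-- the unrolled family -/
def RR : PM ((X × ℝ) × I) k (E₁ × E₂) :=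
  ⟨{w | ∀ i, (w.1.1.1, pp D w.1 (s1 w.2) i) ∈ D.Ov},
    fun w => pr (fun i => s1 w.2 i - D.π₁ w.1.1.1 (s1 w.2 i) -
        (1 - w.1.2 : ℝ) • D.u (w.1.1.1, s2 w.2 i) - (w.1.2 : ℝ) • j' (WW D w.1 (s1 w.2) i))
      fun i => s2 w.2 i - D.π₂ w.1.1.1 (s2 w.2 i) + (w.1.2 : ℝ) • j (D.u (w.1.1.1, s2 w.2 i)) -
        (1 - w.1.2 : ℝ) • WW D w.1 (s1 w.2) i, fun _ => 1⟩

theorem bd (h : D.Ok c κ R₀ M) (he : En D j j') {S : Type} {b : S → (X × ℝ) × I}
    {y : S → V k E₁} {z : S → V k E₂} (hO : ∀ s i, ((b s).1.1, pp D (b s) (y s) i) ∈ D.Ov)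
    (b1 : Bd fun p : S × Ix k => y p.1 p.2 - D.π₁ (b p.1).1.1 (y p.1 p.2) -
      (1 - (b p.1).2 : ℝ) • D.u ((b p.1).1.1, z p.1 p.2) -
        ((b p.1).2 : ℝ) • j' (WW D (b p.1) (y p.1) p.2))
    (b2 : Bd fun p : S × Ix k => z p.1 p.2 - D.π₂ (b p.1).1.1 (z p.1 p.2) +
      ((b p.1).2 : ℝ) • j (D.u ((b p.1).1.1, z p.1 p.2)) -
        (1 - (b p.1).2 : ℝ) • WW D (b p.1) (y p.1) p.2) :
    (Bd fun p : S × Ix k => y p.1 p.2) ∧ (Bd fun p : S × Ix k => z p.1 p.2) ∧
      (Bd fun p : S × Ix k => D.v ((b p.1).1.1, pp D (b p.1) (y p.1) p.2)) ∧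
      Bd fun p : S × Ix k => pp D (b p.1) (y p.1) p.2 := by
  have bl : Bd fun p : S × Ix k => ((b p.1).2 : ℝ) := Bd.mem fun p => (b p.1).2.2
  have bt : Bd fun p : S × Ix k => (1 - (b p.1).2 : ℝ) :=
    Bd.mem fun p => unitInterval.one_minus_nonneg _ |> fun a => ⟨a, unitInterval.one_minus_le_one _⟩
  have nz : ∀ l : ℝ, 1 / 2 ≤ (1 - l) ^ 2 + l ^ 2 := fun l => by nlinarith [sq_nonneg (2 * l - 1)]
  have bi : Bd fun p : S × Ix k => ((1 - (b p.1).2 : ℝ) ^ 2 + (b p.1).2 ^ 2)⁻¹ :=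
    Bd.mem (c := 2) fun p => ⟨by positivity, inv_le_of_inv_le₀ two_pos (by
      rw [← one_div]; exact nz _)⟩
  have vW : ∀ s i, j (j' (WW D (b s) (y s) i)) = WW D (b s) (y s) i := fun s i => by
    rw [← he.p₂ (b s).1.1, WW, g_N]
    exact congrFun (congrArg _ (funext fun i => h.vp _ (hO s i))) i
  have a1 : Bd fun p : S × Ix k => (1 - (b p.1).2 : ℝ) • j' (j (D.u ((b p.1).1.1, z p.1 p.2))) +
      ((b p.1).2 : ℝ) • j' (WW D (b p.1) (y p.1) p.2) :=
    ((b1.p1 he fun p => (b p.1).1.1).clm (-1)).eq fun p => by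
      simp only [he.p₁, map_sub, ContinuousLinearMap.map_smul_of_tower, he.jj, he.jj',
        ContinuousLinearMap.neg_apply, ContinuousLinearMap.one_apply]
      abel
  have a2 : Bd fun p : S × Ix k => ((b p.1).2 : ℝ) • j' (j (D.u ((b p.1).1.1, z p.1 p.2))) -
      (1 - (b p.1).2 : ℝ) • j' (WW D (b p.1) (y p.1) p.2) :=
    (b2.clm j').eq fun p => by
      simp only [he.p₂, map_sub, map_add, ContinuousLinearMap.map_smul_of_tower, he.jj']
      abel
  have a3 : Bd fun p : S × Ix k => j' (j (D.u ((b p.1).1.1, z p.1 p.2))) :=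
    (bi.sm ((bt.sm a1).add (bl.sm a2))).eq fun p => by
      rw [eq_inv_smul_iff₀ (by linarith [nz (b p.1).2])]; module
  have a4 : Bd fun p : S × Ix k => j' (WW D (b p.1) (y p.1) p.2) :=
    (bi.sm ((bl.sm a1).sub (bt.sm a2))).eq fun p => by
      rw [eq_inv_smul_iff₀ (by linarith [nz (b p.1).2])]; module
  have a5 : Bd fun p : S × Ix k => WW D (b p.1) (y p.1) p.2 := (a4.clm j).eq fun p => (vW _ _).symm
  have a6 : Bd fun p : S × Ix k => D.π₂ (b p.1).1.1 (z p.1 p.2) :=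
    Bd.ux (x := fun p : S × Ix k => (b p.1).1.1) h (a3.eq fun p => he.p₁ _ _)
  have a7 : Bd fun p : S × Ix k => D.u ((b p.1).1.1, z p.1 p.2) :=
    (Bd.add ⟨M, fun p => h.ub (b p.1).1.1 (z p.1 p.2)⟩ a3).eq fun p => by rw [he.p₁]; abel
  have a8 : Bd fun p : S × Ix k => D.π₁ (b p.1).1.1 (Fo.g (-(b p.1).1.2) (y p.1) p.2) :=
    ⟨R₀, fun p => by
      have := h.vb _ (hO p.1 p.2)
      simpa only [pp, map_sub, ContinuousLinearMap.map_smul_of_tower, h.p₁.id, sub_self, smul_zero,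
        sub_zero] using this⟩
  have a9 : Bd fun p : S × Ix k => D.π₁ (b p.1).1.1 (y p.1 p.2) :=
    (Bd.g (y := fun s i => D.π₁ (b s).1.1 (Fo.g (-(b s).1.2) (y s) i)) a8 fun s => (b s).1.2).eq
      fun p => by rw [← g_N, Fo.g_neg']
  have by' : Bd fun p : S × Ix k => y p.1 p.2 :=
    (((b1.add a9).add (bt.sm a7)).add (bl.sm a4)).eq fun p => by abel
  have bY := by'.g fun s => -(b s).1.2
  refine ⟨by', (((b2.add a6).sub (bl.sm (a7.clm j))).add (bt.sm a5)).eq fun p => by abel,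
    (Bd.g (y := fun s => WW D (b s) (y s)) a5 fun s => -(b s).1.2).eq fun p => ?_,
    bY.sub (bl.sm (bY.sub a8))⟩
  rw [WW, Fo.g_neg]

theorem RR_ok [T2Space X] (h : D.Ok c κ R₀ M) (he : En D j j') : (RR D k j j').Ok := by
  have c1 := h.p₁.ct
  have c2 := h.p₂.ct
  have cu := h.uc
  have cY : ∀ i, Continuous fun w : ((X × ℝ) × I) × V k (E₁ × E₂) =>
      (w.1.1.1, pp D w.1 (s1 w.2) i) := fun i => by
    have a : Continuous fun w : ((X × ℝ) × I) × V k (E₁ × E₂) => Fo.g (-w.1.1.2) (s1 w.2) i :=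
      (continuous_apply i).comp (Fo.cont_g (by fun_prop) (by fun_prop))
    exact Continuous.prodMk (by fun_prop) (a.sub (Continuous.smul
      (f := fun w : ((X × ℝ) × I) × V k (E₁ × E₂) => (w.1.2 : ℝ)) (by fun_prop)
      (a.sub (Continuous.clm_apply (by fun_prop) a))))
  have ct : ContinuousOn (RR D k j j').P (RR D k j j').O := by
    have a : ContinuousOn (fun w : ((X × ℝ) × I) × V k (E₁ × E₂) => fun i =>
        D.v (w.1.1.1, pp D w.1 (s1 w.2) i)) (RR D k j j').O :=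
      continuousOn_pi.2 fun i => h.vc.comp (cY i).continuousOn fun w hw => hw i
    have a' : ContinuousOn (fun w : ((X × ℝ) × I) × V k (E₁ × E₂) => WW D w.1 (s1 w.2))
        (RR D k j j').O := by
      have := (by fun_prop : Continuous fun p : (((X × ℝ) × I) × V k (E₁ × E₂)) × V k E₂ =>
        Fo.g p.1.1.1.2 p.2).comp_continuousOn (continuousOn_id.prodMk a)
      simpa only [WW, Function.comp_def, id] using this
    have b : Continuous fun p : (((X × ℝ) × I) × V k (E₁ × E₂)) × V k E₂ =>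
        pr (fun i => s1 p.1.2 i - D.π₁ p.1.1.1.1 (s1 p.1.2 i) -
          (1 - p.1.1.2 : ℝ) • D.u (p.1.1.1.1, s2 p.1.2 i) - (p.1.1.2 : ℝ) • j' (p.2 i))
        fun i => s2 p.1.2 i - D.π₂ p.1.1.1.1 (s2 p.1.2 i) +
          (p.1.1.2 : ℝ) • j (D.u (p.1.1.1.1, s2 p.1.2 i)) - (1 - p.1.1.2 : ℝ) • p.2 i := by
      refine cont_pr (continuous_pi fun i => ?_) (continuous_pi fun i => ?_)
      · unfold s1 s2; fun_prop
      · unfold s2; fun_prop
    exact b.comp_continuousOn (continuousOn_id.prodMk a')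
  refine ⟨?_, fun w hw i => ?_, ct, fun w hw => ?_, fun K hK R => ?_, continuous_const,
    fun b y => rfl, fun b y e => e⟩
  · change IsOpen {w : ((X × ℝ) × I) × V k (E₁ × E₂) | ∀ i, _ ∈ D.Ov}
    rw [ofPred_forall]
    exact isOpen_iInter_of_finite fun i => h.vo.preimage (cY i)
  · change (_, pp D _ (sh k E₁ (s1 w.2)) i) ∈ D.Ov
    rw [pp_sh]
    exact hw (i - 1)
  · simp only [RR, s1_sh, WW_sh]
    rfl
  · let S := {w // w ∈ (RR D k j j').O ∧ ‖(RR D k j j').P w‖ ≤ R}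
    obtain ⟨b1, b2, b3, b4⟩ := bd h he (b := fun s : S => s.1.1) (y := fun s => s1 s.1.2)
      (z := fun s => s2 s.1.2) (fun s => s.2.1)
      ⟨R, fun p => (norm_fst_le _).trans ((norm_le_pi_norm _ p.2).trans p.1.2.2)⟩
      ⟨R, fun p => (norm_snd_le _).trans ((norm_le_pi_norm _ p.2).trans p.1.2.2)⟩
    obtain ⟨R₁, p⟩ := b1.two b2
    obtain ⟨R₂, q⟩ := b3.two b4
    refine pp_of (C := (K ×ˢ Metric.closedBall 0 |R₁|) ∩ ⋂ i, (fun w => (w.1.1.1,
      pp D w.1 (s1 w.2) i)) ⁻¹' {w ∈ D.Ov | ‖D.v w‖ ≤ R₂ ∧ ‖w.2‖ ≤ R₂}) ct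
      ((hK.prod (isCompact_closedBall _ _)).inter_right
        (isClosed_iInter fun i => (h.vk R₂).isClosed.preimage (cY i)))
      (fun w hw i => (mem_iInter.1 hw.2 i).1) hK fun w hw t r => ?_
    exact ⟨⟨t, mem_closedBall_zero_iff.2 ((pi_norm_le_iff_of_nonneg (abs_nonneg _)).2 fun i =>
      (norm_prod_le_iff.2 (p (⟨w, hw, r⟩, i))).trans (le_abs_self _))⟩,
      mem_iInter.2 fun i => ⟨hw i, q (⟨w, hw, r⟩, i)⟩⟩

variable (D k j j') in
/-- the family over the circle -/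
def RC : PM ((X × UnitAddCircle) × I) k (E₁ × E₂) :=
  (RR D k j j').pull fun b => ((b.1.1, rep b.1.2), b.2)

theorem RC_ok [T2Space X] (h : D.Ok c κ R₀ M) (he : En D j j') : (RC D k j j').Ok := by
  refine desc (φ := Prod.map (Prod.map id (↑)) id)
    ((IsOpenQuotientMap.id.prodMap QuotientAddGroup.isOpenQuotientMap_mk).prodMap .id)
    (fun K hK => ⟨((Prod.fst '' (Prod.fst '' K)) ×ˢ Icc 0 1) ×ˢ univ,
      (((hK.image continuous_fst).image continuous_fst).prod isCompact_Icc).prod isCompact_univ,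
      fun b hb => ⟨((b.1.1, rep b.1.2), b.2), ⟨⟨⟨_, ⟨_, hb, rfl⟩, rfl⟩, rep_mem _⟩, trivial⟩, ?_⟩⟩)
    (RR_ok h he) ?_ ?_ fun b => rfl
  · simp [coe_rep]
  · rintro ⟨⟨x, r⟩, l⟩ y
    change (∀ i, (x, pp D ((x, rep (r : UnitAddCircle)), l) (s1 y) i) ∈ D.Ov) ↔
      ∀ i, (x, pp D ((x, r), l) (s1 y) i) ∈ D.Ov
    simp only [rep_coe, pp_per]
    exact ⟨fun a i => by simpa using a (i - ((- -⌊r⌋ : ℤ) : Ix k)), fun a i => a _⟩
  · rintro ⟨⟨x, r⟩, l⟩ y -
    have e : WW D ((x, rep (r : UnitAddCircle)), l) (s1 y) = WW D ((x, r), l) (s1 y) := by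
      rw [rep_coe, WW_per]
    simp only [RC, RR, PM.pull, Prod.map, id, e]

theorem F_sm {B E : Type} {k : ℕ} [NormedAddCommGroup E] [NormedSpace ℝ E] {A A' : PM B k E}
    (o : A.O = A'.O) (p : ∀ w ∈ A.O, A.P w = A'.P w) (n : A.n = A'.n) (τ : B × V k E → ℝ) :
    (A.F τ).Sm (A'.F τ) :=
  ⟨by simp only [PM.F, o], fun w hw => by simp only [PM.F]; rw [p _ hw.2, n]⟩

theorem un_coe {E : Type} [Zero E] (y : E) : un (y : OnePoint E) = y := rfl

theorem end0 : (RC D k j j').pull (fun b => (b, 0)) = D.Orb k := by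
  simp only [RC, RR, PM.pull, Data.Orb, WW, pp]
  congr 1
  · simp
  · funext w; simp [Pi.sub_def]

theorem end1 {a : PT X E₁} {b : PT X E₂} (ha : IsA D j' a) (hb : IsB D j b) (τ) :
    (((RC D k j j').pull fun b => (b, 1)).F τ).Sm ((PL k a b).F τ) := by
  have e : ∀ x r (y : V k E₁) i, pp D ((x, r), 1) y i = D.π₁ x (Fo.g (-r) y i) := fun x r y i => by
    simp [pp]
  refine F_sm (A := (RC D k j j').pull fun b => (b, 1)) (A' := PL k a b) (Set.ext fun w => ?_)
    (fun w hw => ?_) rfl τ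
  · change (∀ i, (_, pp D ((w.1.1, rep w.1.2), 1) (s1 w.2) i) ∈ D.Ov) ↔ _ ∧ _
    simp only [e]
    refine ⟨fun t => ⟨fun i => ?_, fun i => ?_⟩, fun t i => ?_⟩
    · rw [(ha _ _).1 (t i)]; exact coe_ne_infty _
    · rw [hb]; exact coe_ne_infty _
    · by_contra c
      exact t.1 i ((ha _ _).2 c)
  · change (∀ i, (_, pp D ((w.1.1, rep w.1.2), 1) (s1 w.2) i) ∈ D.Ov) at hw
    simp only [e] at hw
    simp only [RC, RR, PM.pull, PL, WW, e, fun i => (ha _ _).1 (hw i), hb _ _, un_coe]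
    congr 1
    · funext i
      have t := Fo.g_neg' (rep w.1.2) (s1 w.2)
      generalize Fo.g (-rep w.1.2) (s1 w.2) = Y at t ⊢
      rw [← t, g_N, g_N]
      have := congrFun (map_sub (Fo.g (rep w.1.2)) (Y - fun i => D.π₁ w.1.1 (Y i))
        fun i => j' (D.v (w.1.1, D.π₁ w.1.1 (Y i)))) i
      rw [map_sub _ Y] at this
      simp only [Set.Icc.coe_one, sub_self, zero_smul, sub_zero, one_smul]
      exact this.symm
    · funext i; simp

end Rt

open Rt in
/-- **ROT** -/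
theorem rot : ROT := by
  intro A _ T E₁ E₂ _ _ _ _ _ _ k δ hk hδ D c κ R₀ M j j' h he
  obtain ⟨a, ha⟩ := ex_a h he
  obtain ⟨b, hb⟩ := ex_b h he
  have cs : (RC D k j j').Cs δ := ⟨univ, isCompact_univ, fun b hb => absurd trivial hb⟩
  have ok := PM.fok (RC_ok (k := k) h he) (tau_ok hδ) cs
  have e := PM.eqv_F (RC_ok (k := k) h he) hδ cs
  have o1 : (((RC D k j j').pull fun b => (b, 1)).F (tau δ)).Ok := ok.sl 1
  rw [end0] at e
  exact ⟨a, b, ha, hb, T.an_eqv k (sp (E₁ × E₂)) _ _ hk (e.trans (o1.eqv_sm (end1 ha hb _)))⟩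

end Crest.Agent.N218.D7

end
end

-- ▼ part N218/D7/Pt
section

/-!
# Row 218, block D7 (helper17): the groupoid of pointed homotopies
-/

set_option autoImplicit false

open Set OnePoint unitInterval

noncomputable section

namespace Crest.Agent.N218.D7

namespace PT
variable {B B' E : Type} [TopologicalSpace B] [TopologicalSpace B'] [TopologicalSpace E]

theorem ext' {a b : PT B E} (h : ∀ x y, a.f (x, y) = b.f (x, y)) : a = b := by
  obtain ⟨f, _, _⟩ := a
  obtain ⟨g, _, _⟩ := b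
  have : f = g := funext fun z => h z.1 z.2
  subst this; rfl

/-- fibrewise composition -/
def comp (a b : PT B E) : PT B E :=
  ⟨fun z => a.f (z.1, b.f z), a.ct.comp (continuous_fst.prodMk b.ct), fun x => by
    simp only [b.pt, a.pt]⟩

@[simp] theorem comp_f (a b : PT B E) (x : B) (y : OnePoint E) :
    (a.comp b).f (x, y) = a.f (x, b.f (x, y)) := rfl
@[simp] theorem one_f (x : B) (y : OnePoint E) : (one : PT B E).f (x, y) = y := rfl
@[simp] theorem pull_f (a : PT B E) (φ : B' → B) (h : Continuous φ) (x : B') (y : OnePoint E) :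
    (a.pull φ h).f (x, y) = a.f (φ x, y) := rfl
@[simp] theorem at'_f (a : PT B E) (x : B) (u : Unit) (y : OnePoint E) :
    (a.at' x).f (u, y) = a.f (x, y) := rfl

theorem Ht.of_eq {a b : PT B E} (h : ∀ x y, a.f (x, y) = b.f (x, y)) : a.Ht b :=
  ext' h ▸ Ht.rfl' a

theorem Ht.symm {a b : PT B E} (h : a.Ht b) : b.Ht a := by
  obtain ⟨H, h0, h1⟩ := h
  refine ⟨H.pull (fun z => (z.1, σ z.2)) (by fun_prop), fun x y => ?_, fun x y => ?_⟩
  · simp [h1]
  · simp [h0]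

theorem Ht.trans {a b c : PT B E} (h : a.Ht b) (h' : b.Ht c) : a.Ht c := by
  obtain ⟨H, h0, h1⟩ := h
  obtain ⟨K, k0, k1⟩ := h'
  have hc : Continuous (projIcc (0 : ℝ) 1 zero_le_one) := continuous_projIcc
  refine ⟨⟨fun z => if ((z.1.2 : I) : ℝ) ≤ 1 / 2 then
      H.f ((z.1.1, projIcc 0 1 zero_le_one (2 * (z.1.2 : ℝ))), z.2) else
      K.f ((z.1.1, projIcc 0 1 zero_le_one (2 * (z.1.2 : ℝ) - 1)), z.2), ?_, fun x => ?_⟩,
    fun x y => ?_, fun x y => ?_⟩
  · refine Continuous.if_le (H.ct.comp (by fun_prop)) (K.ct.comp (by fun_prop)) (by fun_prop)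
      continuous_const fun z hz => ?_
    have e1 : projIcc (0 : ℝ) 1 zero_le_one (2 * (z.1.2 : ℝ)) = 1 := by
      rw [hz]; exact projIcc_of_right_le _ (by norm_num)
    have e0 : projIcc (0 : ℝ) 1 zero_le_one (2 * (z.1.2 : ℝ) - 1) = 0 := by
      rw [hz]; exact projIcc_of_le_left _ (by norm_num)
    rw [e1, e0, h1, k0]
  · simp only [H.pt, K.pt, ite_self]
  · have e0 : projIcc (0 : ℝ) 1 zero_le_one 0 = 0 := projIcc_of_le_left _ le_rfl
    simp [e0, h0]
  · have e1 : projIcc (0 : ℝ) 1 zero_le_one (2 - 1) = 1 := projIcc_of_right_le _ (by norm_num)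
    have : ¬ ((1 : ℝ) ≤ 2⁻¹) := by norm_num
    simp [e1, k1, this]

theorem Ht.comp {a a' b b' : PT B E} (h : a.Ht a') (h' : b.Ht b') :
    (a.comp b).Ht (a'.comp b') := by
  obtain ⟨H, h0, h1⟩ := h
  obtain ⟨K, k0, k1⟩ := h'
  exact ⟨H.comp K, fun x y => by simp [h0, k0], fun x y => by simp [h1, k1]⟩

theorem Ht.pull {a a' : PT B E} (h : a.Ht a') (φ : B' → B) (hφ : Continuous φ) :
    (a.pull φ hφ).Ht (a'.pull φ hφ) := by
  obtain ⟨H, h0, h1⟩ := h
  exact ⟨H.pull (fun z => (φ z.1, z.2)) (by fun_prop), fun x y => by simp [h0],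
    fun x y => by simp [h1]⟩

/-- homotopic changes of base -/
theorem ht_pull (a : PT B E) (φ : B' × I → B) (hφ : Continuous φ) :
    (a.pull (fun x => φ (x, 0)) (by fun_prop)).Ht (a.pull (fun x => φ (x, 1)) (by fun_prop)) :=
  ⟨a.pull φ hφ, fun _ _ => rfl, fun _ _ => rfl⟩

/-- members along a path -/
theorem ht_at (a : PT B E) {x x' : B} (h : Joined x x') : (a.at' x).Ht (a.at' x') := by
  obtain ⟨γ⟩ := h
  exact ⟨a.pull (fun z => γ z.2) (by fun_prop), fun _ _ => by simp, fun _ _ => by simp⟩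


end PT

theorem sx_joined (x x' : Sx) : Joined x x' := by
  have h : IsPathConnected (Metric.sphere (0 : EuclideanSpace ℝ (Fin 12)) 1) :=
    isPathConnected_sphere (by rw [← Module.finrank_eq_rank]; simp) _ zero_le_one
  haveI := isPathConnected_iff_pathConnectedSpace.1 h
  exact PathConnectedSpace.joined x x'

end Crest.Agent.N218.D7

end
end

-- ▼ part N218/D7/Loc
section

/-!
# Row 218, block D7 (helper17): `LOC`
-/

set_option autoImplicit false

open Set OnePoint unitInterval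
open scoped InnerProductSpace

noncomputable section

namespace Crest.Agent.N218.D7

namespace LocK

/-- the height -/
def ht (p x : Sx) : ℝ := ⟪x.1, p.1⟫_ℝ

lemma ht_ct (p : Sx) : Continuous (ht p) := by unfold ht; fun_prop

/-- cut-off -/
def be (p x : Sx) : ℝ := min 1 (4 * (ht p x + 1))

lemma be_ct (p : Sx) : Continuous (be p) := by
  have := ht_ct p
  unfold be; fun_prop

/-- the unnormalised contraction -/
def ku (p : Sx) (z : Sx × I) : EuclideanSpace ℝ (Fin 12) :=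
  (1 - (z.2 : ℝ) * be p z.1) • z.1.1 + ((z.2 : ℝ) * be p z.1) • p.1

lemma ku_ct (p : Sx) : Continuous (ku p) := by
  have := be_ct p
  unfold ku; fun_prop

lemma nrm (x : Sx) : ‖x.1‖ = 1 := by simpa using x.2

lemma ku_ne (p : Sx) (z : Sx × I) : ku p z ≠ 0 := by
  intro h
  obtain ⟨x, s⟩ := z
  set t : ℝ := (s : ℝ) * be p x with ht'
  have hx : ⟪x.1, x.1⟫_ℝ = 1 := by rw [real_inner_self_eq_norm_sq, nrm]; norm_num
  have hp : ⟪p.1, p.1⟫_ℝ = 1 := by rw [real_inner_self_eq_norm_sq, nrm]; norm_num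
  have h' : (1 - t) • x.1 + t • p.1 = 0 := h
  have e1 : (1 - t) + t * ht p x = 0 := by
    have := congrArg (fun v => ⟪x.1, v⟫_ℝ) h'
    simpa [inner_add_right, inner_smul_right, hx, ht, -inner_self_eq_norm_sq_to_K] using this
  have e2 : (1 - t) * ht p x + t = 0 := by
    have := congrArg (fun v => ⟪v, p.1⟫_ℝ) h'
    simpa [inner_add_left, inner_smul_left, hp, ht, -inner_self_eq_norm_sq_to_K] using this
  have e3 : ht p x = -1 := by linear_combination e1 + e2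
  have e4 : t = 0 := by rw [ht', be, e3]; norm_num
  rw [e4] at e1
  norm_num at e1

/-- the contraction of the cap -/
def ka (p : Sx) (z : Sx × I) : Sx :=
  ⟨‖ku p z‖⁻¹ • ku p z, by
    simp [norm_smul, inv_mul_cancel₀ (norm_ne_zero_iff.2 (ku_ne p z))]⟩

lemma ka_ct (p : Sx) : Continuous (ka p) := by
  have := ku_ct p
  exact Continuous.subtype_mk
    ((this.norm.inv₀ fun z => norm_ne_zero_iff.2 (ku_ne p z)).smul this) _

lemma ka_zero (p x : Sx) : ka p (x, 0) = x := by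
  apply Subtype.ext
  simp [ka, ku, nrm]

lemma ka_one (p x : Sx) (h : -3 / 4 ≤ ht p x) : ka p (x, 1) = p := by
  have : be p x = 1 := min_eq_left (by linarith)
  apply Subtype.ext
  simp [ka, ku, nrm, this]

end LocK

open LocK in
theorem loc : LOC := by
  intro E _ a p x₀ h0
  obtain ⟨H, e0, e1⟩ := (a.ht_at (sx_joined p x₀)).trans h0
  have hk := ka_ct p
  have hh := ht_ct p
  have hc : Continuous (projIcc (0 : ℝ) 1 zero_le_one) := continuous_projIcc
  have s1 : a.Ht (a.pull (fun x => ka p (x, 1)) (by fun_prop)) :=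
    (PT.Ht.of_eq fun x y => by simp [ka_zero]).trans (a.ht_pull (ka p) hk)
  let K : PT (Sx × I) E := ⟨fun z => if ht p z.1.1 ≤ -3 / 4 then a.f (ka p (z.1.1, 1), z.2) else
      H.f (((), projIcc 0 1 zero_le_one ((z.1.2 : ℝ) * (4 * ht p z.1.1 + 3))), z.2), by
    refine Continuous.if_le (a.ct.comp (by fun_prop)) (H.ct.comp (by fun_prop)) (by fun_prop)
      continuous_const fun z hz => ?_
    have : projIcc (0 : ℝ) 1 zero_le_one ((z.1.2 : ℝ) * (4 * ht p z.1.1 + 3)) = 0 :=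
      projIcc_of_le_left _ (by rw [hz]; norm_num)
    rw [this, e0, ka_one p _ hz.ge]; rfl, fun x => by simp only [a.pt, H.pt, ite_self]⟩
  refine ⟨K.pull (fun x => (x, 1)) (by fun_prop), s1.trans ⟨K, fun x y => ?_, fun x y => rfl⟩,
    fun x y hx => ?_⟩
  · show (if ht p x ≤ -3 / 4 then _ else _) = a.f (ka p (x, 1), y)
    split_ifs with h
    · rfl
    · have : projIcc (0 : ℝ) 1 zero_le_one (((0 : I) : ℝ) * (4 * ht p x + 3)) = 0 :=
        projIcc_of_le_left _ (by simp)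
      simp only []
      rw [this, e0, ka_one p _ (not_le.1 h).le]; rfl
  · have hx' : -1 / 2 ≤ ht p x := hx
    show (if ht p x ≤ -3 / 4 then _ else _) = y
    rw [if_neg (by linarith)]
    have : projIcc (0 : ℝ) 1 zero_le_one (((1 : I) : ℝ) * (4 * ht p x + 3)) = 1 :=
      projIcc_of_right_le _ (by simp; linarith)
    simp only []
    rw [this, e1]; rfl

end Crest.Agent.N218.D7

end
end

-- ▼ part N218/D7/Sep

/-!
# Row 218 (helper88): separated supports
-/

set_option autoImplicit false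
set_option linter.unusedVariables false
set_option linter.unusedSectionVars false

open Set OnePoint unitInterval
open scoped InnerProductSpace

noncomputable section

namespace Crest.Agent.N218.D7

open Pm

namespace Sp

theorem F_cg {B B' E : Type} [TopologicalSpace B] [TopologicalSpace B'] [NormedAddCommGroup E]
    [NormedSpace ℝ E] {k : ℕ} {A : PM B k E} {A' : PM B' k E} {b : B} {b' : B'} (δ : ℝ)
    (h : ∀ y, ((b, y) ∈ A.O ↔ (b', y) ∈ A'.O) ∧ A.P (b, y) = A'.P (b', y)) (hn : A.n b = A'.n b')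
    (y : V k E) : ((b, y) ∈ (A.F (tau δ)).O ↔ (b', y) ∈ (A'.F (tau δ)).O) ∧
      (A.F (tau δ)).h (b, y) = (A'.F (tau δ)).h (b', y) :=
  ⟨and_congr_right fun _ => (h _).1, congrArg₂ (· + ·) (h _).2 (by rw [hn]; rfl)⟩

variable {X E₁ E₂ : Type} [TopologicalSpace X] [NormedAddCommGroup E₁] [InnerProductSpace ℂ E₁]
  [NormedAddCommGroup E₂] [InnerProductSpace ℂ E₂] {k : ℕ} {a a' : PT X E₁} {b b' : PT X E₂}
  {x : X}

theorem pl_cg (ha : ∀ y, a.f (x, y) = a'.f (x, y)) (hb : ∀ z, b.f (x, z) = b'.f (x, z))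
    (r : UnitAddCircle) (w : V k (E₁ × E₂)) :
    (((x, r), w) ∈ (PL k a b).O ↔ ((x, r), w) ∈ (PL k a' b').O) ∧
      (PL k a b).P ((x, r), w) = (PL k a' b').P ((x, r), w) := by
  simp only [PL, mem_ofPred_eq, ha, hb, and_self]

theorem pl_id (ha : ∀ y, a.f (x, y) = y) (r : UnitAddCircle) (w : V k (E₁ × E₂)) :
    (((x, r), w) ∈ (PL k a b).O ↔ ∀ i, b.f (x, (s2 w i : E₂)) ≠ ∞) ∧
      (PL k a b).P ((x, r), w) = pr (s1 w) fun i => un (b.f (x, (s2 w i : E₂))) := by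
  simp only [PL, mem_ofPred_eq, ha]
  exact ⟨and_iff_right fun i => coe_ne_infty _, congrArg (pr · _) (Fo.g_neg' _ _)⟩

theorem noz (ha : ∀ y, a.f (x, y) = y) (hb : ∀ z, b.f (x, z) = z) (δ : ℝ) (r : UnitAddCircle)
    (w : V k (E₁ × E₂)) : ((x, r), w) ∉ ((PL k a b).F (tau δ)).Z := fun h => by
  have e := h.2
  simp only [PM.F] at e
  rw [(pl_id ha r _).2] at e
  simp only [hb] at e
  have : w = 0 := (sub_add_cancel w _).symm.trans e
  exact h.1.1 (by rw [this]; exact mn_zero)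

end Sp

open Sp in
theorem sep (hP : PLH) : SEP := by
  intro A _ T E₁ E₂ _ _ _ _ _ _ k δ hk hd a b p ha hb
  have ok := fun (a : PT Sx E₁) (b : PT Sx E₂) =>
    (hP A T E₁ E₂ k δ hk hd a a b b (PT.Ht.rfl' a) (PT.Ht.rfl' b)).2.1
  replace hb : ∀ (x : Sx) z, ⟪x.1, p.1⟫_ℝ ≤ 1 / 2 → b.f (x, z) = z := fun x z h =>
    hb x z (by rw [show (-p).1 = -p.1 from rfl, inner_neg_right]; linarith)
  have c : Continuous fun w : (Sx × UnitAddCircle) × V k (E₁ × E₂) => ⟪w.1.1.1, p.1⟫_ℝ := by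
    fun_prop
  set N : Set ((Sx × UnitAddCircle) × V k (E₁ × E₂)) := {w | ⟪w.1.1.1, p.1⟫_ℝ < 0}
  set N' : Set ((Sx × UnitAddCircle) × V k (E₁ × E₂)) := {w | 0 < ⟪w.1.1.1, p.1⟫_ℝ}
  have q := (ok a PT.one).eqv_rs (N := N) (isOpen_lt c continuous_const) (fun _ i => i)
    fun ⟨⟨x, r⟩, w⟩ i => not_le.1 fun h : 0 ≤ ⟪x.1, p.1⟫_ℝ =>
      noz (fun y => ha x y (by linarith)) (fun _ => rfl) δ r w i
  have q' := (ok PT.one b).eqv_rs (N := N') (isOpen_lt continuous_const c) (fun _ i => i)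
    fun ⟨⟨x, r⟩, w⟩ i => not_le.1 fun h : ⟪x.1, p.1⟫_ℝ ≤ 0 =>
      noz (fun _ => rfl) (fun y => hb x y (by linarith)) δ r w i
  have e : ∀ w ∈ N, (w ∈ ((PL k a PT.one).F (tau δ)).O ↔ w ∈ ((PL k a b).F (tau δ)).O) ∧
      ((PL k a PT.one).F (tau δ)).h w = ((PL k a b).F (tau δ)).h w := fun ⟨⟨x, r⟩, w⟩ i =>
    F_cg δ (pl_cg (a := a) (a' := a) (b := PT.one) (b' := b) (fun _ => rfl) (fun z => (hb x z (by
      have : ⟪x.1, p.1⟫_ℝ < 0 := i
      linarith)).symm) r) rfl w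
  have e' : ∀ w ∈ N', (w ∈ ((PL k PT.one b).F (tau δ)).O ↔ w ∈ ((PL k a b).F (tau δ)).O) ∧
      ((PL k PT.one b).F (tau δ)).h w = ((PL k a b).F (tau δ)).h w := fun ⟨⟨x, r⟩, w⟩ i =>
    F_cg δ (pl_cg (a := PT.one) (a' := a) (b := b) (b' := b) (fun z => (ha x z (by
      have : 0 < ⟪x.1, p.1⟫_ℝ := i
      linarith)).symm) (fun _ => rfl) r) rfl w
  have s : (((PL k a PT.one).F (tau δ)).rs N).Sm (((PL k a b).F (tau δ)).rs N) :=
    ⟨Set.ext fun w => and_congr_left fun i => (e w i).1, fun w i => (e w i.2).2⟩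
  have s' : (((PL k PT.one b).F (tau δ)).rs N').Sm (((PL k a b).F (tau δ)).rs N') :=
    ⟨Set.ext fun w => and_congr_left fun i => (e' w i).1, fun w i => (e' w i.2).2⟩
  have o := (ok PT.one b).sl (0 : UnitAddCircle)
  have u : ∀ w : (Sx × UnitAddCircle) × V k (E₁ × E₂), (w ∈ ((PL k PT.one b).F (tau δ)).O ↔
      ((w.1.1, (0 : UnitAddCircle)), w.2) ∈ ((PL k PT.one b).F (tau δ)).O) ∧
      ((PL k PT.one b).F (tau δ)).h w =
        ((PL k PT.one b).F (tau δ)).h ((w.1.1, (0 : UnitAddCircle)), w.2) := fun ⟨⟨x, r⟩, w⟩ =>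
    F_cg δ (fun y => ⟨(pl_id (fun _ => rfl) r y).1.trans (pl_id (fun _ => rfl) 0 y).1.symm,
      (pl_id (fun _ => rfl) r y).2.trans (pl_id (fun _ => rfl) 0 y).2.symm⟩) rfl w
  have z : T.an k (sp (E₁ × E₂)) ((PL k PT.one b).F (tau δ)) = 0 :=
    (T.an_eqv k (sp (E₁ × E₂)) _ _ hk ((ok PT.one b).eqv_sm
      ⟨Set.ext fun w => (u w).1, fun w _ => (u w).2⟩)).trans (T.cst k (sp (E₁ × E₂)) _ hk o)
  rw [T.an_sum k (sp (E₁ × E₂)) _ N N' hk (ok a b) (q.1.sm s) (q'.1.sm s')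
    (disjoint_left.2 fun w i j => lt_asymm (show _ < (0 : ℝ) from i) j) fun ⟨⟨x, r⟩, w⟩ i => ?_,
    ← T.an_eqv k (sp (E₁ × E₂)) _ _ hk (q.2.trans (q.1.eqv_sm s)),
    ← T.an_eqv k (sp (E₁ × E₂)) _ _ hk (q'.2.trans (q'.1.eqv_sm s')), z, add_zero]
  exact lt_or_gt_of_ne fun h : ⟪x.1, p.1⟫_ℝ = 0 =>
    noz (fun y => ha x y (by linarith)) (fun y => hb x y (by linarith)) δ r w i

end Crest.Agent.N218.D7

end
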